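import Vale.Agent.P018.Defs

/-! # P018: a Bezout-type bound by linear algebra, and height control. -/

namespace Vale.Agent.P018
open MvPolynomial

theorem two_mul_sum_succ (n : ℕ) : (∑ i ∈ Finset.range (n + 1), (i + 1)) * 2 =
    (n + 1) * (n + 2) := by
  induction n with
  | zero => simp
  | succ n ih =>
    rw [Finset.sum_range_succ, add_mul, ih]
    ring

/-- the index set of monomials of degree at most `n` in two variables. -/
noncomputable def triEquiv (n : ℕ) : {m : Fin 2 →₀ ℕ | (m.sum fun _ e => e) ≤ n} ≃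
      ↥((Finset.range (n + 1)).sigma (fun i => Finset.range (n + 1 - i))) where
  toFun := fun m => ⟨⟨m.1 0, m.1 1⟩, by
        have := m.2
        simp only [Set.mem_ofPred_eq] at this
        rw [Finsupp.sum_fintype _ _ (fun _ => rfl), Fin.sum_univ_two] at this
        simp only [Finset.mem_sigma, Finset.mem_range]
        omega⟩
  invFun := fun p => ⟨Finsupp.equivFunOnFinite.symm ![p.1.1, p.1.2], by
        have := p.2
        simp only [Finset.mem_sigma, Finset.mem_range] at this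
        simp only [Set.mem_ofPred_eq]
        rw [Finsupp.sum_fintype _ _ (fun _ => rfl), Fin.sum_univ_two]
        simp
        omega⟩
  left_inv := fun m => by
        apply Subtype.ext
        ext i
        fin_cases i <;> simp
  right_inv := fun p => by
        apply Subtype.ext
        simp

theorem card_tri (n : ℕ) : Nat.card {m : Fin 2 →₀ ℕ | (m.sum fun _ e => e) ≤ n} * 2 =
    (n + 1) * (n + 2) := by
  rw [Nat.card_congr (triEquiv n), Nat.card_eq_fintype_card, Fintype.card_coe, Finset.card_sigma]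
  simp only [Finset.card_range]
  have h : ∑ i ∈ Finset.range (n + 1), (n + 1 - i) = ∑ i ∈ Finset.range (n + 1), (i + 1) := by
    rw [← Finset.sum_range_reflect]
    apply Finset.sum_congr rfl
    intro i hi
    rw [Finset.mem_range] at hi
    omega
  rw [h, two_mul_sum_succ]

/-- polynomials of degree at most `n`. -/
noncomputable abbrev VV (n : ℕ) : Submodule ℚ (MvPolynomial (Fin 2) ℚ) :=
  restrictTotalDegree (Fin 2) ℚ n

theorem finrank_VV (n : ℕ) : Module.finrank ℚ (VV n) * 2 = (n + 1) * (n + 2) := by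
  rw [← card_tri]
  congr 1
  exact Module.finrank_eq_nat_card_basis (basisRestrictSupport ℚ _)

/-- evaluation at the points of `Z` as a linear map. -/
noncomputable def evL (Z : Finset (ℤ × ℤ)) : MvPolynomial (Fin 2) ℚ →ₗ[ℚ] (Z → ℚ) where
  toFun := fun P z => evQ z.1 P
  map_add' := fun P Q => by
    funext z
    simp
  map_smul' := fun c P => by
    funext z
    simp [evQ, smul_eval]

@[simp] theorem evL_apply (Z : Finset (ℤ × ℤ)) (P : MvPolynomial (Fin 2) ℚ) (z : Z) :
    evL Z P z = evQ z.1 P := rfl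

/-- a linear form vanishing at `w` but not at `z`. -/
noncomputable def sepForm (z w : ℤ × ℤ) : MvPolynomial (Fin 2) ℚ :=
  if z.1 = w.1 then X 1 - C (w.2 : ℚ) else X 0 - C (w.1 : ℚ)

theorem totalDegree_X_sub_C_le (i : Fin 2) (a : ℚ) :
    (X i - C a : MvPolynomial (Fin 2) ℚ).totalDegree ≤ 1 := by
  refine (totalDegree_sub _ _).trans ?_
  simp

theorem sepForm_degree (z w : ℤ × ℤ) : (sepForm z w).totalDegree ≤ 1 := by
  unfold sepForm
  split_ifs
  · exact totalDegree_X_sub_C_le _ _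
  · exact totalDegree_X_sub_C_le _ _

theorem sepForm_self (z w : ℤ × ℤ) : evQ w (sepForm z w) = 0 := by
  unfold sepForm
  split_ifs <;> simp [evQ]

theorem sepForm_ne {z w : ℤ × ℤ} (h : z ≠ w) : evQ z (sepForm z w) ≠ 0 := by
  unfold sepForm
  split_ifs with h1
  · have h2 : z.2 ≠ w.2 := fun h2 => h (Prod.ext h1 h2)
    simp only [evQ, map_sub, eval_X, eval_C, Matrix.cons_val_one, Matrix.cons_val_zero]
    rw [sub_ne_zero]
    exact_mod_cast h2
  · simp only [evQ, map_sub, eval_X, eval_C, Matrix.cons_val_zero]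
    rw [sub_ne_zero]
    exact_mod_cast h1

theorem evL_surj (Z : Finset (ℤ × ℤ)) (n : ℕ) (hn : Z.card ≤ n) :
    (VV n).map (evL Z) = ⊤ := by
  classical
  rw [eq_top_iff, ← (Pi.basisFun ℚ Z).span_eq, Submodule.span_le]
  rintro _ ⟨z, rfl⟩
  set P : MvPolynomial (Fin 2) ℚ := ∏ w ∈ Z.erase z.1, sepForm z.1 w with hP
  have hPdeg : P ∈ VV n := by
    rw [mem_restrictTotalDegree]
    refine (totalDegree_finsetProd _ _).trans ?_
    refine (Finset.sum_le_sum (fun w _ => sepForm_degree z.1 w)).trans ?_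
    simp only [Finset.sum_const, smul_eq_mul, mul_one]
    exact (Finset.card_erase_le).trans hn
  have hz : evQ z.1 P ≠ 0 := by
    rw [hP, map_prod, Finset.prod_ne_zero_iff]
    intro w hw
    exact sepForm_ne (Finset.ne_of_mem_erase hw).symm
  have hw : ∀ w : Z, w ≠ z → evQ w.1 P = 0 := by
    intro w hw
    rw [hP, map_prod]
    refine Finset.prod_eq_zero (i := w.1) ?_ (sepForm_self _ _)
    exact Finset.mem_erase.2 ⟨fun h => hw (Subtype.ext h), w.2⟩
  refine ⟨(evQ z.1 P)⁻¹ • P, (VV n).smul_mem _ hPdeg, ?_⟩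
  rw [map_smul]
  funext w
  simp only [Pi.smul_apply, evL_apply, smul_eq_mul, Pi.basisFun_apply]
  by_cases h : w = z
  · subst h
    rw [inv_mul_cancel₀ hz]
    simp
  · rw [hw w h, mul_zero, Pi.single_eq_of_ne h]

/-- multiplication by `q` as a linear map. -/
noncomputable abbrev mulq (q : MvPolynomial (Fin 2) ℚ) :
    MvPolynomial (Fin 2) ℚ →ₗ[ℚ] MvPolynomial (Fin 2) ℚ := LinearMap.mulLeft ℚ q

theorem finrank_map_mulq {q : MvPolynomial (Fin 2) ℚ} (hq : q ≠ 0) (n : ℕ) :
    Module.finrank ℚ ((VV n).map (mulq q)) = Module.finrank ℚ (VV n) := by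
  have hinj : Function.Injective (mulq q) := by
    intro u v huv
    exact mul_left_cancel₀ hq huv
  exact (LinearEquiv.finrank_eq (Submodule.equivMapOfInjective (mulq q) hinj (VV n))).symm

theorem map_mulq_le {q : MvPolynomial (Fin 2) ℚ} {n m : ℕ} (h : q.totalDegree + m ≤ n) :
    (VV m).map (mulq q) ≤ VV n := by
  rintro _ ⟨u, hu, rfl⟩
  have hu' := (mem_restrictTotalDegree _ _ _).1 hu
  rw [mem_restrictTotalDegree]
  have := totalDegree_mul q u
  show (q * u).totalDegree ≤ n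
  omega

/-- Module C: Bezout-type bound. -/
theorem bezout_bound {q G : MvPolynomial (Fin 2) ℚ} (hq : Irreducible q) (hG : ¬ q ∣ G)
    (Z : Finset (ℤ × ℤ)) (h1 : ∀ z ∈ Z, evQ z q = 0) (h2 : ∀ z ∈ Z, evQ z G = 0) :
    Z.card ≤ q.totalDegree * G.totalDegree := by
  have hq0 : q ≠ 0 := hq.ne_zero
  have hG0 : G ≠ 0 := fun h => hG (h ▸ dvd_zero q)
  have hqp : Prime q := hq.prime
  set a := q.totalDegree with ha
  set b := G.totalDegree with hb
  set c := Z.card with hc
  set n := a + b + c with hn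
  set L := (evL Z).domRestrict (VV n) with hL
  have hrange : LinearMap.range L = ⊤ := by
    rw [hL, LinearMap.range_domRestrict, evL_surj Z n (by omega)]
  have hrn := LinearMap.finrank_range_add_finrank_ker L
  rw [hrange, finrank_top, Module.finrank_fintype_fun_eq_card, Fintype.card_coe] at hrn
  set Qn := (VV (b + c)).map (mulq q) with hQn
  set Gn := (VV (a + c)).map (mulq G) with hGn
  have hle : Qn ⊔ Gn ≤ (LinearMap.ker L).map (VV n).subtype := by
    rw [sup_le_iff]
    constructor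
    · intro u hu
      have huV : u ∈ VV n := map_mulq_le (by omega) hu
      refine ⟨⟨u, huV⟩, ?_, rfl⟩
      obtain ⟨v, _, rfl⟩ := hu
      rw [SetLike.mem_coe, LinearMap.mem_ker]
      funext z
      show evQ z.1 (q * v) = 0
      rw [map_mul, h1 z.1 z.2, zero_mul]
    · intro u hu
      have huV : u ∈ VV n := map_mulq_le (by omega) hu
      refine ⟨⟨u, huV⟩, ?_, rfl⟩
      obtain ⟨v, _, rfl⟩ := hu
      rw [SetLike.mem_coe, LinearMap.mem_ker]
      funext z
      show evQ z.1 (G * v) = 0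
      rw [map_mul, h2 z.1 z.2, zero_mul]
  have hfr : Module.finrank ℚ ((LinearMap.ker L).map (VV n).subtype) =
      Module.finrank ℚ (LinearMap.ker L) := Submodule.finrank_map_subtype_eq _ _
  have hle' := Submodule.finrank_mono hle
  rw [hfr] at hle'
  have hinf : Qn ⊓ Gn ≤ (VV c).map (mulq (q * G)) := by
    rintro u ⟨⟨v, hv, rfl⟩, ⟨w, hw, hvw⟩⟩
    have hvw' : G * w = q * v := hvw
    have hdvd : q ∣ G * w := ⟨v, hvw'⟩
    rcases hqp.dvd_or_dvd hdvd with h | h
    · exact absurd h hG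
    · obtain ⟨t, rfl⟩ := h
      have hv' : v = G * t := by
        apply mul_left_cancel₀ hq0
        rw [← hvw']
        ring
      refine ⟨t, ?_, ?_⟩
      · rw [SetLike.mem_coe, mem_restrictTotalDegree]
        rw [SetLike.mem_coe, mem_restrictTotalDegree] at hw
        rcases eq_or_ne t 0 with rfl | ht
        · simp
        · rw [totalDegree_mul_of_isDomain hq0 ht] at hw
          omega
      · show q * G * t = q * v
        rw [hv']
        ring
  have hinf' := Submodule.finrank_mono hinf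
  rw [finrank_map_mulq (mul_ne_zero hq0 hG0)] at hinf'
  have hsum := Submodule.finrank_sup_add_finrank_inf_eq Qn Gn
  rw [hQn, hGn, finrank_map_mulq hq0, finrank_map_mulq hG0, ← hQn, ← hGn] at hsum
  have d1 := finrank_VV n
  have d2 := finrank_VV (b + c)
  have d3 := finrank_VV (a + c)
  have d4 := finrank_VV c
  nlinarith [d1, d2, d3, d4]

theorem evL_surj_of_sep (V : Submodule ℚ (MvPolynomial (Fin 2) ℚ)) (Z : Finset (ℤ × ℤ))
    (h : ∀ z ∈ Z, ∃ P ∈ V, evQ z P ≠ 0 ∧ ∀ w ∈ Z, w ≠ z → evQ w P = 0) :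
    V.map (evL Z) = ⊤ := by
  classical
  rw [eq_top_iff, ← (Pi.basisFun ℚ Z).span_eq, Submodule.span_le]
  rintro _ ⟨z, rfl⟩
  obtain ⟨P, hP, hz, hw⟩ := h z.1 z.2
  refine ⟨(evQ z.1 P)⁻¹ • P, V.smul_mem _ hP, ?_⟩
  rw [map_smul]
  funext w
  simp only [Pi.smul_apply, evL_apply, smul_eq_mul, Pi.basisFun_apply]
  by_cases h : w = z
  · subst h
    rw [inv_mul_cancel₀ hz]
    simp
  · rw [hw w.1 w.2 (fun h' => h (Subtype.ext h')), mul_zero, Pi.single_eq_of_ne h]

/-- a small subset of `Z` imposing the same conditions on polynomials of degree at most `a`. -/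
theorem exists_small_subset (a : ℕ) (Z : Finset (ℤ × ℤ)) (hZ : Z.Nonempty)
    (q : MvPolynomial (Fin 2) ℚ) (hq0 : q ≠ 0) (hqa : q.totalDegree ≤ a)
    (hq : ∀ z ∈ Z, evQ z q = 0) :
    ∃ Z' ⊆ Z, Z'.Nonempty ∧ Z'.card < Module.finrank ℚ (VV a) ∧
      ∀ P ∈ VV a, (∀ z ∈ Z', evQ z P = 0) → ∀ z ∈ Z, evQ z P = 0 := by
  classical
  obtain ⟨Z', hZ'S, hmin⟩ := Finset.exists_min_image
    (Z.powerset.filter fun Y => ∀ P ∈ VV a, (∀ z ∈ Y, evQ z P = 0) → ∀ z ∈ Z, evQ z P = 0)
    Finset.card ⟨Z, by simp⟩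
  rw [Finset.mem_filter, Finset.mem_powerset] at hZ'S
  obtain ⟨hZ'Z, hprop⟩ := hZ'S
  have hne : Z'.Nonempty := by
    rw [Finset.nonempty_iff_ne_empty]
    rintro rfl
    obtain ⟨z, hz⟩ := hZ
    have := hprop 1 (by rw [mem_restrictTotalDegree]; simp) (by simp) z hz
    simp at this
  refine ⟨Z', hZ'Z, hne, ?_, hprop⟩
  have hsurj := evL_surj_of_sep (VV a) Z' (by
    intro z hz
    by_contra hcon
    have hcard : (Z'.erase z).card < Z'.card := Finset.card_erase_lt_of_mem hz
    have hbad : ¬ (∀ P ∈ VV a, (∀ w ∈ Z'.erase z, evQ w P = 0) → ∀ w ∈ Z, evQ w P = 0) := by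
      intro hgood
      have := hmin (Z'.erase z) (by
        rw [Finset.mem_filter, Finset.mem_powerset]
        exact ⟨(Finset.erase_subset _ _).trans hZ'Z, hgood⟩)
      omega
    apply hbad
    intro P hP hPe w hw
    by_cases hzP : evQ z P = 0
    · refine hprop P hP (fun v hv => ?_) w hw
      by_cases hvz : v = z
      · rw [hvz]; exact hzP
      · exact hPe v (Finset.mem_erase.2 ⟨hvz, hv⟩)
    · exact absurd ⟨P, hP, hzP, fun v hv hvz => hPe v (Finset.mem_erase.2 ⟨hvz, hv⟩)⟩ hcon)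
  set L := (evL Z').domRestrict (VV a) with hL
  have hrange : LinearMap.range L = ⊤ := by
    rw [hL, LinearMap.range_domRestrict, hsurj]
  have hrn := LinearMap.finrank_range_add_finrank_ker L
  rw [hrange, finrank_top, Module.finrank_fintype_fun_eq_card, Fintype.card_coe] at hrn
  have hker : 0 < Module.finrank ℚ (LinearMap.ker L) := by
    refine (Module.finrank_pos_iff_exists_ne_zero (R := ℚ) (M := LinearMap.ker L)).2 ?_
    refine ⟨⟨⟨q, (mem_restrictTotalDegree _ _ _).2 hqa⟩, ?_⟩, ?_⟩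
    · rw [LinearMap.mem_ker]
      funext z
      exact hq z.1 (hZ'Z z.2)
    · intro h
      apply hq0
      have := congrArg (fun x => x.1.1) h
      simpa using this
  omega

/-- the exponent set of monomials of degree at most `a`. -/
abbrev Idx (a : ℕ) : Type := {m : Fin 2 →₀ ℕ | (m.sum fun _ e => e) ≤ a}

noncomputable instance (a : ℕ) : Fintype (Idx a) := Fintype.ofEquiv _ (triEquiv a).symm

/-- the integer polynomial with given coefficients. -/
noncomputable def polyOf {a : ℕ} (t : Idx a → ℤ) : MvPolynomial (Fin 2) ℤ :=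
  ∑ m : Idx a, monomial m.1 (t m)

theorem coeff_polyOf {a : ℕ} (t : Idx a → ℤ) (m : Fin 2 →₀ ℕ) :
    (polyOf t).coeff m = if h : (m.sum fun _ e => e) ≤ a then t ⟨m, h⟩ else 0 := by
  classical
  unfold polyOf
  rw [coeff_sum]
  simp only [coeff_monomial]
  split_ifs with h
  · rw [Finset.sum_eq_single ⟨m, h⟩]
    · simp
    · intro b _ hb
      rw [if_neg]
      intro hbm
      exact hb (Subtype.ext hbm)
    · simp
  · apply Finset.sum_eq_zero
    intro b _
    rw [if_neg]
    rintro rfl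
    exact h b.2

theorem evZ_polyOf {a : ℕ} (t : Idx a → ℤ) (z : ℤ × ℤ) :
    evZ z (polyOf t) = ∑ m : Idx a, (z.1 ^ m.1 0 * z.2 ^ m.1 1) * t m := by
  unfold polyOf evZ
  rw [map_sum]
  apply Finset.sum_congr rfl
  intro m _
  rw [eval_monomial, Finsupp.prod_fintype _ _ (fun _ => pow_zero _), Fin.prod_univ_two]
  simp
  ring

theorem totalDegree_polyOf {a : ℕ} (t : Idx a → ℤ) : (polyOf t).totalDegree ≤ a := by
  unfold polyOf
  refine totalDegree_finsetSum_le ?_
  intro m _
  exact (totalDegree_monomial_le _ _).trans m.2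

open Matrix in
attribute [local instance] Matrix.seminormedAddCommGroup in
/-- Siegel's lemma in the form we need. -/
theorem siegel_points (a X : ℕ) (hX : 2 ≤ X) (Z : Finset (ℤ × ℤ)) (hZ : Z.Nonempty)
    (hZN : Z.card < Fintype.card (Idx a))
    (hbox : ∀ z ∈ Z, |z.1| ≤ X ∧ |z.2| ≤ X) :
    ∃ t : Idx a → ℤ, t ≠ 0 ∧ (∀ z ∈ Z, evZ z (polyOf t) = 0) ∧
      ∀ m, |t m| ≤ (X : ℤ) ^ ((Fintype.card (Idx a) + a) * Fintype.card (Idx a)) := by
  classical
  set N := Fintype.card (Idx a) with hN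
  let A : Matrix Z (Idx a) ℤ := fun z m => z.1.1 ^ m.1 0 * z.1.2 ^ m.1 1
  have hcardZ : Fintype.card Z = Z.card := Fintype.card_coe Z
  obtain ⟨t, ht0, htA, htn⟩ := Int.Matrix.exists_ne_zero_int_vec_norm_le A
    (by rw [hcardZ]; exact hZN) (by rw [hcardZ]; exact hZ.card_pos)
  refine ⟨t, ht0, ?_, ?_⟩
  · intro z hz
    rw [evZ_polyOf]
    exact congrFun htA ⟨z, hz⟩
  · intro m
    have hX1 : (1 : ℝ) ≤ X := by exact_mod_cast (by omega : 1 ≤ X)
    have hAnorm : ‖A‖ ≤ (X : ℝ) ^ a := by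
      rw [Matrix.norm_le_iff (by positivity)]
      intro z m
      rw [Int.norm_eq_abs]
      have hb := hbox z.1 z.2
      have h1 : |z.1.1 ^ m.1 0 * z.1.2 ^ m.1 1| ≤ (X : ℤ) ^ a := by
        rw [abs_mul, abs_pow, abs_pow]
        have hm := m.2
        simp only [Set.mem_ofPred_eq] at hm
        rw [Finsupp.sum_fintype _ _ (fun _ => rfl), Fin.sum_univ_two] at hm
        calc |z.1.1| ^ m.1 0 * |z.1.2| ^ m.1 1 ≤ (X : ℤ) ^ m.1 0 * (X : ℤ) ^ m.1 1 := by
              gcongr
              · exact hb.1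
              · exact hb.2
          _ = (X : ℤ) ^ (m.1 0 + m.1 1) := by rw [pow_add]
          _ ≤ (X : ℤ) ^ a := pow_le_pow_right₀ (by exact_mod_cast (by omega : 1 ≤ X)) hm
      exact_mod_cast h1
    have hmax : max 1 ‖A‖ ≤ (X : ℝ) ^ a := max_le (one_le_pow₀ hX1) hAnorm
    have hNX : (N : ℝ) ≤ (X : ℝ) ^ N := by
      have h1 : N ≤ 2 ^ N := (Nat.lt_two_pow_self).le
      have h2 : 2 ^ N ≤ X ^ N := Nat.pow_le_pow_left hX N
      exact_mod_cast h1.trans h2
    have hbase : (N : ℝ) * max 1 ‖A‖ ≤ (X : ℝ) ^ (N + a) := by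
      rw [pow_add]
      exact mul_le_mul hNX hmax (le_trans zero_le_one (le_max_left _ _)) (by positivity)
    have hN1 : (1 : ℝ) ≤ (N : ℝ) := by
      exact_mod_cast (by omega : 1 ≤ N)
    have hbase1 : (1 : ℝ) ≤ (N : ℝ) * max 1 ‖A‖ :=
      one_le_mul_of_one_le_of_one_le hN1 (le_max_left _ _)
    have hexp : (Fintype.card Z : ℝ) / ((N : ℝ) - Fintype.card Z) ≤ (N : ℝ) := by
      rw [hcardZ]
      have h1 : (1 : ℝ) ≤ (N : ℝ) - Z.card := by
        have : (Z.card : ℝ) + 1 ≤ N := by exact_mod_cast hZN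
        linarith
      have h2 : (Z.card : ℝ) ≤ N := by exact_mod_cast hZN.le
      calc (Z.card : ℝ) / ((N : ℝ) - Z.card) ≤ (Z.card : ℝ) / 1 := by
            apply div_le_div_of_nonneg_left (by positivity) one_pos h1
        _ ≤ N := by rw [div_one]; exact h2
    have hfinal : ‖t‖ ≤ (X : ℝ) ^ ((N + a) * N) := by
      refine htn.trans ?_
      calc ((N : ℝ) * max 1 ‖A‖) ^ ((Fintype.card Z : ℝ) / ((N : ℝ) - Fintype.card Z))
          ≤ ((N : ℝ) * max 1 ‖A‖) ^ ((N : ℝ)) := Real.rpow_le_rpow_of_exponent_le hbase1 hexp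
        _ = ((N : ℝ) * max 1 ‖A‖) ^ N := Real.rpow_natCast _ _
        _ ≤ ((X : ℝ) ^ (N + a)) ^ N := by
            gcongr
        _ = (X : ℝ) ^ ((N + a) * N) := by rw [← pow_mul]
    have h3 : ‖t m‖ ≤ (X : ℝ) ^ ((N + a) * N) := (norm_le_pi_norm t m).trans hfinal
    rw [Int.norm_eq_abs] at h3
    exact_mod_cast h3

theorem card_Idx (a : ℕ) : Fintype.card (Idx a) = Module.finrank ℚ (VV a) := by
  have h1 := card_tri a
  have h2 := finrank_VV a
  rw [Nat.card_eq_fintype_card] at h1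
  have : Fintype.card (Idx a) * 2 = Module.finrank ℚ (VV a) * 2 := by
    rw [h2, ← h1]
  omega

/-- Module C': height control. -/
theorem height_control (δ : ℕ) : ∃ K : ℕ, ∀ X : ℕ, 2 ≤ X → ∀ q : MvPolynomial (Fin 2) ℚ,
    Irreducible q → q.totalDegree ≤ δ → ∀ Z : Finset (ℤ × ℤ),
    (∀ z ∈ Z, |z.1| ≤ X ∧ |z.2| ≤ X) → (∀ z ∈ Z, evQ z q = 0) → δ * δ < Z.card →
    ∃ (Q : MvPolynomial (Fin 2) ℤ) (c : ℚ), c ≠ 0 ∧
      MvPolynomial.map (Int.castRingHom ℚ) Q = MvPolynomial.C c * q ∧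
      ∀ m, |Q.coeff m| ≤ (X : ℤ) ^ K := by
  refine ⟨((δ + 1) * (δ + 2) + δ) * ((δ + 1) * (δ + 2)), ?_⟩
  intro X hX q hq hqδ Z hbox hZq hcard
  have hq0 := hq.ne_zero
  set a := q.totalDegree with ha
  have hZne : Z.Nonempty := Finset.card_pos.1 (by omega)
  obtain ⟨Z', hZ'Z, hZ'ne, hZ'card, hZ'prop⟩ := exists_small_subset a Z hZne q hq0 le_rfl hZq
  obtain ⟨t, ht0, htZ, htb⟩ := siegel_points a X hX Z' hZ'ne (by rw [card_Idx]; exact hZ'card)
    (fun z hz => hbox z (hZ'Z hz))
  set Q := polyOf t with hQ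
  set P := MvPolynomial.map (Int.castRingHom ℚ) Q with hP
  have hPdeg : P.totalDegree ≤ a := by
    refine le_trans ?_ (totalDegree_polyOf t)
    rw [← hQ]
    unfold totalDegree
    exact Finset.sup_mono (support_map_subset _ _)
  have hPZ' : ∀ z ∈ Z', evQ z P = 0 := by
    intro z hz
    rw [hP, evQ_map, htZ z hz]
    simp
  have hPZ : ∀ z ∈ Z, evQ z P = 0 :=
    hZ'prop P ((mem_restrictTotalDegree _ _ _).2 hPdeg) hPZ'
  have hP0 : P ≠ 0 := by
    intro h
    apply ht0
    funext m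
    have h1 : P.coeff m.1 = 0 := by rw [h]; simp
    rw [hP, coeff_map, hQ, coeff_polyOf] at h1
    have h2 : (m.1.sum fun _ e => e) ≤ a := m.2
    rw [dif_pos h2] at h1
    simpa using h1
  have hdvd : q ∣ P := by
    by_contra hnd
    have h1 := bezout_bound hq hnd Z hZq hPZ
    have h2 : q.totalDegree * P.totalDegree ≤ δ * δ :=
      Nat.mul_le_mul hqδ (hPdeg.trans hqδ)
    omega
  obtain ⟨r, hr⟩ := hdvd
  have hr0 : r ≠ 0 := by
    rintro rfl
    exact hP0 (by rw [hr, mul_zero])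
  have hrdeg : r.totalDegree = 0 := by
    have := totalDegree_mul_of_isDomain hq0 hr0
    rw [← hr] at this
    omega
  rw [totalDegree_eq_zero_iff_eq_C] at hrdeg
  refine ⟨Q, r.coeff 0, ?_, ?_, ?_⟩
  · intro h
    rw [h] at hrdeg
    exact hr0 (by rw [hrdeg]; simp)
  · rw [← hP, hr, mul_comm]
    congr 1
  · intro m
    have hcoeff : |Q.coeff m| ≤ (X : ℤ) ^ ((Fintype.card (Idx a) + a) * Fintype.card (Idx a)) := by
      rw [hQ, coeff_polyOf]
      split_ifs with h
      · exact htb _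
      · simp
    refine hcoeff.trans ?_
    have hN : Fintype.card (Idx a) ≤ (δ + 1) * (δ + 2) := by
      have h1 := finrank_VV a
      rw [← card_Idx] at h1
      have h2 : (a + 1) * (a + 2) ≤ (δ + 1) * (δ + 2) :=
        Nat.mul_le_mul (by omega) (by omega)
      omega
    refine pow_le_pow_right₀ (by exact_mod_cast (by omega : 1 ≤ X)) ?_
    exact Nat.mul_le_mul (by omega) hN

end Vale.Agent.P018
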