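import Vale.Agent.P018.MathlibUsed

/-! # P018: power-free values of irreducible polynomials: the objects in the statement. -/

namespace Vale.Agent.P018

open Polynomial

/-- `rho f q` is the number of residues `a` modulo `q` with `f(a) ≡ 0 (mod q)`. -/
def rho (f : ℤ[X]) (q : ℕ) : ℕ :=
  ((Finset.range q).filter (fun a : ℕ => (q : ℤ) ∣ f.eval (a : ℤ))).card

/-- `a` is `k`-power-free: no `k`-th power of a prime divides `a` (so `0` is not). -/
def PowerFree (k : ℕ) (a : ℤ) : Prop := ∀ p : ℕ, p.Prime → ¬ ((p : ℤ) ^ k ∣ a)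

open Classical in
/-- `countPF f k X` is the number of `1 ≤ n ≤ X` with `f(n)` being `k`-power-free. -/
noncomputable def countPF (f : ℤ[X]) (k X : ℕ) : ℕ :=
  ((Finset.Icc 1 X).filter (fun n : ℕ => PowerFree k (f.eval (n : ℤ)))).card

/-- the predicted density `∏_p (1 - ρ_f(p^k)/p^k)`. -/
noncomputable def density (f : ℤ[X]) (k : ℕ) : ℝ :=
  ∏' p : Nat.Primes, (1 - (rho f ((p : ℕ) ^ k) : ℝ) / ((p : ℕ) : ℝ) ^ k)

end Vale.Agent.P018
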