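import Mathlib
import Vale.Agent.P018.Base

/-! # P018: auxiliary definitions. -/

namespace Vale.Agent.P018

open Polynomial

open Classical in
/-- `tail f k X` is the number of `1 ≤ n ≤ X` for which `p^k ∣ f(n)` for some prime `p > X`. -/
noncomputable def tail (f : ℤ[X]) (k X : ℕ) : ℕ :=
  ((Finset.Icc 1 X).filter (fun n : ℕ => ∃ p : ℕ, p.Prime ∧ X < p ∧ (p : ℤ) ^ k ∣ f.eval (n : ℤ))).card

/-- evaluation of a rational polynomial in two variables at an integer point. -/
noncomputable def evQ (z : ℤ × ℤ) : MvPolynomial (Fin 2) ℚ →+* ℚ :=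
  MvPolynomial.eval ![(z.1 : ℚ), (z.2 : ℚ)]

/-- evaluation of an integer polynomial in two variables at an integer point. -/
noncomputable def evZ (z : ℤ × ℤ) : MvPolynomial (Fin 2) ℤ →+* ℤ :=
  MvPolynomial.eval ![z.1, z.2]

/-- `q(x, 0)` as a polynomial in one variable. -/
noncomputable def res0 : MvPolynomial (Fin 2) ℚ →ₐ[ℚ] ℚ[X] :=
  MvPolynomial.aeval ![(X : ℚ[X]), 0]

theorem evQ_map (z : ℤ × ℤ) (Q : MvPolynomial (Fin 2) ℤ) :
    evQ z (MvPolynomial.map (Int.castRingHom ℚ) Q) = (evZ z Q : ℚ) := by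
  unfold evQ evZ
  rw [MvPolynomial.eval_map]
  have : ((MvPolynomial.eval ![z.1, z.2]) Q : ℚ) = Int.castRingHom ℚ (MvPolynomial.eval ![z.1, z.2] Q) := rfl
  rw [this, MvPolynomial.eval, MvPolynomial.coe_eval₂Hom, MvPolynomial.eval₂_comp_left]
  congr 1
  funext i
  fin_cases i <;> simp

end Vale.Agent.P018
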