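import Mathlib

/-! Divisibility of determinants of polynomials at congruent points. -/

namespace Vale.Agent.P018

open Polynomial Finset

theorem newton_expansion_aux (s : ℕ) (x : ℕ → ℤ) (h : ℤ[X]) :
    ∃ (d : ℕ → ℤ) (g : ℤ[X]), h = ∑ k ∈ range s, C (d k) * ∏ m ∈ range k, (X - C (x m)) +
      g * ∏ m ∈ range s, (X - C (x m)) := by
  induction s with
  | zero => exact ⟨fun _ => 0, h, by simp⟩
  | succ s ih =>
    obtain ⟨d, g, hd⟩ := ih
    obtain ⟨g', hg'⟩ := X_sub_C_dvd_sub_C_eval (a := x s) (p := g)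
    refine ⟨Function.update d s (g.eval (x s)), g', ?_⟩
    have h1 : ∑ k ∈ range s, C (Function.update d s (g.eval (x s)) k) *
        ∏ m ∈ range k, (X - C (x m)) = ∑ k ∈ range s, C (d k) * ∏ m ∈ range k, (X - C (x m)) := by
      apply sum_congr rfl
      intro k hk
      rw [Function.update_of_ne (mem_range.mp hk).ne]
    rw [sum_range_succ, h1, Function.update_self, prod_range_succ]
    have h2 : g = C (g.eval (x s)) + (X - C (x s)) * g' := by
      rw [← hg']
      ring
    conv_lhs => rw [hd, h2]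
    ring

theorem newton_expansion (s : ℕ) (x : ℕ → ℤ) (h : ℤ[X]) :
    ∃ d : ℕ → ℤ, ∀ i < s, h.eval (x i) = ∑ k ∈ range s, d k * ∏ m ∈ range k, (x i - x m) := by
  obtain ⟨d, g, hd⟩ := newton_expansion_aux s x h
  refine ⟨d, fun i hi => ?_⟩
  conv_lhs => rw [hd]
  rw [eval_add, eval_mul, eval_prod, prod_eq_zero (mem_range.mpr hi), mul_zero, add_zero,
    eval_finsetSum]
  · apply sum_congr rfl
    intro k _
    simp [eval_prod]
  · simp

theorem det_dvd {s : ℕ} (l : ℤ) (x : ℕ → ℤ) (hx : ∀ i j, l ∣ x i - x j) (h : Fin s → ℤ[X]) :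
    l ^ (∑ i ∈ range s, i) ∣ (Matrix.of fun i j : Fin s => (h j).eval (x i)).det := by
  choose d hd using fun j : Fin s => newton_expansion s x (h j)
  have hmul : (Matrix.of fun i j : Fin s => (h j).eval (x i)) =
      (Matrix.of fun i k : Fin s => ∏ m ∈ range (k : ℕ), (x i - x m)) *
      (Matrix.of fun k j : Fin s => d j k) := by
    ext i j
    rw [Matrix.mul_apply, Matrix.of_apply, hd j i i.2, Finset.sum_range]
    apply sum_congr rfl
    intro k _
    rw [Matrix.of_apply, Matrix.of_apply, mul_comm]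
  rw [hmul, Matrix.det_mul]
  apply Dvd.dvd.mul_right
  rw [Matrix.det_of_isLowerTriangular]
  · rw [← prod_pow_eq_pow_sum, prod_range (f := fun i => l ^ i)]
    apply prod_dvd_prod_of_dvd
    intro i _
    rw [Matrix.of_apply]
    calc l ^ (i : ℕ) = ∏ m ∈ range (i : ℕ), l := by simp
      _ ∣ ∏ m ∈ range (i : ℕ), (x i - x m) := prod_dvd_prod_of_dvd _ _ fun m _ => hx _ _
  · intro i j hij
    rw [Matrix.of_apply]
    apply prod_eq_zero (mem_range.mpr (show (i : ℕ) < j from ?_)) (sub_self _)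
    simpa using hij

end Vale.Agent.P018
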