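import Mathlib
import Vale.Agent.P018.Defs

/-! Newton iteration with polynomials. -/

namespace Vale.Agent.P018

open Polynomial Finset

/-- `P x y`, for a polynomial in `y` with coefficients polynomials in `x`. -/
noncomputable def ev2 (P : ℤ[X][X]) (x y : ℤ) : ℤ := (P.map (evalRingHom x)).eval y

theorem ev2_eval (P : ℤ[X][X]) (φ : ℤ[X]) (x : ℤ) : (P.eval φ).eval x = ev2 P x (φ.eval x) := by
  unfold ev2
  rw [eval_map]
  have := hom_eval₂ P (RingHom.id ℤ[X]) (evalRingHom x) φ
  rw [RingHom.comp_id] at this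
  exact this

theorem ev2_dvd (P : ℤ[X][X]) {l x0 y0 x y : ℤ} (hx : l ∣ x - x0) (hy : l ∣ y - y0) :
    l ∣ ev2 P x y - ev2 P x0 y0 := by
  have h1 : l ∣ ev2 P x y - ev2 P x y0 := hy.trans (sub_dvd_eval_sub _ _ _)
  have h2 : ev2 P x y0 - ev2 P x0 y0 = (P.eval (C y0)).eval x - (P.eval (C y0)).eval x0 := by
    rw [ev2_eval, ev2_eval, eval_C, eval_C]
  have h3 : l ∣ ev2 P x y0 - ev2 P x0 y0 := by
    rw [h2]
    exact hx.trans (sub_dvd_eval_sub _ _ _)
  have := dvd_add h1 h3
  rwa [sub_add_sub_cancel] at this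

theorem hensel_poly (P : ℤ[X][X]) {l x0 y0 v : ℤ} (hv : l ∣ 1 - v * ev2 (derivative P) x0 y0)
    (j : ℕ) : ∃ φ : ℤ[X], ∀ x y : ℤ, l ∣ x - x0 → l ∣ y - y0 → ev2 P x y = 0 →
      l ^ (j + 1) ∣ y - φ.eval x := by
  induction j with
  | zero => exact ⟨C y0, fun x y _ hy _ => by simpa using hy⟩
  | succ j ih =>
    obtain ⟨φ, hφ⟩ := ih
    refine ⟨φ - C v * P.eval φ, fun x y hx hy hP => ?_⟩
    have h0 := hφ x y hx hy hP
    obtain ⟨k, hk⟩ := (P.map (evalRingHom x)).binomExpansion y (φ.eval x - y)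
    have h1 : ev2 P x (φ.eval x) = ev2 (derivative P) x y * (φ.eval x - y) +
        k * (φ.eval x - y) ^ 2 := by
      have h2 : (P.map (evalRingHom x)).eval y = 0 := hP
      rw [add_sub_cancel, h2, zero_add] at hk
      rw [ev2, hk, derivative_map]
      rfl
    have h3 : l ∣ 1 - v * ev2 (derivative P) x y - v * k * (φ.eval x - y) := by
      have h4 := ev2_dvd (derivative P) hx hy
      have h5 : l ∣ φ.eval x - y := by
        rw [← dvd_neg, neg_sub]
        exact (dvd_pow_self l (Nat.succ_ne_zero j)).trans h0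
      have h6 : 1 - v * ev2 (derivative P) x y - v * k * (φ.eval x - y) =
        (1 - v * ev2 (derivative P) x0 y0) - v * (ev2 (derivative P) x y - ev2 (derivative P) x0 y0)
          - v * k * (φ.eval x - y) := by ring
      rw [h6]
      exact dvd_sub (dvd_sub hv (h4.mul_left v)) (h5.mul_left _)
    have h7 : y - (φ - C v * P.eval φ).eval x =
        (y - φ.eval x) * (1 - v * ev2 (derivative P) x y - v * k * (φ.eval x - y)) := by
      rw [eval_sub, eval_mul, eval_C, ev2_eval, h1]
      ring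
    rw [h7, pow_succ l (j + 1)]
    exact mul_dvd_mul h0 h3

/-- A polynomial in two variables, as a polynomial in `y` over `ℤ[x]`. -/
noncomputable def toBiv : MvPolynomial (Fin 2) ℤ →ₐ[ℤ] ℤ[X][X] :=
  MvPolynomial.aeval ![C X, X]

theorem ev2_toBiv (Q : MvPolynomial (Fin 2) ℤ) (x y : ℤ) : ev2 (toBiv Q) x y = evZ (x, y) Q := by
  have h : ((evalRingHom y).comp ((mapRingHom (evalRingHom x)).comp
      (toBiv : MvPolynomial (Fin 2) ℤ →+* ℤ[X][X]))) = evZ (x, y) := by
    apply MvPolynomial.ringHom_ext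
    · intro r
      simp [evZ]
    · intro i
      fin_cases i <;> simp [toBiv, evZ]
  exact congrArg (fun g => g Q) h

theorem derivative_toBiv (Q : MvPolynomial (Fin 2) ℤ) :
    derivative (toBiv Q) = toBiv (MvPolynomial.pderiv 1 Q) := by
  induction Q using MvPolynomial.induction_on with
  | C a => simp
  | add p q hp hq => simp [hp, hq]
  | mul_X p i hp =>
    rw [map_mul, derivative_mul, hp, Derivation.leibniz, map_add, smul_eq_mul, smul_eq_mul,
      map_mul, map_mul]
    have h1 : derivative (toBiv (MvPolynomial.X i)) =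
        toBiv (MvPolynomial.pderiv 1 (MvPolynomial.X i : MvPolynomial (Fin 2) ℤ)) := by
      fin_cases i
      · simp [toBiv, MvPolynomial.pderiv_X]
      · simp [toBiv, MvPolynomial.pderiv_X]
    rw [h1]
    ring

end Vale.Agent.P018
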