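import Mathlib
import Vale.Agent.P018.Defs
import Vale.Agent.P018.DetDiv
import Vale.Agent.P018.Hensel

/-! Points of a curve in one residue class lie on a curve of small degree. -/

namespace Vale.Agent.P018

open Polynomial Finset

theorem det_modEq {s : ℕ} (n : ℤ) (M N : Matrix (Fin s) (Fin s) ℤ) (h : ∀ i j, n ∣ M i j - N i j)
    (hN : n ∣ N.det) : n ∣ M.det := by
  have h1 : (Ideal.Quotient.mk (Ideal.span {n})).mapMatrix M =
      (Ideal.Quotient.mk (Ideal.span {n})).mapMatrix N := by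
    ext i j
    simp only [RingHom.mapMatrix_apply, Matrix.map_apply]
    rw [Ideal.Quotient.eq, Ideal.mem_span_singleton]
    exact h i j
  have h2 : (Ideal.Quotient.mk (Ideal.span {n})) M.det =
      (Ideal.Quotient.mk (Ideal.span {n})) N.det := by
    rw [RingHom.map_det, RingHom.map_det, h1]
  rw [← Ideal.mem_span_singleton, ← Ideal.Quotient.eq_zero_iff_mem, h2,
    Ideal.Quotient.eq_zero_iff_mem, Ideal.mem_span_singleton]
  exact hN

/-- The monomial matrix. -/
def monoMat {ι κ : Type*} (z : κ → ℤ × ℤ) (e : ι → ℕ × ℕ) : Matrix κ ι ℤ :=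
  Matrix.of fun i j => (z i).1 ^ (e j).1 * (z i).2 ^ (e j).2

theorem det_class_fin (Q : MvPolynomial (Fin 2) ℤ) {l x0 y0 : ℤ}
    (hv : IsCoprime l (evZ (x0, y0) (MvPolynomial.pderiv 1 Q))) {s : ℕ} (z : Fin s → ℤ × ℤ)
    (hz : ∀ i, l ∣ (z i).1 - x0 ∧ l ∣ (z i).2 - y0 ∧ evZ (z i) Q = 0) (e : Fin s → ℕ × ℕ) :
    l ^ (∑ i ∈ range s, i) ∣ (monoMat z e).det := by
  obtain ⟨u, v, huv⟩ := hv
  have hv' : l ∣ 1 - v * ev2 (derivative (toBiv Q)) x0 y0 := by
    rw [derivative_toBiv, ev2_toBiv]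
    exact ⟨u, by linear_combination -huv⟩
  obtain ⟨φ, hφ⟩ := hensel_poly (toBiv Q) hv' (∑ i ∈ range s, i)
  set x : ℕ → ℤ := fun i => if h : i < s then (z ⟨i, h⟩).1 else x0 with hx
  have hx0 : ∀ i, l ∣ x i - x0 := by
    intro i
    simp only [hx]
    split_ifs with h
    · exact (hz _).1
    · simp
  have hxx : ∀ i j, l ∣ x i - x j := by
    intro i j
    have := dvd_sub (hx0 i) (hx0 j)
    rwa [sub_sub_sub_cancel_right] at this
  refine det_modEq _ _ _ ?_ (det_dvd l x hxx (fun j => X ^ (e j).1 * φ ^ (e j).2))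
  intro i j
  have hxi : x i = (z i).1 := by
    simp [hx]
  simp only [monoMat, Matrix.of_apply, eval_mul, eval_pow, eval_X, hxi]
  rw [← mul_sub]
  apply Dvd.dvd.mul_left
  have h1 := hφ (z i).1 (z i).2 (hz i).1 (hz i).2.1 (by rw [ev2_toBiv]; exact (hz i).2.2)
  exact ((pow_dvd_pow l (Nat.le_succ _)).trans h1).trans (sub_dvd_pow_sub_pow _ _ _)

theorem det_class {ι : Type*} [Fintype ι] [DecidableEq ι] (Q : MvPolynomial (Fin 2) ℤ)
    {l x0 y0 : ℤ} (hv : IsCoprime l (evZ (x0, y0) (MvPolynomial.pderiv 1 Q))) (z : ι → ℤ × ℤ)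
    (hz : ∀ i, l ∣ (z i).1 - x0 ∧ l ∣ (z i).2 - y0 ∧ evZ (z i) Q = 0) (e : ι → ℕ × ℕ) :
    l ^ (∑ i ∈ range (Fintype.card ι), i) ∣ (monoMat z e).det := by
  have h := det_class_fin Q hv (z ∘ (Fintype.equivFin ι).symm)
    (fun i => hz _) (e ∘ (Fintype.equivFin ι).symm)
  have h2 : monoMat (z ∘ (Fintype.equivFin ι).symm) (e ∘ (Fintype.equivFin ι).symm) =
      (monoMat z e).submatrix (Fintype.equivFin ι).symm (Fintype.equivFin ι).symm := rfl
  rw [h2, Matrix.det_submatrix_equiv_self] at h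
  exact h

theorem abs_det_le {ι : Type*} [Fintype ι] [DecidableEq ι] (z : ι → ℤ × ℤ) (e : ι → ℕ × ℕ)
    (X : ℕ) (hX : 1 ≤ X) (hz : ∀ i, |(z i).1| ≤ X ∧ |(z i).2| ≤ X) :
    |(monoMat z e).det| ≤ (Fintype.card ι).factorial * (X : ℤ) ^ (∑ j, ((e j).1 + (e j).2)) := by
  rw [Matrix.det_apply]
  refine (abs_sum_le_sum_abs _ _).trans ?_
  calc ∑ σ : Equiv.Perm ι, |Equiv.Perm.sign σ • ∏ i, monoMat z e (σ i) i|
      ≤ ∑ σ : Equiv.Perm ι, (X : ℤ) ^ (∑ j, ((e j).1 + (e j).2)) := by
        apply sum_le_sum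
        intro σ _
        rw [Units.smul_def, smul_eq_mul, abs_mul]
        have h1 : |((Equiv.Perm.sign σ : ℤˣ) : ℤ)| = 1 := by
          rcases Int.units_eq_one_or (Equiv.Perm.sign σ) with h | h <;> simp [h]
        rw [h1, one_mul, abs_prod, ← prod_pow_eq_pow_sum]
        apply prod_le_prod (fun i _ => abs_nonneg _)
        intro i _
        rw [monoMat, Matrix.of_apply, abs_mul, abs_pow, abs_pow, pow_add]
        exact mul_le_mul (pow_le_pow_left₀ (abs_nonneg _) (hz _).1 _)
          (pow_le_pow_left₀ (abs_nonneg _) (hz _).2 _) (by positivity) (by positivity)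
    _ = (Fintype.card ι).factorial * (X : ℤ) ^ (∑ j, ((e j).1 + (e j).2)) := by
        rw [sum_const, Finset.card_univ, Fintype.card_perm, nsmul_eq_mul]

theorem exists_relation {ι : Type*} [Fintype ι] [DecidableEq ι] {κ : Type*} (S : Set κ)
    (v : κ → ι → ℚ) (h : ∀ z : ι → κ, (∀ i, z i ∈ S) → (Matrix.of fun i j => v (z i) j).det = 0) :
    ∃ c : ι → ℚ, c ≠ 0 ∧ ∀ s ∈ S, ∑ j, c j * v s j = 0 := by
  by_cases htop : Submodule.span ℚ (v '' S) = ⊤
  · exfalso
    obtain ⟨b, hbS, hb, hli⟩ := exists_linearIndependent ℚ (v '' S)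
    have hb' : Submodule.span ℚ (Set.range ((↑) : b → ι → ℚ)) = ⊤ := by
      rw [Subtype.range_coe, hb, htop]
    let B := Module.Basis.mk hli hb'.ge
    have : Fintype b := FiniteDimensional.fintypeBasisIndex B
    have hcard : Fintype.card ι = Fintype.card b := by
      rw [← Module.finrank_eq_card_basis B, Module.finrank_fintype_fun_eq_card]
    let E : ι ≃ b := Fintype.equivOfCardEq hcard
    have hch : ∀ i : ι, ∃ k ∈ S, v k = (E i : ι → ℚ) := fun i => hbS (E i).2
    choose z hz hz' using hch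
    have hdet := h z hz
    have hli' : LinearIndependent ℚ (Matrix.of fun i j => v (z i) j).row := by
      have : (Matrix.of fun i j => v (z i) j).row = ((↑) : b → ι → ℚ) ∘ E := by
        funext i
        change v (z i) = _
        rw [hz']
        rfl
      rw [this]
      exact hli.comp _ E.injective
    rw [Matrix.linearIndependent_rows_iff_isUnit, Matrix.isUnit_iff_isUnit_det, hdet] at hli'
    exact not_isUnit_zero hli'
  · obtain ⟨f, hf, hle⟩ := Submodule.exists_le_ker_of_lt_top _ (lt_top_iff_ne_top.mpr htop)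
    refine ⟨fun j => f (Pi.single j 1), ?_, ?_⟩
    · intro h0
      apply hf
      apply LinearMap.pi_ext'
      intro j
      ext
      simpa using congrFun h0 j
    · intro s hs
      have h1 : f (v s) = 0 := hle (Submodule.subset_span ⟨s, hs, rfl⟩)
      rw [LinearMap.pi_apply_eq_sum_univ f (v s)] at h1
      rw [← h1]
      apply sum_congr rfl
      intro j _
      have h2 : (Pi.single j 1 : ι → ℚ) = fun k => if j = k then 1 else 0 := by
        funext k
        simp [Pi.single_apply, eq_comm]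
      rw [smul_eq_mul, mul_comm]
      simp only [h2]

end Vale.Agent.P018
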