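import Mathlib
import Vale.Agent.P018.Defs
import Vale.Agent.P018.ClassBound

/-! Auxiliary polynomials supported on an L-shaped set of monomials. -/

namespace Vale.Agent.P018

open Finset

/-- Index set of an L-shaped set of monomials. -/
abbrev LIdx (α β M : ℕ) : Type := (Fin α × Fin M) ⊕ (Fin M × Fin β)

/-- The monomials. -/
def lexp {α β M : ℕ} : LIdx α β M → ℕ × ℕ
  | .inl p => (p.1, p.2)
  | .inr p => (α + p.1, p.2)

theorem lexp_injective {α β M : ℕ} : Function.Injective (lexp (α := α) (β := β) (M := M)) := by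
  rintro (⟨a, b⟩ | ⟨a, b⟩) (⟨a', b'⟩ | ⟨a', b'⟩) h
  · simp only [lexp, Prod.mk.injEq] at h
    rw [Fin.ext h.1, Fin.ext h.2]
  · simp only [lexp, Prod.mk.injEq] at h
    have := a.2
    omega
  · simp only [lexp, Prod.mk.injEq] at h
    have := a'.2
    omega
  · simp only [lexp, Prod.mk.injEq] at h
    have h1 : (a : ℕ) = a' := by omega
    rw [Fin.ext h1, Fin.ext h.2]

theorem card_LIdx (α β M : ℕ) : Fintype.card (LIdx α β M) = (α + β) * M := by
  simp only [Fintype.card_sum, Fintype.card_prod, Fintype.card_fin]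
  ring

theorem lexp_lt {α β M : ℕ} (j : LIdx α β M) : (lexp j).1 < α ∨ (lexp j).2 < β := by
  rcases j with ⟨a, b⟩ | ⟨a, b⟩
  · exact Or.inl a.2
  · exact Or.inr b.2

theorem lexp_le {α β M : ℕ} (j : LIdx α β M) : (lexp j).1 + (lexp j).2 ≤ α + β + M := by
  rcases j with ⟨a, b⟩ | ⟨a, b⟩
  · have := a.2
    have := b.2
    simp only [lexp]
    omega
  · have := a.2
    have := b.2
    simp only [lexp]
    omega

theorem sum_fin_val_le (n : ℕ) : 2 * ∑ i : Fin n, (i : ℕ) ≤ n * n := by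
  rw [← Finset.sum_range (f := fun i => i), mul_comm 2, sum_range_id_mul_two]
  exact Nat.mul_le_mul_left n (Nat.sub_le n 1)

theorem sum_lexp_le (α β M : ℕ) : 2 * ∑ j : LIdx α β M, ((lexp j).1 + (lexp j).2) ≤
    (α + β) * M ^ 2 + 2 * (α + β) ^ 2 * M := by
  rw [Fintype.sum_sum_type, Fintype.sum_prod_type, Fintype.sum_prod_type]
  simp only [lexp]
  simp only [sum_add_distrib, sum_const, Finset.card_univ, Fintype.card_fin, smul_eq_mul]
  have h1 := sum_fin_val_le α
  have h2 := sum_fin_val_le β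
  have h3 := sum_fin_val_le M
  have e1 : ∑ x : Fin α, M * (x : ℕ) = M * ∑ x : Fin α, (x : ℕ) := by rw [mul_sum]
  have e2 : ∑ x : Fin M, β * (x : ℕ) = β * ∑ x : Fin M, (x : ℕ) := by rw [mul_sum]
  rw [e1, e2]
  nlinarith [Nat.mul_le_mul_left M h1, Nat.mul_le_mul_left M h2, Nat.mul_le_mul_left α h3,
    Nat.mul_le_mul_left β h3, Nat.zero_le (M * α * β), Nat.zero_le (M * α * α),
    Nat.zero_le (M * β * β)]

/-- Exponent vector in two variables. -/
noncomputable def expo (p : ℕ × ℕ) : Fin 2 →₀ ℕ := Finsupp.equivFunOnFinite.symm ![p.1, p.2]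

@[simp] theorem expo_zero (p : ℕ × ℕ) : expo p 0 = p.1 := rfl

@[simp] theorem expo_one (p : ℕ × ℕ) : expo p 1 = p.2 := rfl

theorem expo_injective : Function.Injective expo := by
  intro p p' h
  have h0 : expo p 0 = expo p' 0 := by rw [h]
  have h1 : expo p 1 = expo p' 1 := by rw [h]
  exact Prod.ext h0 h1

/-- The auxiliary polynomial. -/
noncomputable def auxPoly {α β M : ℕ} (c : LIdx α β M → ℚ) : MvPolynomial (Fin 2) ℚ :=
  ∑ j, MvPolynomial.monomial (expo (lexp j)) (c j)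

theorem evQ_auxPoly {α β M : ℕ} (c : LIdx α β M → ℚ) (z : ℤ × ℤ) :
    evQ z (auxPoly c) = ∑ j, c j * ((z.1 : ℚ) ^ (lexp j).1 * (z.2 : ℚ) ^ (lexp j).2) := by
  rw [auxPoly, map_sum]
  apply sum_congr rfl
  intro j _
  rw [evQ, MvPolynomial.eval_monomial, Finsupp.prod_fintype _ _ (by simp), Fin.prod_univ_two]
  simp

theorem coeff_auxPoly {α β M : ℕ} (c : LIdx α β M → ℚ) (j : LIdx α β M) :
    (auxPoly c).coeff (expo (lexp j)) = c j := by
  classical
  rw [auxPoly, MvPolynomial.coeff_sum, sum_eq_single j]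
  · simp
  · intro j' _ hj'
    rw [MvPolynomial.coeff_monomial, if_neg]
    intro h
    exact hj' (lexp_injective (expo_injective h))
  · simp

theorem auxPoly_ne_zero {α β M : ℕ} {c : LIdx α β M → ℚ} (hc : c ≠ 0) : auxPoly c ≠ 0 := by
  intro h
  apply hc
  funext j
  rw [← coeff_auxPoly c j, h]
  simp

theorem support_auxPoly {α β M : ℕ} {c : LIdx α β M → ℚ} {m : Fin 2 →₀ ℕ}
    (hm : m ∈ (auxPoly c).support) : ∃ j : LIdx α β M, m = expo (lexp j) := by
  classical
  by_contra hcon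
  push Not at hcon
  rw [MvPolynomial.mem_support_iff, auxPoly, MvPolynomial.coeff_sum] at hm
  apply hm
  apply sum_eq_zero
  intro j _
  rw [MvPolynomial.coeff_monomial, if_neg (hcon j).symm]

theorem totalDegree_auxPoly_le {α β M : ℕ} (c : LIdx α β M → ℚ) :
    (auxPoly c).totalDegree ≤ α + β + M := by
  apply Finset.sup_le
  intro m hm
  obtain ⟨j, rfl⟩ := support_auxPoly hm
  have := lexp_le j
  rw [Finsupp.sum_fintype _ _ (by simp), Fin.sum_univ_two]
  simpa using this

theorem not_dvd_auxPoly {q : MvPolynomial (Fin 2) ℚ} {α β M : ℕ}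
    (hα : MonomialOrder.degLex.degree q 0 = α)
    (hβ : MonomialOrder.degLex.degree q 1 = β) {c : LIdx α β M → ℚ} (hc : c ≠ 0) :
    ¬ q ∣ auxPoly c := by
  rintro ⟨w, hw⟩
  have hG := auxPoly_ne_zero hc
  have hq0 : q ≠ 0 := fun h => hG (by rw [hw, h, zero_mul])
  have hw0 : w ≠ 0 := fun h => hG (by rw [hw, h, mul_zero])
  obtain ⟨j, hj⟩ := support_auxPoly (MonomialOrder.degLex.degree_mem_support hG)
  rw [hw, MonomialOrder.degree_mul hq0 hw0] at hj
  have h0 := congrArg (fun m : Fin 2 →₀ ℕ => m 0) hj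
  have h1 := congrArg (fun m : Fin 2 →₀ ℕ => m 1) hj
  simp only [Finsupp.add_apply, expo_zero, expo_one] at h0 h1
  rcases lexp_lt j with h | h
  · omega
  · omega

theorem sum_degree (q : MvPolynomial (Fin 2) ℚ) :
    MonomialOrder.degLex.degree q 0 + MonomialOrder.degLex.degree q 1 = q.totalDegree := by
  rw [← MvPolynomial.degree_degLexDegree, Finsupp.degree_eq_sum, Fin.sum_univ_two]

end Vale.Agent.P018
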