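import Mathlib
import Vale.Agent.P018.Defs
import Vale.Agent.P018.LShape

/-! Counting points of a curve which are smooth modulo a prime. -/

namespace Vale.Agent.P018

open Finset

/-- Module C, as a hypothesis. -/
def BezoutStmt : Prop := ∀ q G : MvPolynomial (Fin 2) ℚ, Irreducible q → ¬ q ∣ G →
  ∀ Z : Finset (ℤ × ℤ), (∀ z ∈ Z, evQ z q = 0) → (∀ z ∈ Z, evQ z G = 0) →
    Z.card ≤ q.totalDegree * G.totalDegree

theorem class_card_le (hbez : BezoutStmt) {q : MvPolynomial (Fin 2) ℚ} (hq : Irreducible q)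
    {Q : MvPolynomial (Fin 2) ℤ} {c : ℚ}
    (hQ : MvPolynomial.map (Int.castRingHom ℚ) Q = MvPolynomial.C c * q) (M X W : ℕ) (hX : 1 ≤ X)
    (hW : q.totalDegree * M ^ 2 + 2 * q.totalDegree ^ 2 * M ≤ 2 * W)
    {l x0 y0 : ℤ} (hv : IsCoprime l (evZ (x0, y0) (MvPolynomial.pderiv 1 Q)))
    (hl : ((q.totalDegree * M).factorial : ℤ) * (X : ℤ) ^ W <
      l ^ (∑ i ∈ range (q.totalDegree * M), i)) (Z : Finset (ℤ × ℤ))
    (hZ : ∀ z ∈ Z, |z.1| ≤ X ∧ |z.2| ≤ X ∧ evQ z q = 0 ∧ l ∣ z.1 - x0 ∧ l ∣ z.2 - y0) :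
    Z.card ≤ q.totalDegree * (q.totalDegree + M) := by
  classical
  obtain ⟨α, hα⟩ : ∃ α, MonomialOrder.degLex.degree q 0 = α := ⟨_, rfl⟩
  obtain ⟨β, hβ⟩ : ∃ β, MonomialOrder.degLex.degree q 1 = β := ⟨_, rfl⟩
  have hδ : α + β = q.totalDegree := by rw [← hα, ← hβ, sum_degree]
  have hZQ : ∀ z, evQ z q = 0 → evZ z Q = 0 := by
    intro z hz
    have h1 := evQ_map z Q
    rw [hQ, map_mul, hz, mul_zero] at h1
    exact_mod_cast h1.symm
  obtain ⟨b, hb, hbS⟩ := exists_relation (ι := LIdx α β M) (Z : Set (ℤ × ℤ))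
    (fun z j => (z.1 : ℚ) ^ (lexp j).1 * (z.2 : ℚ) ^ (lexp j).2) (by
      intro z hz
      have hcast : (Matrix.of fun (i j : LIdx α β M) =>
          ((z i).1 : ℚ) ^ (lexp j).1 * ((z i).2 : ℚ) ^ (lexp j).2) =
          (monoMat z lexp).map (Int.castRingHom ℚ) := by
        ext i j
        simp [monoMat]
      rw [hcast, ← RingHom.mapMatrix_apply, ← RingHom.map_det]
      have hdvd := det_class Q hv z
        (fun i => ⟨(hZ _ (hz i)).2.2.2.1, (hZ _ (hz i)).2.2.2.2, hZQ _ (hZ _ (hz i)).2.2.1⟩)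
        (lexp (α := α) (β := β) (M := M))
      have habs := abs_det_le z (lexp (α := α) (β := β) (M := M)) X hX
        (fun i => ⟨(hZ _ (hz i)).1, (hZ _ (hz i)).2.1⟩)
      rw [card_LIdx, hδ] at hdvd habs
      have hW' : ∑ j : LIdx α β M, ((lexp j).1 + (lexp j).2) ≤ W := by
        have := sum_lexp_le α β M
        rw [hδ] at this
        omega
      have h0 : (monoMat z lexp).det = 0 := by
        apply Int.eq_zero_of_abs_lt_dvd hdvd
        refine habs.trans_lt (lt_of_le_of_lt ?_ hl)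
        apply mul_le_mul_of_nonneg_left _ (by positivity)
        exact pow_le_pow_right₀ (by exact_mod_cast hX) hW'
      rw [h0, map_zero])
  have h1 := hbez q (auxPoly b) hq (not_dvd_auxPoly hα hβ hb) Z (fun z hz => (hZ z hz).2.2.1)
    (fun z hz => by rw [evQ_auxPoly]; exact hbS z hz)
  refine h1.trans (Nat.mul_le_mul_left _ ?_)
  rw [← hδ]
  exact totalDegree_auxPoly_le b

theorem totalDegree_le_of_map {q : MvPolynomial (Fin 2) ℚ} {Q : MvPolynomial (Fin 2) ℤ} {c : ℚ}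
    (hQ : MvPolynomial.map (Int.castRingHom ℚ) Q = MvPolynomial.C c * q) :
    Q.totalDegree ≤ q.totalDegree := by
  apply Finset.sup_le
  intro m hm
  apply MvPolynomial.le_totalDegree
  rw [MvPolynomial.mem_support_iff] at hm ⊢
  intro h
  apply hm
  have h1 := congrArg (MvPolynomial.coeff m) hQ
  rw [MvPolynomial.coeff_map, MvPolynomial.coeff_C_mul, h, mul_zero, eq_intCast,
    Int.cast_eq_zero] at h1
  exact h1

theorem fiber_card_le {Q : MvPolynomial (Fin 2) ℤ} (p : ℕ) [Fact p.Prime] (z0 : ℤ × ℤ)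
    (hz0 : ¬ (p : ℤ) ∣ evZ z0 (MvPolynomial.pderiv 1 Q)) (T : Finset (ZMod p))
    (hT : ∀ b ∈ T, ∃ z : ℤ × ℤ, evZ z Q = 0 ∧ (z.1 : ZMod p) = z0.1 ∧ (z.2 : ZMod p) = b) :
    T.card ≤ Q.totalDegree := by
  classical
  set ψ : Polynomial ℤ := MvPolynomial.aeval ![Polynomial.C z0.1, Polynomial.X] Q with hψ
  have hψ2 : (toBiv Q).map (Polynomial.evalRingHom z0.1) = ψ := by
    have h : ((Polynomial.mapRingHom (Polynomial.evalRingHom z0.1)).comp
        (toBiv : MvPolynomial (Fin 2) ℤ →+* Polynomial (Polynomial ℤ))) =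
        (MvPolynomial.aeval ![Polynomial.C z0.1, Polynomial.X] :
          MvPolynomial (Fin 2) ℤ →ₐ[ℤ] Polynomial ℤ) := by
      apply MvPolynomial.ringHom_ext
      · intro r
        simp
      · intro i
        fin_cases i <;> simp [toBiv]
    exact congrArg (fun g => g Q) h
  have hdeg : ψ.natDegree ≤ Q.totalDegree := by
    have := MvPolynomial.aeval_natDegree_le Q (m := Q.totalDegree) (n := 1) le_rfl
      ![Polynomial.C z0.1, Polynomial.X] (by
        intro i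
        fin_cases i <;> simp)
    rwa [mul_one] at this
  set χ : Polynomial (ZMod p) := ψ.map (Int.castRingHom (ZMod p)) with hχ
  have hev : ∀ y : ℤ, χ.eval (y : ZMod p) = ((ev2 (toBiv Q) z0.1 y : ℤ) : ZMod p) := by
    intro y
    rw [hχ, Polynomial.eval_intCast_map, ev2, hψ2]
    rfl
  have hne : χ ≠ 0 := by
    intro h0
    apply hz0
    have h1 : (Polynomial.derivative χ).eval ((z0.2 : ℤ) : ZMod p) = 0 := by
      rw [h0]
      simp
    rw [hχ, Polynomial.derivative_map, Polynomial.eval_intCast_map, ← hψ2,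
      Polynomial.derivative_map] at h1
    have h2 : ((ev2 (Polynomial.derivative (toBiv Q)) z0.1 z0.2 : ℤ) : ZMod p) = 0 := h1
    rw [derivative_toBiv, ev2_toBiv] at h2
    exact (ZMod.intCast_zmod_eq_zero_iff_dvd _ p).mp h2
  calc T.card ≤ χ.roots.toFinset.card := by
        apply card_le_card
        intro b hb
        obtain ⟨z, hz, h1, rfl⟩ := hT b hb
        rw [Multiset.mem_toFinset, Polynomial.mem_roots hne, Polynomial.IsRoot, hev]
        have hdvd : (p : ℤ) ∣ ev2 (toBiv Q) z.1 z.2 - ev2 (toBiv Q) z0.1 z.2 := by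
          apply ev2_dvd _ _ (by simp)
          rwa [← ZMod.intCast_zmod_eq_zero_iff_dvd, Int.cast_sub, sub_eq_zero]
        rw [← ZMod.intCast_zmod_eq_zero_iff_dvd, ev2_toBiv, hz, zero_sub, Int.cast_neg,
          neg_eq_zero] at hdvd
        exact hdvd
    _ ≤ Multiset.card χ.roots := Multiset.toFinset_card_le _
    _ ≤ χ.natDegree := Polynomial.card_roots' _
    _ ≤ ψ.natDegree := Polynomial.natDegree_map_le
    _ ≤ Q.totalDegree := hdeg

theorem smooth_card_le (hbez : BezoutStmt) {q : MvPolynomial (Fin 2) ℚ} (hq : Irreducible q)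
    {Q : MvPolynomial (Fin 2) ℤ} {c : ℚ}
    (hQ : MvPolynomial.map (Int.castRingHom ℚ) Q = MvPolynomial.C c * q) (M X W : ℕ) (hX : 1 ≤ X)
    (hW : q.totalDegree * M ^ 2 + 2 * q.totalDegree ^ 2 * M ≤ 2 * W)
    (p : ℕ) [hp : Fact p.Prime]
    (hl : ((q.totalDegree * M).factorial : ℤ) * (X : ℤ) ^ W <
      (p : ℤ) ^ (∑ i ∈ range (q.totalDegree * M), i)) (Z : Finset (ℤ × ℤ))
    (hZ : ∀ z ∈ Z, |z.1| ≤ X ∧ |z.2| ≤ X ∧ evQ z q = 0)
    (hs : ∀ z ∈ Z, ¬ (p : ℤ) ∣ evZ z (MvPolynomial.pderiv 1 Q)) :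
    Z.card ≤ q.totalDegree * (q.totalDegree + M) * (q.totalDegree * p) := by
  classical
  have hZQ : ∀ z, evQ z q = 0 → evZ z Q = 0 := by
    intro z hz
    have h1 := evQ_map z Q
    rw [hQ, map_mul, hz, mul_zero] at h1
    exact_mod_cast h1.symm
  let f : ℤ × ℤ → ZMod p × ZMod p := fun z => (z.1, z.2)
  have h1 : Z.card ≤ q.totalDegree * (q.totalDegree + M) * (Z.image f).card := by
    apply card_le_mul_card_image
    intro a ha
    obtain ⟨z0, hz0, rfl⟩ := mem_image.mp ha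
    have hv : IsCoprime (p : ℤ) (evZ (z0.1, z0.2) (MvPolynomial.pderiv 1 Q)) :=
      (Nat.prime_iff_prime_int.mp hp.out).irreducible.coprime_iff_not_dvd.mpr (hs z0 hz0)
    apply class_card_le hbez hq hQ M X W hX hW hv hl
    intro z hz
    obtain ⟨hz, hzf⟩ := mem_filter.mp hz
    have e1 : ((z.1 : ℤ) : ZMod p) = z0.1 := congrArg Prod.fst hzf
    have e2 : ((z.2 : ℤ) : ZMod p) = z0.2 := congrArg Prod.snd hzf
    refine ⟨(hZ z hz).1, (hZ z hz).2.1, (hZ z hz).2.2, ?_, ?_⟩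
    · rwa [← ZMod.intCast_zmod_eq_zero_iff_dvd, Int.cast_sub, sub_eq_zero]
    · rwa [← ZMod.intCast_zmod_eq_zero_iff_dvd, Int.cast_sub, sub_eq_zero]
  have h2 : (Z.image f).card ≤ q.totalDegree * ((Z.image f).image Prod.fst).card := by
    apply card_le_mul_card_image
    intro a ha
    obtain ⟨x, hx, rfl⟩ := mem_image.mp ha
    obtain ⟨z0, hz0, rfl⟩ := mem_image.mp hx
    have hinj : Set.InjOn Prod.snd
        (({x ∈ Z.image f | x.1 = (f z0).1} : Finset (ZMod p × ZMod p)) :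
          Set (ZMod p × ZMod p)) := by
      intro x hx y hy hxy
      simp only [coe_filter, Set.mem_ofPred_eq] at hx hy
      exact Prod.ext (hx.2.trans hy.2.symm) hxy
    rw [← card_image_of_injOn hinj]
    refine (fiber_card_le (Q := Q) p z0 (hs z0 hz0) _ ?_).trans (totalDegree_le_of_map hQ)
    intro b hb
    obtain ⟨x, hx, rfl⟩ := mem_image.mp hb
    obtain ⟨hx1, hx2⟩ := mem_filter.mp hx
    obtain ⟨z, hz, rfl⟩ := mem_image.mp hx1
    exact ⟨z, hZQ z (hZ z hz).2.2, hx2, rfl⟩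
  have h3 : ((Z.image f).image Prod.fst).card ≤ p := by
    refine (card_le_univ _).trans ?_
    rw [ZMod.card]
  calc Z.card ≤ q.totalDegree * (q.totalDegree + M) * (Z.image f).card := h1
    _ ≤ q.totalDegree * (q.totalDegree + M) * (q.totalDegree * p) :=
      Nat.mul_le_mul_left _ (h2.trans (Nat.mul_le_mul_left _ h3))

end Vale.Agent.P018
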