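import Mathlib
import Vale.Agent.P018.Defs
import Vale.Agent.P018.ClassCount

/-! Points with vanishing derivative, and the size of the derivative. -/

namespace Vale.Agent.P018

open Finset

theorem totalDegree_pderiv_lt {R : Type*} [CommRing R] {P : MvPolynomial (Fin 2) R} (i : Fin 2)
    (h : MvPolynomial.pderiv i P ≠ 0) : (MvPolynomial.pderiv i P).totalDegree < P.totalDegree := by
  have hne : (MvPolynomial.pderiv i P).support.Nonempty := by
    rwa [MvPolynomial.support_nonempty]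
  rw [MvPolynomial.totalDegree, Finset.sup_lt_iff]
  · intro m hm
    rw [MvPolynomial.mem_support_iff, MvPolynomial.coeff_pderiv] at hm
    have h1 : P.coeff (m + Finsupp.single i 1) ≠ 0 := by
      intro h0
      apply hm
      rw [h0]
      simp
    have h2 := MvPolynomial.le_totalDegree (MvPolynomial.mem_support_iff.mpr h1)
    refine lt_of_lt_of_le ?_ h2
    rw [Finsupp.sum_add_index' (by simp) (by simp), Finsupp.sum_single_index rfl]
    exact Nat.lt_succ_self _
  · obtain ⟨m, hm⟩ := hne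
    rw [MvPolynomial.mem_support_iff, MvPolynomial.coeff_pderiv] at hm
    have h1 : P.coeff (m + Finsupp.single i 1) ≠ 0 := by
      intro h0
      apply hm
      rw [h0]
      simp
    have h2 := MvPolynomial.le_totalDegree (MvPolynomial.mem_support_iff.mpr h1)
    refine lt_of_lt_of_le ?_ h2
    rw [Finsupp.sum_add_index' (by simp) (by simp), Finsupp.sum_single_index rfl]
    exact Nat.succ_pos _

theorem not_dvd_of_totalDegree_lt {q G : MvPolynomial (Fin 2) ℚ} (hG : G ≠ 0)
    (h : G.totalDegree < q.totalDegree) : ¬ q ∣ G := by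
  rintro ⟨w, rfl⟩
  have hq : q ≠ 0 := left_ne_zero_of_mul hG
  have hw : w ≠ 0 := right_ne_zero_of_mul hG
  rw [MvPolynomial.totalDegree_mul_of_isDomain hq hw] at h
  omega

theorem pderiv_eq_zero_empty (hbez : BezoutStmt) {q : MvPolynomial (Fin 2) ℚ}
    (hq : Irreducible q) (hδ : 2 ≤ q.totalDegree) {Q : MvPolynomial (Fin 2) ℤ} {c : ℚ} (hc : c ≠ 0)
    (hQ : MvPolynomial.map (Int.castRingHom ℚ) Q = MvPolynomial.C c * q)
    (hD : MvPolynomial.pderiv 1 Q = 0) (z : ℤ × ℤ) : evQ z q ≠ 0 := by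
  classical
  intro hz
  have hzQ : evZ z Q = 0 := by
    have h1 := evQ_map z Q
    rw [hQ, map_mul, hz, mul_zero] at h1
    exact_mod_cast h1.symm
  have h1 : Polynomial.derivative (toBiv Q) = 0 := by rw [derivative_toBiv, hD, map_zero]
  have h2 : toBiv Q = Polynomial.C ((toBiv Q).coeff 0) :=
    Polynomial.eq_C_of_natDegree_eq_zero (Polynomial.derivative_eq_zero.mp h1)
  have h3 : ∀ y : ℤ, evZ (z.1, y) Q = 0 := by
    intro y
    have h4 : evZ (z.1, y) Q = evZ (z.1, z.2) Q := by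
      rw [← ev2_toBiv, ← ev2_toBiv, h2]
      simp [ev2]
    rw [h4]
    exact hzQ
  have h5 : ∀ y : ℤ, evQ (z.1, y) q = 0 := by
    intro y
    have h6 := evQ_map (z.1, y) Q
    rw [hQ, map_mul, h3 y, Int.cast_zero] at h6
    have h7 : evQ (z.1, y) (MvPolynomial.C c) = c := by simp [evQ]
    rw [h7] at h6
    exact (mul_eq_zero.mp h6).resolve_left hc
  set G : MvPolynomial (Fin 2) ℚ := MvPolynomial.X 0 - MvPolynomial.C (z.1 : ℚ) with hG
  have hG0 : G ≠ 0 := by
    intro h
    have := congrArg (MvPolynomial.eval ![(z.1 : ℚ) + 1, 0]) h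
    simp [hG] at this
  have hG1 : G.totalDegree ≤ 1 := by
    refine (MvPolynomial.totalDegree_sub _ _).trans ?_
    rw [MvPolynomial.totalDegree_X, MvPolynomial.totalDegree_C]
    simp
  have h8 := hbez q G hq (not_dvd_of_totalDegree_lt hG0 (by omega))
    ((range (q.totalDegree + 1)).image (fun y : ℕ => ((z.1, (y : ℤ)) : ℤ × ℤ)))
    (by
      intro w hw
      obtain ⟨y, -, rfl⟩ := mem_image.mp hw
      exact h5 _)
    (by
      intro w hw
      obtain ⟨y, -, rfl⟩ := mem_image.mp hw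
      simp [hG, evQ])
  rw [card_image_of_injective _ (by
    intro a b hab
    simpa using hab), card_range] at h8
  have h9 : q.totalDegree * G.totalDegree ≤ q.totalDegree * 1 := Nat.mul_le_mul_left _ hG1
  omega

theorem singular_card_le (hbez : BezoutStmt) {q : MvPolynomial (Fin 2) ℚ}
    (hq : Irreducible q) (hδ : 2 ≤ q.totalDegree) {Q : MvPolynomial (Fin 2) ℤ} {c : ℚ} (hc : c ≠ 0)
    (hQ : MvPolynomial.map (Int.castRingHom ℚ) Q = MvPolynomial.C c * q)
    (Z : Finset (ℤ × ℤ)) (hZ : ∀ z ∈ Z, evQ z q = 0)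
    (hD : ∀ z ∈ Z, evZ z (MvPolynomial.pderiv 1 Q) = 0) :
    Z.card ≤ q.totalDegree ^ 2 := by
  by_cases hD0 : MvPolynomial.pderiv 1 Q = 0
  · have : Z = ∅ := by
      by_contra hne
      obtain ⟨z, hz⟩ := nonempty_iff_ne_empty.mpr hne
      exact pderiv_eq_zero_empty hbez hq hδ hc hQ hD0 z (hZ z hz)
    simp [this]
  · have hinj : Function.Injective (MvPolynomial.map (σ := Fin 2) (Int.castRingHom ℚ)) :=
      MvPolynomial.map_injective _ Int.cast_injective
    have h0 : MvPolynomial.map (Int.castRingHom ℚ) (MvPolynomial.pderiv 1 Q) ≠ 0 := by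
      intro h
      exact hD0 (hinj (by rw [h, map_zero]))
    have h1 : (MvPolynomial.map (Int.castRingHom ℚ) (MvPolynomial.pderiv 1 Q)).totalDegree <
        q.totalDegree := by
      have h2 := totalDegree_pderiv_lt 1 hD0
      have h3 := totalDegree_le_of_map hQ
      have h4 : (MvPolynomial.map (Int.castRingHom ℚ) (MvPolynomial.pderiv 1 Q)).totalDegree ≤
          (MvPolynomial.pderiv 1 Q).totalDegree := by
        apply Finset.sup_le
        intro m hm
        exact MvPolynomial.le_totalDegree (MvPolynomial.support_map_subset _ _ hm)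
      omega
    have h2 := hbez q _ hq (not_dvd_of_totalDegree_lt h0 h1) Z hZ (fun z hz => by
      rw [evQ_map, hD z hz, Int.cast_zero])
    refine h2.trans ?_
    rw [sq]
    exact Nat.mul_le_mul_left _ h1.le

theorem card_support_le {R : Type*} [CommRing R] (P : MvPolynomial (Fin 2) R) (δ : ℕ)
    (h : P.totalDegree ≤ δ) : P.support.card ≤ (δ + 1) ^ 2 := by
  classical
  have hinj : Set.InjOn (fun m : Fin 2 →₀ ℕ => (m 0, m 1)) (P.support : Set (Fin 2 →₀ ℕ)) := by
    intro m _ m' _ hmm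
    have h0 : m 0 = m' 0 := congrArg Prod.fst hmm
    have h1 : m 1 = m' 1 := congrArg Prod.snd hmm
    ext i
    fin_cases i
    · exact h0
    · exact h1
  rw [← card_image_of_injOn hinj]
  calc (P.support.image fun m : Fin 2 →₀ ℕ => (m 0, m 1)).card
      ≤ (range (δ + 1) ×ˢ range (δ + 1)).card := by
        apply card_le_card
        intro a ha
        obtain ⟨m, hm, rfl⟩ := mem_image.mp ha
        have h1 := (MvPolynomial.le_totalDegree hm).trans h
        rw [Finsupp.sum_fintype _ _ (by simp), Fin.sum_univ_two] at h1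
        rw [mem_product, mem_range, mem_range]
        constructor
        · change m 0 < δ + 1
          omega
        · change m 1 < δ + 1
          omega
    _ = (δ + 1) ^ 2 := by rw [card_product, card_range, sq]

theorem abs_evZ_le (P : MvPolynomial (Fin 2) ℤ) (δ : ℕ) (h : P.totalDegree ≤ δ) (H X : ℕ)
    (hX : 1 ≤ X) (hH : ∀ m, |P.coeff m| ≤ (H : ℤ)) (z : ℤ × ℤ) (hz : |z.1| ≤ X ∧ |z.2| ≤ X) :
    |evZ z P| ≤ ((δ + 1) ^ 2 * H * X ^ δ : ℕ) := by
  have hX' : (1 : ℤ) ≤ X := by exact_mod_cast hX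
  rw [evZ, MvPolynomial.eval_eq']
  refine (abs_sum_le_sum_abs _ _).trans ?_
  calc ∑ m ∈ P.support, |P.coeff m * ∏ i, ![z.1, z.2] i ^ m i|
      ≤ ∑ m ∈ P.support, ((H * X ^ δ : ℕ) : ℤ) := by
        apply sum_le_sum
        intro m hm
        have h1 := (MvPolynomial.le_totalDegree hm).trans h
        rw [Finsupp.sum_fintype _ _ (by simp), Fin.sum_univ_two] at h1
        rw [abs_mul, Nat.cast_mul, Fin.prod_univ_two]
        apply mul_le_mul (hH m) _ (abs_nonneg _) (by positivity)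
        rw [abs_mul, abs_pow, abs_pow]
        calc |z.1| ^ m 0 * |z.2| ^ m 1 ≤ (X : ℤ) ^ m 0 * (X : ℤ) ^ m 1 :=
              mul_le_mul (pow_le_pow_left₀ (abs_nonneg _) hz.1 _)
                (pow_le_pow_left₀ (abs_nonneg _) hz.2 _) (by positivity) (by positivity)
          _ = (X : ℤ) ^ (m 0 + m 1) := (pow_add _ _ _).symm
          _ ≤ (X : ℤ) ^ δ := pow_le_pow_right₀ hX' h1
          _ = ((X ^ δ : ℕ) : ℤ) := by push_cast; ring
    _ = P.support.card * ((H * X ^ δ : ℕ) : ℤ) := by rw [sum_const, nsmul_eq_mul]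
    _ ≤ ((δ + 1) ^ 2 : ℕ) * ((H * X ^ δ : ℕ) : ℤ) := by
        apply mul_le_mul_of_nonneg_right _ (by positivity)
        exact_mod_cast card_support_le P δ h
    _ = ((δ + 1) ^ 2 * H * X ^ δ : ℕ) := by push_cast; ring

theorem abs_pderiv_le (Q : MvPolynomial (Fin 2) ℤ) (δ : ℕ) (h : Q.totalDegree ≤ δ) (H X : ℕ)
    (hX : 1 ≤ X) (hH : ∀ m, |Q.coeff m| ≤ (H : ℤ)) (z : ℤ × ℤ) (hz : |z.1| ≤ X ∧ |z.2| ≤ X) :
    |evZ z (MvPolynomial.pderiv 1 Q)| ≤ ((δ + 1) ^ 2 * (H * δ) * X ^ δ : ℕ) := by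
  by_cases h0 : MvPolynomial.pderiv 1 Q = 0
  · rw [h0, map_zero, abs_zero]
    positivity
  apply abs_evZ_le _ δ ((totalDegree_pderiv_lt 1 h0).le.trans h) (H * δ) X hX _ z hz
  intro m
  rw [MvPolynomial.coeff_pderiv]
  by_cases hm : Q.coeff (m + Finsupp.single 1 1) = 0
  · rw [hm]
    simp only [zero_mul, abs_zero]
    positivity
  · have h1 := (MvPolynomial.le_totalDegree (MvPolynomial.mem_support_iff.mpr hm)).trans h
    rw [Finsupp.sum_fintype _ _ (by simp), Fin.sum_univ_two] at h1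
    have h2 : (m + Finsupp.single (1 : Fin 2) 1 : Fin 2 →₀ ℕ) 1 = m 1 + 1 := by simp
    rw [abs_mul, Nat.cast_mul]
    apply mul_le_mul (hH _) _ (abs_nonneg _) (by positivity)
    rw [h2] at h1
    have h3 : m 1 + 1 ≤ δ := by omega
    have h4 : |((m 1 : ℤ) + 1)| = (m 1 : ℤ) + 1 := abs_of_nonneg (by positivity)
    rw [h4]
    exact_mod_cast h3

end Vale.Agent.P018
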