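import Mathlib
import Vale.Agent.P018.Defs
import Vale.Agent.P018.Singular

/-! The Bombieri-Pila bound by `l`-adic determinants. -/

namespace Vale.Agent.P018

open Finset

/-- Module C', as a hypothesis. -/
def HeightStmt (δ : ℕ) : Prop := ∃ K : ℕ, ∀ X : ℕ, 2 ≤ X → ∀ q : MvPolynomial (Fin 2) ℚ,
    Irreducible q → q.totalDegree ≤ δ → ∀ Z : Finset (ℤ × ℤ),
    (∀ z ∈ Z, |z.1| ≤ X ∧ |z.2| ≤ X) → (∀ z ∈ Z, evQ z q = 0) → δ * δ < Z.card →
    ∃ (Q : MvPolynomial (Fin 2) ℤ) (c : ℚ), c ≠ 0 ∧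
      MvPolynomial.map (Int.castRingHom ℚ) Q = MvPolynomial.C c * q ∧
      ∀ m, |Q.coeff m| ≤ (X : ℤ) ^ K

theorem exists_primes (L : ℕ) (hL : 1 ≤ L) : ∃ ℓ : ℕ → ℕ, Function.Injective ℓ ∧
    ∀ i, (ℓ i).Prime ∧ L < ℓ i ∧ ℓ i ≤ 2 ^ (i + 1) * L := by
  have h : ∀ i : ℕ, ∃ p : ℕ, p.Prime ∧ 2 ^ i * L < p ∧ p ≤ 2 ^ (i + 1) * L := by
    intro i
    obtain ⟨p, hp, h1, h2⟩ := Nat.exists_prime_lt_and_le_two_mul (2 ^ i * L) (by positivity)
    exact ⟨p, hp, h1, by rw [pow_succ]; linarith⟩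
  choose ℓ hℓ using h
  refine ⟨ℓ, ?_, fun i => ⟨(hℓ i).1, ?_, (hℓ i).2.2⟩⟩
  · apply StrictMono.injective
    apply strictMono_nat_of_lt_succ
    intro i
    exact (hℓ i).2.2.trans_lt (hℓ (i + 1)).2.1
  · refine lt_of_le_of_lt ?_ (hℓ i).2.1
    exact Nat.le_mul_of_pos_left L (by positivity)

theorem exists_not_dvd {ℓ : ℕ → ℕ} {L : ℕ} (hinj : Function.Injective ℓ)
    (hℓ : ∀ i, (ℓ i).Prime ∧ L < ℓ i ∧ ℓ i ≤ 2 ^ (i + 1) * L) (r n : ℕ) (hn : n ≠ 0)
    (hnr : n < (L + 1) ^ r) : ∃ i < r, ¬ ℓ i ∣ n := by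
  classical
  by_contra hcon
  push Not at hcon
  have h1 : ∏ p ∈ (range r).image ℓ, p ∣ n := by
    apply Finset.prod_primes_dvd
    · intro p hp
      obtain ⟨i, -, rfl⟩ := mem_image.mp hp
      exact (hℓ i).1.prime
    · intro p hp
      obtain ⟨i, hi, rfl⟩ := mem_image.mp hp
      exact hcon i (mem_range.mp hi)
  rw [prod_image hinj.injOn] at h1
  have h2 := Nat.le_of_dvd (Nat.pos_of_ne_zero hn) h1
  have h3 : (L + 1) ^ r ≤ ∏ i ∈ range r, ℓ i := by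
    calc (L + 1) ^ r = ∏ i ∈ range r, (L + 1) := by simp
      _ ≤ ∏ i ∈ range r, ℓ i := prod_le_prod' fun i _ => (hℓ i).2.1
  omega

theorem exponent_ineq (δ m : ℕ) (hδ : 2 ≤ δ) (ε : ℝ) (hε : 0 < ε) (hm : 3 ≤ ε * m) :
    ((2 * δ * m ^ 2 + 2 * δ ^ 2 * m : ℕ) : ℝ) ≤
      (1 / (δ : ℝ) + ε) * ((∑ i ∈ range (δ * (2 * m)), i : ℕ) : ℝ) := by
  have hm1 : 1 ≤ m := by
    rcases Nat.eq_zero_or_pos m with h | h
    · rw [h] at hm
      norm_num at hm
    · exact h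
  have h1 := Finset.sum_range_id_mul_two (δ * (2 * m))
  have h2 : 1 ≤ δ * (2 * m) := Nat.one_le_iff_ne_zero.mpr (by positivity)
  have h3 : ((∑ i ∈ range (δ * (2 * m)), i : ℕ) : ℝ) = δ * m * (2 * δ * m - 1) := by
    have h4 : (((∑ i ∈ range (δ * (2 * m)), i : ℕ) : ℝ)) * 2 = (δ * (2 * m)) * (δ * (2 * m) - 1) := by
      have := congrArg (fun n : ℕ => (n : ℝ)) h1
      simp only [Nat.cast_mul, Nat.cast_ofNat] at this
      rw [this, Nat.cast_sub h2]
      push_cast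
      ring
    linear_combination h4 / 2
  rw [h3]
  have hδ' : (2 : ℝ) ≤ δ := by exact_mod_cast hδ
  have hm' : (1 : ℝ) ≤ m := by exact_mod_cast hm1
  have h5 : (1 / (δ : ℝ) + ε) * (δ * m * (2 * δ * m - 1)) =
      m * (2 * δ * m - 1) + ε * m * (δ * (2 * δ * m - 1)) := by
    field_simp
  rw [h5]
  push_cast
  have h6 : (0 : ℝ) ≤ δ * (2 * δ * m - 1) := by nlinarith
  have h7 : 3 * (δ * (2 * δ * m - 1)) ≤ ε * m * (δ * (2 * δ * m - 1)) :=
    mul_le_mul_of_nonneg_right hm h6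
  have h8 : (δ : ℝ) * (δ * m) ≤ δ * (2 * δ * m - 1) := by
    apply mul_le_mul_of_nonneg_left _ (by positivity)
    nlinarith
  nlinarith [mul_le_mul hδ' hδ' (by norm_num) (by positivity)]

theorem size_ineq (δ m : ℕ) (hδ : 2 ≤ δ) (ε : ℝ) (hε : 0 < ε) (hm : 3 ≤ ε * m) (X p : ℕ)
    (hX : 1 ≤ X) (hp : ((δ * (2 * m)).factorial : ℝ) * (X : ℝ) ^ (1 / (δ : ℝ) + ε) < p) :
    ((δ * (2 * m)).factorial : ℤ) * (X : ℤ) ^ (2 * δ * m ^ 2 + 2 * δ ^ 2 * m) <
      (p : ℤ) ^ (∑ i ∈ range (δ * (2 * m)), i) := by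
  have hm1 : 1 ≤ m := by
    rcases Nat.eq_zero_or_pos m with h | h
    · rw [h] at hm
      norm_num at hm
    · exact h
  have hX' : (1 : ℝ) ≤ X := by exact_mod_cast hX
  have hR : (∑ i ∈ range (δ * (2 * m)), i) ≠ 0 := by
    have h1 := Finset.sum_range_id_mul_two (δ * (2 * m))
    intro h0
    rw [h0, zero_mul] at h1
    have h2 : 4 ≤ δ * (2 * m) := by nlinarith
    rcases Nat.mul_eq_zero.mp h1.symm with h | h <;> omega
  set R := ∑ i ∈ range (δ * (2 * m)), i with hRdef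
  set A : ℝ := ((δ * (2 * m)).factorial : ℝ) with hA
  have hA1 : 1 ≤ A := by
    rw [hA]
    exact_mod_cast Nat.one_le_iff_ne_zero.mpr (Nat.factorial_ne_zero _)
  have key : A * (X : ℝ) ^ (2 * δ * m ^ 2 + 2 * δ ^ 2 * m) < (p : ℝ) ^ R := by
    calc A * (X : ℝ) ^ (2 * δ * m ^ 2 + 2 * δ ^ 2 * m)
        ≤ A ^ R * ((X : ℝ) ^ (1 / (δ : ℝ) + ε)) ^ R := by
          apply mul_le_mul (le_self_pow₀ hA1 hR) _ (by positivity) (by positivity)
          rw [← Real.rpow_natCast, ← Real.rpow_natCast, ← Real.rpow_mul (by positivity)]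
          exact Real.rpow_le_rpow_of_exponent_le hX' (exponent_ineq δ m hδ ε hε hm)
      _ = (A * (X : ℝ) ^ (1 / (δ : ℝ) + ε)) ^ R := (mul_pow _ _ _).symm
      _ < (p : ℝ) ^ R := pow_lt_pow_left₀ hp (by positivity) hR
  rw [hA] at key
  exact_mod_cast key

theorem bombieri_pila_of (hbez : BezoutStmt) (δ : ℕ) (hht : HeightStmt δ) (hδ : 2 ≤ δ) (ε : ℝ)
    (hε : 0 < ε) :
    ∃ K : ℝ, 0 < K ∧ ∀ X : ℕ, 2 ≤ X → ∀ q : MvPolynomial (Fin 2) ℚ,
    Irreducible q → q.totalDegree = δ → ∀ Z : Finset (ℤ × ℤ),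
    (∀ z ∈ Z, |z.1| ≤ X ∧ |z.2| ≤ X) → (∀ z ∈ Z, evQ z q = 0) →
    (Z.card : ℝ) ≤ K * (X : ℝ) ^ (1 / (δ : ℝ) + ε) := by
  classical
  obtain ⟨K0, hK0⟩ := hht
  set m : ℕ := ⌈3 / ε⌉₊ with hm
  have hm3 : 3 ≤ ε * m := by
    have := Nat.le_ceil (3 / ε)
    rw [← hm, div_le_iff₀ hε] at this
    linarith
  set K1 : ℕ := K0 + δ + (δ + 1) ^ 2 * δ with hK1
  set r : ℕ := δ * K1 with hr
  set A : ℕ := (δ * (2 * m)).factorial with hA
  have hA1 : 1 ≤ A := Nat.one_le_iff_ne_zero.mpr (Nat.factorial_ne_zero _)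
  set B : ℕ := r * (δ * (δ + 2 * m) * (δ * 2 ^ r)) with hB
  refine ⟨(δ : ℝ) ^ 2 + B * (2 * A), by positivity, ?_⟩
  intro X hX q hq hqδ Z hZ hZq
  have hX1 : 1 ≤ X := by omega
  have hX' : (1 : ℝ) ≤ X := by exact_mod_cast hX1
  have hθ : 0 ≤ 1 / (δ : ℝ) + ε := by positivity
  set T : ℝ := (X : ℝ) ^ (1 / (δ : ℝ) + ε) with hT
  have hT1 : 1 ≤ T := Real.one_le_rpow hX' hθ
  rcases le_or_gt Z.card (δ * δ) with hcard | hcard
  · calc (Z.card : ℝ) ≤ (δ : ℝ) ^ 2 := by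
          rw [sq]
          exact_mod_cast hcard
      _ ≤ (δ : ℝ) ^ 2 + B * (2 * A) := le_add_of_nonneg_right (by positivity)
      _ = ((δ : ℝ) ^ 2 + B * (2 * A)) * 1 := (mul_one _).symm
      _ ≤ ((δ : ℝ) ^ 2 + B * (2 * A)) * T := by
          apply mul_le_mul_of_nonneg_left hT1 (by positivity)
  obtain ⟨Q, c, hc, hQ, hcoef⟩ := hK0 X hX q hq hqδ.le Z hZ hZq hcard
  set L : ℕ := ⌈(A : ℝ) * T⌉₊ with hL
  have hAT : 1 ≤ (A : ℝ) * T := by
    have : (1 : ℝ) ≤ A := by exact_mod_cast hA1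
    nlinarith
  have hLle : (A : ℝ) * T ≤ L := Nat.le_ceil _
  have hLge : (L : ℝ) ≤ 2 * A * T := by
    have := Nat.ceil_lt_add_one (show 0 ≤ (A : ℝ) * T by positivity)
    linarith
  have hL1 : 1 ≤ L := by
    have : (1 : ℝ) ≤ L := hAT.trans hLle
    exact_mod_cast this
  obtain ⟨ℓ, hinj, hℓ⟩ := exists_primes L hL1
  -- the singular points
  set Zs : Finset (ℤ × ℤ) := Z.filter (fun z => evZ z (MvPolynomial.pderiv 1 Q) = 0) with hZs
  set Zi : ℕ → Finset (ℤ × ℤ) :=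
    fun i => Z.filter (fun z => ¬ ((ℓ i : ℕ) : ℤ) ∣ evZ z (MvPolynomial.pderiv 1 Q)) with hZi
  have hcover : Z ⊆ Zs ∪ (range r).biUnion Zi := by
    intro z hz
    by_cases hD : evZ z (MvPolynomial.pderiv 1 Q) = 0
    · exact mem_union_left _ (mem_filter.mpr ⟨hz, hD⟩)
    · apply mem_union_right
      have hsize := abs_pderiv_le Q δ ((totalDegree_le_of_map hQ).trans hqδ.le) (X ^ K0) X hX1
        (fun m => by exact_mod_cast hcoef m) z (hZ z hz)
      have h1 : (evZ z (MvPolynomial.pderiv 1 Q)).natAbs < (L + 1) ^ r := by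
        have h2 : (evZ z (MvPolynomial.pderiv 1 Q)).natAbs ≤
            (δ + 1) ^ 2 * (X ^ K0 * δ) * X ^ δ := by
          zify
          exact_mod_cast hsize
        have h3 : (δ + 1) ^ 2 * (X ^ K0 * δ) * X ^ δ < X ^ K1 := by
          have h4 : (δ + 1) ^ 2 * δ < X ^ ((δ + 1) ^ 2 * δ) :=
            (Nat.lt_two_pow_self).trans_le (Nat.pow_le_pow_left hX _)
          calc (δ + 1) ^ 2 * (X ^ K0 * δ) * X ^ δ = X ^ (K0 + δ) * ((δ + 1) ^ 2 * δ) := by ring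
            _ < X ^ (K0 + δ) * X ^ ((δ + 1) ^ 2 * δ) := by
              apply Nat.mul_lt_mul_of_pos_left h4 (by positivity)
            _ = X ^ K1 := by rw [hK1, ← pow_add]
        have h5 : X ^ K1 ≤ (L + 1) ^ r := by
          have h6 : (X : ℝ) ^ K1 ≤ ((L : ℝ) + 1) ^ r := by
            calc (X : ℝ) ^ K1 = ((X : ℝ) ^ (1 / (δ : ℝ))) ^ r := by
                  rw [← Real.rpow_natCast, ← Real.rpow_natCast, ← Real.rpow_mul (by positivity),
                    hr]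
                  congr 1
                  push_cast
                  field_simp
              _ ≤ ((L : ℝ) + 1) ^ r := by
                  apply pow_le_pow_left₀ (by positivity)
                  have h7 : (X : ℝ) ^ (1 / (δ : ℝ)) ≤ T :=
                    Real.rpow_le_rpow_of_exponent_le hX' (by linarith)
                  have h8 : T ≤ (A : ℝ) * T := by
                    have : (1 : ℝ) ≤ A := by exact_mod_cast hA1
                    nlinarith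
                  linarith
          exact_mod_cast h6
        omega
      obtain ⟨i, hi, hdvd⟩ := exists_not_dvd hinj hℓ r _ (by simpa using hD) h1
      rw [mem_biUnion]
      refine ⟨i, mem_range.mpr hi, mem_filter.mpr ⟨hz, ?_⟩⟩
      rwa [← Int.natCast_dvd] at hdvd
  have hs : Zs.card ≤ δ ^ 2 := by
    rw [← hqδ]
    exact singular_card_le hbez hq (by omega) hc hQ Zs (fun z hz => hZq z (mem_filter.mp hz).1)
      (fun z hz => (mem_filter.mp hz).2)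
  have hi : ∀ i ∈ range r, (Zi i).card ≤ δ * (δ + 2 * m) * (δ * (2 ^ r * L)) := by
    intro i hi
    have hpr : Fact (ℓ i).Prime := ⟨(hℓ i).1⟩
    have h1 := smooth_card_le hbez hq hQ (2 * m) X (2 * δ * m ^ 2 + 2 * δ ^ 2 * m) hX1
      (by rw [hqδ]; ring_nf; rfl) (ℓ i)
      (by
        rw [hqδ]
        apply size_ineq δ m hδ ε hε hm3 X (ℓ i) hX1
        exact lt_of_le_of_lt hLle (by exact_mod_cast (hℓ i).2.1))
      (Zi i) (fun z hz => ⟨(hZ z (mem_filter.mp hz).1).1, (hZ z (mem_filter.mp hz).1).2,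
        hZq z (mem_filter.mp hz).1⟩) (fun z hz => (mem_filter.mp hz).2)
    rw [hqδ] at h1
    refine h1.trans ?_
    gcongr
    refine (hℓ i).2.2.trans ?_
    gcongr
    · norm_num
    · exact mem_range.mp hi
  have htot : Z.card ≤ δ ^ 2 + B * L := by
    calc Z.card ≤ (Zs ∪ (range r).biUnion Zi).card := card_le_card hcover
      _ ≤ Zs.card + ((range r).biUnion Zi).card := card_union_le _ _
      _ ≤ δ ^ 2 + r * (δ * (δ + 2 * m) * (δ * (2 ^ r * L))) := by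
          apply add_le_add hs
          refine card_biUnion_le.trans ?_
          refine (sum_le_sum hi).trans ?_
          rw [sum_const, card_range, smul_eq_mul]
      _ = δ ^ 2 + B * L := by
          rw [hB]
          ring
  have htot' : (Z.card : ℝ) ≤ (δ : ℝ) ^ 2 + B * L := by exact_mod_cast htot
  calc (Z.card : ℝ) ≤ (δ : ℝ) ^ 2 + B * L := htot'
    _ ≤ (δ : ℝ) ^ 2 * T + B * (2 * A * T) := by
        apply add_le_add
        · exact le_mul_of_one_le_right (by positivity) hT1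
        · exact mul_le_mul_of_nonneg_left hLge (by positivity)
    _ = ((δ : ℝ) ^ 2 + B * (2 * A)) * T := by ring

end Vale.Agent.P018
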