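import Mathlib
import Vale.Agent.P018.Bezout
import Vale.Agent.P018.BombieriPilaAux

/-! The Bombieri-Pila bound. -/

namespace Vale.Agent.P018

/-- Module D: Bombieri-Pila. -/
theorem bombieri_pila (δ : ℕ) (hδ : 2 ≤ δ) (ε : ℝ) (hε : 0 < ε) :
    ∃ K : ℝ, 0 < K ∧ ∀ X : ℕ, 2 ≤ X → ∀ q : MvPolynomial (Fin 2) ℚ,
    Irreducible q → q.totalDegree = δ → ∀ Z : Finset (ℤ × ℤ),
    (∀ z ∈ Z, |z.1| ≤ X ∧ |z.2| ≤ X) → (∀ z ∈ Z, evQ z q = 0) →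
    (Z.card : ℝ) ≤ K * (X : ℝ) ^ (1 / (δ : ℝ) + ε) :=
  bombieri_pila_of (fun _ _ hq hG Z h1 h2 => bezout_bound hq hG Z h1 h2) δ (height_control δ)
    hδ ε hε

end Vale.Agent.P018
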