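import Vale.Agent.P018.Defs

/-! # P018, Module E: curves on which `f` does not divide `q(x,0)` carry few solutions;
Module G: the tail for `k ≥ deg f`. -/

namespace Vale.Agent.P018

open Polynomial Finset

/-- a polynomial has at most `deg f` roots modulo `p` in `[0,p)`, if `p` exceeds the absolute value
of the leading coefficient. -/
theorem card_roots_mod_le (f : ℤ[X]) (hf : f ≠ 0) {p : ℕ} (hp : p.Prime)
    (h : f.leadingCoeff.natAbs < p) (S : Finset ℤ)
    (hS : ∀ n ∈ S, 0 ≤ n ∧ n < p ∧ (p : ℤ) ∣ f.eval n) : S.card ≤ f.natDegree := by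
  have : Fact p.Prime := ⟨hp⟩
  set g := f.map (Int.castRingHom (ZMod p)) with hg
  have hg0 : g ≠ 0 := by
    intro h0
    have h1 : g.coeff f.natDegree = 0 := by rw [h0]; simp
    rw [hg, coeff_map] at h1
    have h2 : ((f.leadingCoeff : ℤ) : ZMod p) = 0 := by simpa using h1
    rw [ZMod.intCast_zmod_eq_zero_iff_dvd] at h2
    have h3 := Int.natAbs_dvd_natAbs.2 h2
    have h4 : 0 < f.leadingCoeff.natAbs := Int.natAbs_pos.2 (leadingCoeff_ne_zero.2 hf)
    have h5 := Nat.le_of_dvd h4 h3
    simp at h5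
    omega
  calc S.card ≤ g.roots.toFinset.card := by
        refine card_le_card_of_injOn (fun n : ℤ => (n : ZMod p)) ?_ ?_
        · intro n hn
          obtain ⟨-, -, h3⟩ := hS n hn
          simp only [Multiset.mem_toFinset, mem_coe]
          rw [mem_roots hg0, IsRoot.def, hg, eval_map]
          have : eval₂ (Int.castRingHom (ZMod p)) ((n : ℤ) : ZMod p) f = ((f.eval n : ℤ) : ZMod p) := by
            rw [show ((n : ℤ) : ZMod p) = Int.castRingHom (ZMod p) n from rfl, eval₂_at_apply]
            rfl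
          rw [this]
          exact (ZMod.intCast_zmod_eq_zero_iff_dvd _ _).2 h3
        · intro n hn m hm hnm
          obtain ⟨h1, h2, -⟩ := hS n hn
          obtain ⟨h3, h4, -⟩ := hS m hm
          have h5 := (ZMod.intCast_eq_intCast_iff_dvd_sub _ _ _).1 hnm
          obtain ⟨k, hk⟩ := h5
          have h6 : |m - n| < p := by
            rw [abs_lt]; constructor <;> linarith
          have h7 : k = 0 := by
            by_contra hk0
            have h8 : 1 ≤ |k| := Int.one_le_abs hk0
            have h9 : |m - n| = p * |k| := by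
              rw [hk, abs_mul, abs_of_nonneg (by positivity : (0 : ℤ) ≤ p)]
            nlinarith [abs_nonneg k, (by positivity : (0 : ℤ) ≤ p)]
          rw [h7, mul_zero] at hk
          linarith
    _ ≤ Multiset.card g.roots := g.roots.toFinset_card_le
    _ ≤ g.natDegree := card_roots' g
    _ ≤ f.natDegree := natDegree_map_le

/-- `Q(x,0)` over `ℤ`. -/
noncomputable def res0Z : MvPolynomial (Fin 2) ℤ →ₐ[ℤ] ℤ[X] :=
  MvPolynomial.aeval ![(X : ℤ[X]), 0]

theorem res0Z_map (Q : MvPolynomial (Fin 2) ℤ) :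
    (res0Z Q).map (Int.castRingHom ℚ) = res0 (MvPolynomial.map (Int.castRingHom ℚ) Q) := by
  have h : (Polynomial.mapRingHom (Int.castRingHom ℚ)).comp (res0Z : MvPolynomial (Fin 2) ℤ →+* ℤ[X]) =
      (res0 : MvPolynomial (Fin 2) ℚ →+* ℚ[X]).comp (MvPolynomial.map (Int.castRingHom ℚ)) := by
    apply MvPolynomial.ringHom_ext
    · intro r
      simp [res0Z, res0]
    · intro i
      fin_cases i <;> simp [res0Z, res0]
  exact congrArg (fun φ => φ Q) h

theorem res0Z_eval (Q : MvPolynomial (Fin 2) ℤ) (n : ℤ) :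
    (res0Z Q).eval n = evZ (n, 0) Q := by
  have h : (Polynomial.evalRingHom n).comp (res0Z : MvPolynomial (Fin 2) ℤ →+* ℤ[X]) = evZ (n, 0) := by
    apply MvPolynomial.ringHom_ext
    · intro r
      simp [res0Z, evZ]
    · intro i
      fin_cases i <;> simp [res0Z, evZ]
  exact congrArg (fun φ => φ Q) h

theorem evZ_sub_dvd (Q : MvPolynomial (Fin 2) ℤ) (n p : ℤ) :
    p ∣ evZ (n, p) Q - evZ (n, 0) Q := by
  rw [← Ideal.mem_span_singleton, ← Ideal.Quotient.eq]
  have h : (Ideal.Quotient.mk (Ideal.span {p})).comp (evZ (n, p)) =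
      (Ideal.Quotient.mk (Ideal.span {p})).comp (evZ (n, 0)) := by
    apply MvPolynomial.ringHom_ext
    · intro r
      simp [evZ]
    · intro i
      fin_cases i
      · simp [evZ]
      · simp only [evZ, RingHom.comp_apply, MvPolynomial.eval_X]
        simp only [Fin.mk_one, Matrix.cons_val_one, Matrix.cons_val_zero, map_zero]
        rw [Ideal.Quotient.eq_zero_iff_mem, Ideal.mem_span_singleton]
  exact congrArg (fun φ => φ Q) h

theorem res0Z_coeff (Q : MvPolynomial (Fin 2) ℤ) (i : ℕ) :
    (res0Z Q).coeff i = Q.coeff (Finsupp.single 0 i) := by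
  induction Q using MvPolynomial.induction_on' with
  | monomial u a =>
    have h1 : res0Z (MvPolynomial.monomial u a) = C a * (X ^ (u 0) * 0 ^ (u 1)) := by
      unfold res0Z
      rw [MvPolynomial.aeval_monomial, Finsupp.prod_fintype _ _ (fun i => pow_zero _)]
      simp [Fin.prod_univ_two]
    rw [h1, MvPolynomial.coeff_monomial]
    by_cases h2 : u 1 = 0
    · rw [h2, pow_zero, mul_one, coeff_C_mul, coeff_X_pow]
      by_cases h3 : i = u 0
      · rw [if_pos h3, if_pos, mul_one]
        ext j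
        fin_cases j
        · simp [h3]
        · simp [h2]
      · rw [if_neg h3, if_neg, mul_zero]
        intro h4
        apply h3
        rw [h4]
        simp
    · rw [zero_pow h2, mul_zero, mul_zero, coeff_zero, if_neg]
      intro h4
      apply h2
      rw [h4]
      simp
  | add p q hp hq =>
    rw [map_add, coeff_add, hp, hq, MvPolynomial.coeff_add]

theorem res0Z_natDegree_le (Q : MvPolynomial (Fin 2) ℤ) : (res0Z Q).natDegree ≤ Q.totalDegree := by
  have h := MvPolynomial.aeval_natDegree_le Q le_rfl ![(X : ℤ[X]), 0] (n := 1) (by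
    intro i
    fin_cases i <;> simp)
  simpa [res0Z] using h

/-- bound for a resultant. -/
theorem resultant_abs_le (f g : ℤ[X]) (B : ℤ) (hB0 : 0 ≤ B) (hf : ∀ i, |f.coeff i| ≤ B)
    (hg : ∀ i, |g.coeff i| ≤ B) (m n : ℕ) :
    |resultant f g m n| ≤ ((m + n).factorial : ℤ) * B ^ (m + n) := by
  have h := Matrix.det_le (A := sylvester f g m n) (abv := AbsoluteValue.abs) (x := B) (by
    intro i j
    rw [AbsoluteValue.abs_apply]
    induction j using Fin.addCases with
    | left j =>
      simp only [sylvester, Matrix.of_apply, Fin.addCases_left]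
      split_ifs
      · exact hg _
      · simpa using hB0
    | right j =>
      simp only [sylvester, Matrix.of_apply, Fin.addCases_right]
      split_ifs
      · exact hf _
      · simpa using hB0)
  simpa [resultant] using h

theorem small_curve_of (f : ℤ[X]) (hirr : Irreducible (f.map (Int.castRingHom ℚ))) (Δ : ℕ)
    (hc : ∃ K : ℕ, ∀ X : ℕ, 2 ≤ X → ∀ q : MvPolynomial (Fin 2) ℚ,
      Irreducible q → q.totalDegree ≤ Δ → ∀ Z : Finset (ℤ × ℤ),
      (∀ z ∈ Z, |z.1| ≤ X ∧ |z.2| ≤ X) → (∀ z ∈ Z, evQ z q = 0) → Δ * Δ < Z.card →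
      ∃ (Q : MvPolynomial (Fin 2) ℤ) (c : ℚ), c ≠ 0 ∧
        MvPolynomial.map (Int.castRingHom ℚ) Q = MvPolynomial.C c * q ∧
        ∀ m, |Q.coeff m| ≤ (X : ℤ) ^ K) :
    ∃ K P0 : ℕ, ∀ P : ℕ, P0 ≤ P → ∀ q : MvPolynomial (Fin 2) ℚ,
    Irreducible q → q.totalDegree ≤ Δ → ¬ (f.map (Int.castRingHom ℚ) ∣ res0 q) →
    ∀ Z : Finset (ℤ × ℤ),
    (∀ z ∈ Z, 0 < z.1 ∧ z.1 < z.2 ∧ (P : ℤ) < z.2 ∧ z.2 ≤ 2 * P ∧ Prime z.2 ∧
      z.2 ∣ f.eval z.1) → (∀ z ∈ Z, evQ z q = 0) → Z.card ≤ K := by
  classical
  obtain ⟨K0, hK0⟩ := hc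
  have hinj : Function.Injective (Int.castRingHom ℚ) := Int.cast_injective
  have hf0 : f ≠ 0 := by
    rintro rfl
    simp at hirr
  have hd : f.natDegree ≠ 0 := by
    have h1 := hirr.natDegree_pos
    rw [natDegree_map_eq_of_injective hinj] at h1
    omega
  set d := f.natDegree with hddef
  set H : ℕ := ∑ i ∈ range (d + 1), (f.coeff i).natAbs with hH
  have hHle : ∀ i, (f.coeff i).natAbs ≤ H := by
    intro i
    by_cases hi : i ≤ d
    · exact single_le_sum (f := fun i => (f.coeff i).natAbs) (fun _ _ => Nat.zero_le _)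
        (mem_range.2 (by omega))
    · rw [coeff_eq_zero_of_natDegree_lt (by omega)]
      simp
  set K1 : ℕ := 1 + 2 * (K0 + 1) * (d + Δ) with hK1
  refine ⟨max (Δ * Δ) (d * K1), max 2 (max H (d + Δ).factorial),
    fun P hP q hq hqΔ hndvd Z hZ hZq => ?_⟩
  have hP2 : 2 ≤ P := le_trans (le_max_left _ _) hP
  have hPH : H ≤ P := le_trans ((le_max_left _ _).trans (le_max_right _ _)) hP
  have hPfac : (d + Δ).factorial ≤ P := le_trans ((le_max_right _ _).trans (le_max_right _ _)) hP
  by_cases hcard : Z.card ≤ Δ * Δ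
  · exact le_max_of_le_left hcard
  refine le_max_of_le_right ?_
  obtain ⟨Q, c, hc0, hQ, hQc⟩ := hK0 (2 * P) (by omega) q hq hqΔ Z (by
    intro z hz
    obtain ⟨h1, h2, h3, h4, -, -⟩ := hZ z hz
    push_cast
    rw [abs_le, abs_le]
    refine ⟨⟨by linarith, by linarith⟩, ⟨by linarith, by linarith⟩⟩) hZq (by omega)
  have hQz : ∀ z ∈ Z, evZ z Q = 0 := by
    intro z hz
    have h1 := evQ_map z Q
    rw [hQ, map_mul, hZq z hz, mul_zero] at h1
    exact_mod_cast h1.symm
  set c0 := res0Z Q with hc0def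
  have hc0map : c0.map (Int.castRingHom ℚ) = C c * res0 q := by
    rw [hc0def, res0Z_map, hQ, map_mul]
    congr 1
    simp [res0]
  have hcop : IsCoprime (f.map (Int.castRingHom ℚ)) (c0.map (Int.castRingHom ℚ)) := by
    rcases EuclideanDomain.dvd_or_coprime (f.map (Int.castRingHom ℚ)) (c0.map (Int.castRingHom ℚ)) hirr
      with h | h
    · exfalso
      apply hndvd
      rw [hc0map] at h
      have hu : IsUnit (C c : ℚ[X]) := isUnit_C.2 (isUnit_iff_ne_zero.2 hc0)
      exact (hu.dvd_mul_left).1 h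
    · exact h
  have hRne : resultant f c0 f.natDegree c0.natDegree ≠ 0 := by
    have h := resultant_ne_zero _ _ hcop
    rw [natDegree_map_eq_of_injective hinj, natDegree_map_eq_of_injective hinj,
      resultant_map_map] at h
    exact fun h0 => h (by rw [h0, map_zero])
  obtain ⟨u, v, -, -, huv⟩ := exists_mul_add_mul_eq_C_resultant f c0 le_rfl le_rfl (Or.inl hd)
  set R := resultant f c0 f.natDegree c0.natDegree with hR
  have hdvd : ∀ z ∈ Z, z.2 ∣ R := by
    intro z hz
    obtain ⟨h1, h2, h3, h4, h5, h6⟩ := hZ z hz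
    have h7 : z.2 ∣ c0.eval z.1 := by
      have h8 := evZ_sub_dvd Q z.1 z.2
      have h9 : evZ (z.1, z.2) Q = 0 := hQz z hz
      rw [h9, zero_sub, dvd_neg, ← res0Z_eval] at h8
      exact h8
    have h8 := congrArg (fun g => g.eval z.1) huv
    simp only [eval_add, eval_mul, eval_C] at h8
    rw [← h8]
    exact dvd_add (h6.mul_right _) (h7.mul_right _)
  -- degree and size of `R`
  have he : c0.natDegree ≤ Δ := by
    have h1 : (c0.map (Int.castRingHom ℚ)).natDegree ≤ Δ := by
      rw [hc0map]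
      refine natDegree_C_mul_le _ _ |>.trans ?_
      have h := MvPolynomial.aeval_natDegree_le q hqΔ ![(X : ℚ[X]), 0] (n := 1) (by
        intro i
        fin_cases i <;> simp)
      simpa [res0] using h
    rwa [natDegree_map_eq_of_injective hinj] at h1
  have hP1 : (1 : ℤ) ≤ P := by exact_mod_cast (by omega : 1 ≤ P)
  have hP2' : (2 : ℤ) ≤ P := by exact_mod_cast hP2
  set B : ℤ := (2 * P : ℤ) ^ (K0 + 1) with hB
  have hB1 : 1 ≤ B := one_le_pow₀ (by linarith)
  have hRle : |R| ≤ (P : ℤ) ^ K1 := by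
    have h1 := resultant_abs_le f c0 B (by linarith) (by
      intro i
      have h2 := hHle i
      have h3 : |f.coeff i| ≤ (P : ℤ) := by
        rw [Int.abs_eq_natAbs]
        exact_mod_cast h2.trans hPH
      calc |f.coeff i| ≤ (P : ℤ) := h3
        _ ≤ (2 * P : ℤ) ^ 1 := by rw [pow_one]; linarith
        _ ≤ B := pow_le_pow_right₀ (by linarith) (by omega)) (by
      intro i
      rw [hc0def, res0Z_coeff]
      have h2 := hQc (Finsupp.single 0 i)
      push_cast at h2
      exact h2.trans (pow_le_pow_right₀ (by linarith) (by omega))) f.natDegree c0.natDegree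
    have h2 : ((d + c0.natDegree).factorial : ℤ) ≤ P := by
      have h3 : (d + c0.natDegree).factorial ≤ (d + Δ).factorial := Nat.factorial_le (by omega)
      exact_mod_cast h3.trans hPfac
    calc |R| ≤ ((d + c0.natDegree).factorial : ℤ) * B ^ (d + c0.natDegree) := h1
      _ ≤ P * B ^ (d + Δ) := by
          refine mul_le_mul h2 (pow_le_pow_right₀ hB1 (by omega)) (by positivity) (by positivity)
      _ ≤ P * ((P : ℤ) ^ (2 * (K0 + 1))) ^ (d + Δ) := by
          refine mul_le_mul_of_nonneg_left (pow_le_pow_left₀ (by linarith) ?_ _) (by positivity)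
          rw [hB, pow_mul]
          exact pow_le_pow_left₀ (by positivity) (by nlinarith) _
      _ = (P : ℤ) ^ K1 := by
          rw [← pow_mul, hK1, pow_add, pow_one]
  have hRle' : R.natAbs ≤ P ^ K1 := by
    rw [Int.abs_eq_natAbs] at hRle
    exact_mod_cast hRle
  have hRpos : 0 < R.natAbs := Int.natAbs_pos.2 hRne
  -- the set of primes
  set S := Z.image (fun z => z.2.natAbs) with hS
  have hSprime : ∀ p ∈ S, p.Prime := by
    intro p hp
    obtain ⟨z, hz, rfl⟩ := mem_image.1 hp
    exact Int.prime_iff_natAbs_prime.1 (hZ z hz).2.2.2.2.1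
  have hSdvd : ∏ p ∈ S, p ∣ R.natAbs := by
    refine Finset.prod_primes_dvd _ (fun p hp => (hSprime p hp).prime) ?_
    intro p hp
    obtain ⟨z, hz, rfl⟩ := mem_image.1 hp
    exact Int.natAbs_dvd_natAbs.2 (hdvd z hz)
  have hSP : ∀ p ∈ S, P < p := by
    intro p hp
    obtain ⟨z, hz, rfl⟩ := mem_image.1 hp
    have := (hZ z hz).2.2.1
    zify
    exact lt_of_lt_of_le this (le_abs_self _)
  have hScard : S.card ≤ K1 := by
    have h1 : P ^ S.card ≤ ∏ p ∈ S, p := by
      rw [← prod_const]
      exact prod_le_prod' fun p hp => (hSP p hp).le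
    have h2 := (h1.trans (Nat.le_of_dvd hRpos hSdvd)).trans hRle'
    exact (Nat.pow_le_pow_iff_right (by omega)).1 h2
  have hfib : ∀ b ∈ S, (Z.filter fun z => z.2.natAbs = b).card ≤ d := by
    intro b hb
    have hinjOn : Set.InjOn Prod.fst ((Z.filter fun z => z.2.natAbs = b : Finset (ℤ × ℤ)) : Set (ℤ × ℤ)) := by
      intro z hz w hw hzw
      simp only [coe_filter, Set.mem_ofPred_eq] at hz hw
      have h1 := (hZ z hz.1)
      have h2 := (hZ w hw.1)
      have h3 : z.2.natAbs = w.2.natAbs := hz.2.trans hw.2.symm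
      have h4 : 0 < z.2 := by linarith [h1.1, h1.2.1]
      have h5 : 0 < w.2 := by linarith [h2.1, h2.2.1]
      exact Prod.ext hzw (by omega)
    rw [← card_image_of_injOn hinjOn]
    refine card_roots_mod_le f hf0 (hSprime b hb) ?_ _ ?_
    · refine lt_of_le_of_lt ((hHle _).trans hPH) (hSP b hb)
    · intro n hn
      obtain ⟨z, hz, rfl⟩ := mem_image.1 hn
      rw [mem_filter] at hz
      obtain ⟨h1, h2, h3, h4, h5, h6⟩ := hZ z hz.1
      have h7 : (b : ℤ) = z.2 := by
        rw [← hz.2]
        exact Int.natAbs_of_nonneg (by linarith)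
      rw [h7]
      exact ⟨h1.le, h2, h6⟩
  calc Z.card ≤ d * S.card := card_le_mul_card_image Z d hfib
    _ ≤ d * K1 := Nat.mul_le_mul_left _ hScard

end Vale.Agent.P018
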