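import Mathlib
import Vale.Agent.P018.Defs
import Vale.Agent.P018.SmallCurve
import Vale.Agent.P018.BombieriPila

/-! Points on a curve of bounded degree, in a box after a unimodular change of coordinates. -/

namespace Vale.Agent.P018

open Finset Polynomial

/-- linear substitution. -/
noncomputable def linSub (a b q r : ℤ) : MvPolynomial (Fin 2) ℚ →ₐ[ℚ] MvPolynomial (Fin 2) ℚ :=
  MvPolynomial.aeval ![MvPolynomial.C (a : ℚ) * MvPolynomial.X 0 + MvPolynomial.C (b : ℚ) * MvPolynomial.X 1,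
    MvPolynomial.C (q : ℚ) * MvPolynomial.X 0 + MvPolynomial.C (r : ℚ) * MvPolynomial.X 1]

theorem linSub_comp (a b q r : ℤ) (h : a * r - b * q = 1) (g : MvPolynomial (Fin 2) ℚ) :
    linSub r (-b) (-q) a (linSub a b q r g) = g := by
  have hQ : (a : ℚ) * r - b * q = 1 := by exact_mod_cast h
  have hC : MvPolynomial.C (a : ℚ) * MvPolynomial.C (r : ℚ) -
      MvPolynomial.C (b : ℚ) * MvPolynomial.C (q : ℚ) = (1 : MvPolynomial (Fin 2) ℚ) := by
    rw [← MvPolynomial.C_mul, ← MvPolynomial.C_mul, ← MvPolynomial.C_sub, hQ, MvPolynomial.C_1]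
  have h1 : (linSub r (-b) (-q) a).comp (linSub a b q r) = AlgHom.id ℚ _ := by
    apply MvPolynomial.algHom_ext
    intro i
    fin_cases i
    · simp only [linSub, AlgHom.comp_apply, MvPolynomial.aeval_X, Fin.zero_eta, Fin.isValue,
        Matrix.cons_val_zero, map_add, map_mul, Matrix.cons_val_one, MvPolynomial.algHom_C,
        MvPolynomial.algebraMap_eq, AlgHom.coe_id, id_eq, Int.cast_neg, map_neg]
      linear_combination (MvPolynomial.X 0 : MvPolynomial (Fin 2) ℚ) * hC
    · simp only [linSub, AlgHom.comp_apply, MvPolynomial.aeval_X, Fin.mk_one, Fin.isValue,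
        Matrix.cons_val_zero, map_add, map_mul, Matrix.cons_val_one, MvPolynomial.algHom_C,
        MvPolynomial.algebraMap_eq, AlgHom.coe_id, id_eq, Int.cast_neg, map_neg]
      linear_combination (MvPolynomial.X 1 : MvPolynomial (Fin 2) ℚ) * hC
  have := congrArg (fun φ : MvPolynomial (Fin 2) ℚ →ₐ[ℚ] MvPolynomial (Fin 2) ℚ => φ g) h1
  simpa using this

noncomputable def linEquiv (a b q r : ℤ) (h : a * r - b * q = 1) :
    MvPolynomial (Fin 2) ℚ ≃ₐ[ℚ] MvPolynomial (Fin 2) ℚ :=
  AlgEquiv.ofAlgHom (linSub a b q r) (linSub r (-b) (-q) a)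
    (by
      apply AlgHom.ext
      intro g
      have h2 := linSub_comp r (-b) (-q) a (by linarith) g
      simp only [neg_neg] at h2
      simpa using h2)
    (by
      apply AlgHom.ext
      intro g
      simpa using linSub_comp a b q r h g)

theorem linSub_irreducible (a b q r : ℤ) (h : a * r - b * q = 1) (g : MvPolynomial (Fin 2) ℚ)
    (hg : Irreducible g) : Irreducible (linSub a b q r g) := by
  have := (MulEquiv.irreducible_iff (linEquiv a b q r h)).mpr hg
  simpa [linEquiv] using this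

theorem totalDegree_aeval_le (v : Fin 2 → MvPolynomial (Fin 2) ℚ) (hv : ∀ i, (v i).totalDegree ≤ 1)
    (g : MvPolynomial (Fin 2) ℚ) : (MvPolynomial.aeval v g).totalDegree ≤ g.totalDegree := by
  rw [MvPolynomial.aeval_def, MvPolynomial.eval₂_eq']
  refine (MvPolynomial.totalDegree_finsetSum _ _).trans ?_
  refine Finset.sup_le fun m hm => ?_
  refine (MvPolynomial.totalDegree_mul _ _).trans ?_
  rw [MvPolynomial.algebraMap_eq, MvPolynomial.totalDegree_C, zero_add]
  refine (MvPolynomial.totalDegree_finsetProd _ _).trans ?_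
  have h1 : ∑ i, ((v i) ^ (m i)).totalDegree ≤ ∑ i, m i := by
    refine Finset.sum_le_sum fun i _ => ?_
    refine (MvPolynomial.totalDegree_pow _ _).trans ?_
    calc m i * (v i).totalDegree ≤ m i * 1 := Nat.mul_le_mul_left _ (hv i)
      _ = m i := mul_one _
  refine h1.trans ?_
  have h2 := MvPolynomial.le_totalDegree hm
  rwa [Finsupp.sum_fintype _ _ (fun _ => rfl)] at h2

theorem totalDegree_lin (a b : ℤ) : (MvPolynomial.C (a : ℚ) * MvPolynomial.X 0 +
    MvPolynomial.C (b : ℚ) * MvPolynomial.X 1 : MvPolynomial (Fin 2) ℚ).totalDegree ≤ 1 := by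
  refine (MvPolynomial.totalDegree_add _ _).trans (max_le ?_ ?_)
  · refine (MvPolynomial.totalDegree_mul _ _).trans ?_
    rw [MvPolynomial.totalDegree_C, MvPolynomial.totalDegree_X]
  · refine (MvPolynomial.totalDegree_mul _ _).trans ?_
    rw [MvPolynomial.totalDegree_C, MvPolynomial.totalDegree_X]

theorem linSub_totalDegree_le (a b q r : ℤ) (g : MvPolynomial (Fin 2) ℚ) :
    (linSub a b q r g).totalDegree ≤ g.totalDegree := by
  apply totalDegree_aeval_le
  intro i
  fin_cases i
  · exact totalDegree_lin a b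
  · exact totalDegree_lin q r

theorem linSub_totalDegree (a b q r : ℤ) (h : a * r - b * q = 1) (g : MvPolynomial (Fin 2) ℚ) :
    (linSub a b q r g).totalDegree = g.totalDegree := by
  apply le_antisymm (linSub_totalDegree_le a b q r g)
  calc g.totalDegree = (linSub r (-b) (-q) a (linSub a b q r g)).totalDegree := by
        rw [linSub_comp a b q r h g]
    _ ≤ _ := linSub_totalDegree_le _ _ _ _ _

theorem evQ_linSub (a b q r : ℤ) (g : MvPolynomial (Fin 2) ℚ) (y : ℤ × ℤ) :
    evQ y (linSub a b q r g) = evQ (a * y.1 + b * y.2, q * y.1 + r * y.2) g := by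
  have h1 : (evQ y).comp (linSub a b q r : MvPolynomial (Fin 2) ℚ →+* MvPolynomial (Fin 2) ℚ) =
      evQ (a * y.1 + b * y.2, q * y.1 + r * y.2) := by
    apply MvPolynomial.ringHom_ext
    · intro c
      simp [evQ, linSub]
    · intro i
      fin_cases i
      · simp [evQ, linSub]
      · simp [evQ, linSub]
  have := congrArg (fun φ : MvPolynomial (Fin 2) ℚ →+* ℚ => φ g) h1
  simpa using this

theorem X_dvd_sub_res0 (g : MvPolynomial (Fin 2) ℚ) :
    MvPolynomial.X 1 ∣ g - Polynomial.aeval (MvPolynomial.X 0 : MvPolynomial (Fin 2) ℚ) (res0 g) := by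
  induction g using MvPolynomial.induction_on with
  | C a =>
    have : res0 (MvPolynomial.C a) = Polynomial.C a := by
      rw [← MvPolynomial.algebraMap_eq, AlgHom.commutes]
      rfl
    rw [this, Polynomial.aeval_C, MvPolynomial.algebraMap_eq, sub_self]
    exact dvd_zero _
  | add p q hp hq =>
    rw [map_add, map_add]
    have := dvd_add hp hq
    convert! this using 1
    ring
  | mul_X p i hp =>
    rw [map_mul, map_mul]
    fin_cases i
    · have : res0 (MvPolynomial.X 0) = Polynomial.X := by simp [res0]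
      simp only [Fin.zero_eta, Fin.isValue]
      rw [this, Polynomial.aeval_X, ← sub_mul]
      exact Dvd.dvd.mul_right hp _
    · have : res0 (MvPolynomial.X 1) = 0 := by simp [res0]
      simp only [Fin.mk_one, Fin.isValue]
      rw [this, map_zero, mul_zero, sub_zero]
      exact Dvd.intro_left p rfl

theorem natDegree_res0_le (g : MvPolynomial (Fin 2) ℚ) : (res0 g).natDegree ≤ g.totalDegree := by
  unfold res0
  rw [MvPolynomial.aeval_def, MvPolynomial.eval₂_eq']
  refine Polynomial.natDegree_sum_le_of_forall_le _ _ fun m hm => ?_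
  have h2 := MvPolynomial.le_totalDegree hm
  rw [Finsupp.sum_fintype _ _ (fun _ => rfl), Fin.sum_univ_two] at h2
  rw [Fin.prod_univ_two]
  simp only [Fin.isValue, Matrix.cons_val_zero, Matrix.cons_val_one]
  refine Polynomial.natDegree_mul_le.trans ?_
  have h3 : ((algebraMap ℚ ℚ[X]) (MvPolynomial.coeff m g)).natDegree = 0 := by
    rw [← Polynomial.C_eq_algebraMap, Polynomial.natDegree_C]
  rw [h3, zero_add]
  refine Polynomial.natDegree_mul_le.trans ?_
  rw [Polynomial.natDegree_X_pow]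
  have h4 : ((0 : ℚ[X]) ^ (m 1)).natDegree = 0 := by
    rcases Nat.eq_zero_or_pos (m 1) with h | h
    · rw [h, pow_zero, Polynomial.natDegree_one]
    · rw [zero_pow h.ne', Polynomial.natDegree_zero]
  rw [h4]
  omega

theorem totalDegree_pos_of_irreducible (g : MvPolynomial (Fin 2) ℚ) (hg : Irreducible g) :
    1 ≤ g.totalDegree := by
  by_contra hcon
  have h0 : g.totalDegree = 0 := by omega
  have h1 := MvPolynomial.totalDegree_eq_zero_iff_eq_C.mp h0
  apply hg.not_isUnit
  rw [h1]
  apply IsUnit.map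
  rw [isUnit_iff_ne_zero]
  intro h2
  apply hg.ne_zero
  rw [h1, h2, MvPolynomial.C_0]

theorem factor_count (S : Set (ℤ × ℤ)) (Δ : ℕ) (B : ℝ) (hB : 0 ≤ B)
    (h : ∀ g : MvPolynomial (Fin 2) ℚ, Irreducible g → g.totalDegree ≤ Δ → ∀ Z : Finset (ℤ × ℤ),
      (∀ z ∈ Z, z ∈ S) → (∀ z ∈ Z, evQ z g = 0) → (Z.card : ℝ) ≤ B)
    (C : MvPolynomial (Fin 2) ℚ) (hC : C ≠ 0) (hCΔ : C.totalDegree ≤ Δ) (Z : Finset (ℤ × ℤ))
    (hZS : ∀ z ∈ Z, z ∈ S) (hZ : ∀ z ∈ Z, evQ z C = 0) : (Z.card : ℝ) ≤ Δ * B := by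
  classical
  have key : ∀ C : MvPolynomial (Fin 2) ℚ, C ≠ 0 → C.totalDegree ≤ Δ → ∀ Z : Finset (ℤ × ℤ),
      (∀ z ∈ Z, z ∈ S) → (∀ z ∈ Z, evQ z C = 0) → (Z.card : ℝ) ≤ C.totalDegree * B := by
    intro C
    induction C using UniqueFactorizationMonoid.induction_on_prime with
    | h₁ => intro h0; exact absurd rfl h0
    | h₂ u hu =>
      intro _ _ Z _ hZ
      have : Z = ∅ := by
        rw [Finset.eq_empty_iff_forall_notMem]
        intro z hz
        exact (hu.map (evQ z)).ne_zero (hZ z hz)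
      rw [this]
      simp only [Finset.card_empty, Nat.cast_zero]
      positivity
    | h₃ a p ha hp ih =>
      intro hne hdeg Z hZS hZ
      have hp0 : p ≠ 0 := hp.ne_zero
      have hdeg' := MvPolynomial.totalDegree_mul_of_isDomain hp0 ha
      rw [hdeg'] at hdeg
      have hsub : Z ⊆ (Z.filter fun z => evQ z p = 0) ∪ (Z.filter fun z => evQ z a = 0) := by
        intro z hz
        have h1 := hZ z hz
        rw [map_mul, mul_eq_zero] at h1
        rw [mem_union, mem_filter, mem_filter]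
        rcases h1 with h1 | h1
        · exact Or.inl ⟨hz, h1⟩
        · exact Or.inr ⟨hz, h1⟩
      have h1 : ((Z.filter fun z => evQ z p = 0).card : ℝ) ≤ B :=
        h p hp.irreducible (by omega) _ (fun z hz => hZS z (Finset.mem_filter.mp hz).1)
          (fun z hz => (Finset.mem_filter.mp hz).2)
      have h2 : ((Z.filter fun z => evQ z a = 0).card : ℝ) ≤ a.totalDegree * B :=
        ih ha (by omega) _ (fun z hz => hZS z (Finset.mem_filter.mp hz).1)
          (fun z hz => (Finset.mem_filter.mp hz).2)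
      have h3 : (Z.card : ℝ) ≤ (Z.filter fun z => evQ z p = 0).card +
          (Z.filter fun z => evQ z a = 0).card := by
        exact_mod_cast (Finset.card_le_card hsub).trans (Finset.card_union_le _ _)
      have h4 : (1 : ℝ) ≤ p.totalDegree := by
        exact_mod_cast totalDegree_pos_of_irreducible p hp.irreducible
      rw [hdeg']
      push_cast
      nlinarith
  refine (key C hC hCΔ Z hZS hZ).trans ?_
  have : (C.totalDegree : ℝ) ≤ Δ := by exact_mod_cast hCΔ
  exact mul_le_mul_of_nonneg_right this hB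

/-- Module F1: points on a curve of bounded degree, in a box after a unimodular change of
coordinates. -/
theorem curve_count (f : ℤ[X]) (hirr : Irreducible (f.map (Int.castRingHom ℚ)))
    (hd : 2 ≤ f.natDegree) (Δ : ℕ) (ε : ℝ) (hε : 0 < ε) :
    ∃ (K : ℝ) (P0 : ℕ), 0 < K ∧ ∀ P : ℕ, P0 ≤ P → ∀ Y : ℕ, 2 ≤ Y → ∀ a b q r : ℤ,
    a * r - b * q = 1 → ∀ C : MvPolynomial (Fin 2) ℚ, C ≠ 0 → C.totalDegree ≤ Δ →
    ∀ Z : Finset (ℤ × ℤ),
    (∀ z ∈ Z, 0 < z.1 ∧ z.1 < z.2 ∧ (P : ℤ) < z.2 ∧ z.2 ≤ 2 * P ∧ Prime z.2 ∧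
      z.2 ∣ f.eval z.1 ∧ |r * z.1 - b * z.2| ≤ Y ∧ |a * z.2 - q * z.1| ≤ Y ∧ evQ z C = 0) →
    (Z.card : ℝ) ≤ K * (Y : ℝ) ^ (1 / (f.natDegree : ℝ) + ε) := by
  classical
  obtain ⟨K1, P0, hE⟩ := small_curve_of f hirr Δ (height_control Δ)
  have hD : ∀ δ : ℕ, ∃ K : ℝ, 0 < K ∧ (2 ≤ δ → ∀ X : ℕ, 2 ≤ X → ∀ q : MvPolynomial (Fin 2) ℚ,
    Irreducible q → q.totalDegree = δ → ∀ Z : Finset (ℤ × ℤ),
    (∀ z ∈ Z, |z.1| ≤ X ∧ |z.2| ≤ X) → (∀ z ∈ Z, evQ z q = 0) →
    (Z.card : ℝ) ≤ K * (X : ℝ) ^ (1 / (δ : ℝ) + ε)) := by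
    intro δ
    by_cases hδ : 2 ≤ δ
    · obtain ⟨K, hK, hK2⟩ := bombieri_pila δ hδ ε hε
      exact ⟨K, hK, fun _ => hK2⟩
    · exact ⟨1, one_pos, fun h => absurd h hδ⟩
  choose KD hKD0 hKD using hD
  set K2 : ℝ := ∑ δ ∈ range (Δ + 1), KD δ with hK2
  have hK20 : 0 ≤ K2 := Finset.sum_nonneg fun δ _ => (hKD0 δ).le
  have hfnd : (f.map (Int.castRingHom ℚ)).natDegree = f.natDegree :=
    Polynomial.natDegree_map_eq_of_injective (Int.cast_injective (α := ℚ)) f
  refine ⟨Δ * (K1 + K2) + 1, P0, by positivity, ?_⟩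
  intro P hP Y hY a b q r hdet C hC hCΔ Z hZ
  have hY1 : (1 : ℝ) ≤ Y := by exact_mod_cast (by omega : 1 ≤ Y)
  set S : Set (ℤ × ℤ) := {z | 0 < z.1 ∧ z.1 < z.2 ∧ (P : ℤ) < z.2 ∧ z.2 ≤ 2 * P ∧ Prime z.2 ∧
      z.2 ∣ f.eval z.1 ∧ |r * z.1 - b * z.2| ≤ Y ∧ |a * z.2 - q * z.1| ≤ Y} with hS
  have hpow1 : (1 : ℝ) ≤ (Y : ℝ) ^ (1 / (f.natDegree : ℝ) + ε) :=
    Real.one_le_rpow hY1 (by positivity)
  have hB0 : 0 ≤ (K1 + K2) * (Y : ℝ) ^ (1 / (f.natDegree : ℝ) + ε) := by positivity
  have hmain := factor_count S Δ ((K1 + K2) * (Y : ℝ) ^ (1 / (f.natDegree : ℝ) + ε)) hB0 ?_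
    C hC hCΔ Z (fun z hz => by
      obtain ⟨h1, h2, h3, h4, h5, h6, h7, h8, h9⟩ := hZ z hz
      exact ⟨h1, h2, h3, h4, h5, h6, h7, h8⟩) (fun z hz => (hZ z hz).2.2.2.2.2.2.2.2)
  · refine hmain.trans ?_
    have : (Δ : ℝ) * ((K1 + K2) * (Y : ℝ) ^ (1 / (f.natDegree : ℝ) + ε)) =
      (Δ * (K1 + K2)) * (Y : ℝ) ^ (1 / (f.natDegree : ℝ) + ε) := by ring
    rw [this]
    exact mul_le_mul_of_nonneg_right (by linarith) (by positivity)
  · intro g hg hgΔ Z' hZ'S hZ'
    by_cases hdiv : f.map (Int.castRingHom ℚ) ∣ res0 g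
    · by_cases hres : res0 g = 0
      · have hX : MvPolynomial.X 1 ∣ g := by
          have := X_dvd_sub_res0 g
          rw [hres, map_zero, sub_zero] at this
          exact this
        have hempty : Z' = ∅ := by
          rw [Finset.eq_empty_iff_forall_notMem]
          intro z hz
          obtain ⟨c, hc⟩ := hX
          have hXu : ¬ IsUnit (MvPolynomial.X 1 : MvPolynomial (Fin 2) ℚ) :=
            (MvPolynomial.X_prime (R := ℚ) (i := (1 : Fin 2))).not_isUnit
          have hcu : IsUnit c := (hg.isUnit_or_isUnit hc).resolve_left hXu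
          have h1 := hZ' z hz
          rw [hc, map_mul, mul_eq_zero] at h1
          rcases h1 with h1 | h1
          · have h2 : evQ z (MvPolynomial.X 1) = (z.2 : ℚ) := by simp [evQ]
            rw [h2] at h1
            have h3 : z.2 = 0 := by exact_mod_cast h1
            have h4 := (hZ'S z hz).2.2.1
            rw [h3] at h4
            have : (0 : ℤ) ≤ P := by positivity
            omega
          · exact (hcu.map (evQ z)).ne_zero h1
        rw [hempty]
        simp only [Finset.card_empty, Nat.cast_zero]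
        exact hB0
      · have hdeg : f.natDegree ≤ g.totalDegree := by
          have h1 := Polynomial.natDegree_le_of_dvd hdiv hres
          rw [hfnd] at h1
          exact h1.trans (natDegree_res0_le g)
        have hirr' := linSub_irreducible a b q r hdet g hg
        have hdeg' := linSub_totalDegree a b q r hdet g
        let τ : ℤ × ℤ → ℤ × ℤ := fun z => (r * z.1 - b * z.2, a * z.2 - q * z.1)
        have hτinv : ∀ z : ℤ × ℤ, (a * (τ z).1 + b * (τ z).2, q * (τ z).1 + r * (τ z).2) = z := by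
          intro z
          ext
          · simp only [τ]
            linear_combination z.1 * hdet
          · simp only [τ]
            linear_combination z.2 * hdet
        have hτinj : Function.Injective τ := by
          intro z w hzw
          rw [← hτinv z, ← hτinv w, hzw]
        have h2 := hKD g.totalDegree (by omega) Y hY (linSub a b q r g) hirr' hdeg' (Z'.image τ)
          (by
            intro y hy
            rw [mem_image] at hy
            obtain ⟨z, hz, rfl⟩ := hy
            exact ⟨(hZ'S z hz).2.2.2.2.2.2.1, (hZ'S z hz).2.2.2.2.2.2.2⟩)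
          (by
            intro y hy
            rw [mem_image] at hy
            obtain ⟨z, hz, rfl⟩ := hy
            rw [evQ_linSub, hτinv]
            exact hZ' z hz)
        rw [Finset.card_image_of_injective _ hτinj] at h2
        refine h2.trans ?_
        have h3 : (Y : ℝ) ^ (1 / (g.totalDegree : ℝ) + ε) ≤ (Y : ℝ) ^ (1 / (f.natDegree : ℝ) + ε) := by
          apply Real.rpow_le_rpow_of_exponent_le hY1
          have h4 : (0 : ℝ) < f.natDegree := by exact_mod_cast (by omega : 0 < f.natDegree)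
          have h5 : (f.natDegree : ℝ) ≤ g.totalDegree := by exact_mod_cast hdeg
          have := one_div_le_one_div_of_le h4 h5
          linarith
        have h4 : KD g.totalDegree ≤ K1 + K2 := by
          have h5 : KD g.totalDegree ≤ K2 :=
            Finset.single_le_sum (f := KD) (fun δ _ => (hKD0 δ).le)
              (Finset.mem_range.mpr (by omega))
          have h6 : (0 : ℝ) ≤ K1 := by positivity
          linarith
        exact mul_le_mul h4 h3 (by positivity) (by positivity)
    · have h1 := hE P hP g hg hgΔ hdiv Z' (fun z hz => by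
        obtain ⟨h1, h2, h3, h4, h5, h6, h7, h8⟩ := hZ'S z hz
        exact ⟨h1, h2, h3, h4, h5, h6⟩) hZ'
      have h2 : (Z'.card : ℝ) ≤ K1 := by exact_mod_cast h1
      have h3 : (K1 : ℝ) + K2 ≤ (K1 + K2) * (Y : ℝ) ^ (1 / (f.natDegree : ℝ) + ε) :=
        le_mul_of_one_le_right (by positivity) hpow1
      linarith

end Vale.Agent.P018
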