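import Mathlib
import Vale.Agent.P018.Defs

namespace Vale.Agent.P018

open Polynomial

open Classical in
/-- pairs `(n, p)` with `n ≤ X`, `P < p ≤ 2 P` prime and `p^k ∣ f(n)`. -/
noncomputable def pairs (f : ℤ[X]) (k X P : ℕ) : Finset (ℕ × ℕ) :=
  ((Finset.Icc 1 X) ×ˢ (Finset.Ioc P (2 * P))).filter
    (fun z => z.2.Prime ∧ (z.2 : ℤ) ^ k ∣ f.eval (z.1 : ℤ))

end Vale.Agent.P018
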