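import Mathlib
import Vale.Agent.P018.Defs
import Vale.Agent.P018.PairsDef

/-! Auxiliary estimates for `pairs_bound`. -/

namespace Vale.Agent.P018

open Finset Polynomial

theorem sum_rpow_neg_le (β : ℝ) (hβ0 : 0 ≤ β) (hβ1 : β < 1) (Q : ℕ) :
    ∑ q ∈ Icc 1 Q, (q : ℝ) ^ (-β) ≤ (Q : ℝ) ^ (1 - β) / (1 - β) := by
  have ht : 0 < 1 - β := by linarith
  induction Q with
  | zero =>
    simp only [Nat.cast_zero]
    rw [Real.zero_rpow ht.ne']
    simp
  | succ n ih =>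
    rw [Finset.sum_Icc_succ_top (by omega)]
    have hn : (0 : ℝ) < (n : ℝ) + 1 := by positivity
    have h1 : (n : ℝ) ^ (1 - β) ≤ ((n : ℝ) + 1) ^ (1 - β) - (1 - β) * ((n : ℝ) + 1) ^ (-β) := by
      have h2 := _root_.rpow_one_add_le_one_add_mul_self (s := -(1 / ((n : ℝ) + 1)))
        (by
          rw [neg_le_neg_iff, div_le_one hn]
          have : (0 : ℝ) ≤ n := by positivity
          linarith) (p := 1 - β) ht.le (by linarith)
      have h3 : (1 : ℝ) + -(1 / ((n : ℝ) + 1)) = n / ((n : ℝ) + 1) := by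
        field_simp
        ring
      rw [h3, Real.div_rpow (by positivity) hn.le, div_le_iff₀ (by positivity)] at h2
      have h4 : ((n : ℝ) + 1) ^ (1 - β) = ((n : ℝ) + 1) ^ (-β) * ((n : ℝ) + 1) := by
        rw [← Real.rpow_add_one hn.ne']
        congr 1
        ring
      calc (n : ℝ) ^ (1 - β) ≤ (1 + (1 - β) * -(1 / ((n : ℝ) + 1))) * ((n : ℝ) + 1) ^ (1 - β) := h2
        _ = ((n : ℝ) + 1) ^ (1 - β) - (1 - β) * ((n : ℝ) + 1) ^ (-β) := by
            rw [h4]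
            field_simp
            ring
    push_cast
    have h5 : ((n : ℝ) + 1) ^ (-β) ≤ (((n : ℝ) + 1) ^ (1 - β) - (n : ℝ) ^ (1 - β)) / (1 - β) := by
      rw [le_div_iff₀ ht]
      linarith
    calc ∑ q ∈ Icc 1 n, (q : ℝ) ^ (-β) + ((n : ℝ) + 1) ^ (-β)
        ≤ (n : ℝ) ^ (1 - β) / (1 - β) +
          (((n : ℝ) + 1) ^ (1 - β) - (n : ℝ) ^ (1 - β)) / (1 - β) := add_le_add ih h5
      _ = ((n : ℝ) + 1) ^ (1 - β) / (1 - β) := by ring

theorem card_le_mul_of_fiber {α γ : Type*} [DecidableEq γ] (S : Finset α) (T : Finset γ)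
    (g : α → γ) (hg : ∀ x ∈ S, g x ∈ T) (B : ℝ)
    (hB : ∀ t ∈ T, ((S.filter fun x => g x = t).card : ℝ) ≤ B) :
    (S.card : ℝ) ≤ T.card * B := by
  rw [Finset.card_eq_sum_card_fiberwise hg]
  push_cast
  calc ∑ t ∈ T, ((S.filter fun x => g x = t).card : ℝ) ≤ ∑ _t ∈ T, B := Finset.sum_le_sum hB
    _ = T.card * B := by simp

/-- Bezout with small coefficient. -/
theorem exists_unimodular (a : ℤ) (q : ℕ) (hq : 0 < q) (h : Int.gcd a q = 1) :
    ∃ b r : ℤ, a * r - b * q = 1 ∧ 0 ≤ r ∧ r ≤ q := by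
  have hb := Int.gcd_eq_gcd_ab a q
  rw [h] at hb
  push_cast at hb
  set r0 := Int.gcdA a q
  set b0 := Int.gcdB a q
  have hq' : (0 : ℤ) < q := by exact_mod_cast hq
  refine ⟨-b0 - a * (r0 / q), r0 % q, ?_, Int.emod_nonneg _ hq'.ne', (Int.emod_lt_of_pos _ hq').le⟩
  have h1 : r0 % (q : ℤ) = r0 - q * (r0 / q) := Int.emod_def _ _
  rw [h1]
  linear_combination -hb

/-- Few primes for a given `n`. -/
theorem pa_card_primes_le (k d : ℕ) (N : ℤ) (hN : N ≠ 0) (X : ℕ) (A : ℝ) (hX : A < X)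
    (hX1 : 1 ≤ X) (hk : 1 ≤ k)
    (hNA : |(N : ℝ)| ≤ A * (X : ℝ) ^ d) (S : Finset ℕ)
    (hS : ∀ p ∈ S, p.Prime ∧ X < p ∧ (p : ℤ) ^ k ∣ N) : S.card ≤ d := by
  by_contra hcon
  push Not at hcon
  have hprod : (∏ p ∈ S, (p : ℤ) ^ k) ∣ N := by
    apply Finset.prod_dvd_of_coprime
    · intro p hp q hq hpq
      have h1 := (Nat.coprime_primes (hS p hp).1 (hS q hq).1).mpr hpq
      have h2 : IsCoprime (p : ℤ) (q : ℤ) := Nat.isCoprime_iff_coprime.mpr h1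
      exact h2.pow
    · intro p hp
      exact (hS p hp).2.2
  have hle : (∏ p ∈ S, (p : ℤ) ^ k) ≤ |N| := by
    have := Int.le_of_dvd (abs_pos.mpr hN) ((dvd_abs _ _).mpr hprod)
    exact this
  have hXr : (1 : ℝ) ≤ X := by exact_mod_cast hX1
  have h3 : (X : ℝ) ^ (d + 1) ≤ ((∏ p ∈ S, (p : ℤ) ^ k : ℤ) : ℝ) := by
    push_cast
    calc (X : ℝ) ^ (d + 1) ≤ (X : ℝ) ^ S.card := pow_le_pow_right₀ hXr hcon
      _ = ∏ _p ∈ S, (X : ℝ) := by simp
      _ ≤ ∏ p ∈ S, (p : ℝ) ^ k := by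
          refine Finset.prod_le_prod (fun _ _ => by positivity) fun p hp => ?_
          have h4 : (X : ℝ) ≤ p := by exact_mod_cast (hS p hp).2.1.le
          calc (X : ℝ) ≤ p := h4
            _ = (p : ℝ) ^ 1 := (pow_one _).symm
            _ ≤ (p : ℝ) ^ k := pow_le_pow_right₀ (by linarith) hk
  have h5 : ((∏ p ∈ S, (p : ℤ) ^ k : ℤ) : ℝ) ≤ |(N : ℝ)| := by exact_mod_cast hle
  have h6 : (X : ℝ) ^ (d + 1) ≤ A * (X : ℝ) ^ d := h3.trans (h5.trans hNA)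
  rw [pow_succ, mul_comm] at h6
  have h7 : (X : ℝ) ≤ A := le_of_mul_le_mul_right h6 (by positivity)
  linarith

theorem pa_abs_eval_le (f : ℤ[X]) (n X : ℕ) (hn : n ≤ X) (hX : 1 ≤ X) :
    |((f.eval (n : ℤ) : ℤ) : ℝ)| ≤
      (∑ i ∈ range (f.natDegree + 1), |(f.coeff i : ℝ)|) * (X : ℝ) ^ f.natDegree := by
  rw [Polynomial.eval_eq_sum_range]
  push_cast
  refine (Finset.abs_sum_le_sum_abs _ _).trans ?_
  rw [Finset.sum_mul]
  refine Finset.sum_le_sum fun i hi => ?_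
  rw [abs_mul]
  refine mul_le_mul_of_nonneg_left ?_ (abs_nonneg _)
  rw [abs_pow, abs_of_nonneg (by positivity : (0 : ℝ) ≤ (n : ℝ))]
  have h1 : (n : ℝ) ≤ X := by exact_mod_cast hn
  have h2 : (1 : ℝ) ≤ X := by exact_mod_cast hX
  calc (n : ℝ) ^ i ≤ (X : ℝ) ^ i := pow_le_pow_left₀ (by positivity) h1 _
    _ ≤ (X : ℝ) ^ f.natDegree := pow_le_pow_right₀ h2 (by
        rw [Finset.mem_range] at hi
        omega)

theorem pa_eval_ne_zero (f : ℤ[X]) (hirr : Irreducible (f.map (Int.castRingHom ℚ)))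
    (hd : 2 ≤ f.natDegree) (n : ℤ) : f.eval n ≠ 0 := by
  intro h0
  have h1 : (f.map (Int.castRingHom ℚ)).IsRoot (n : ℚ) := by
    rw [Polynomial.IsRoot.def, Polynomial.eval_intCast_map, Int.cast_id, h0]
    simp
  have h2 := Polynomial.degree_eq_one_of_irreducible_of_root hirr h1
  have h3 : (f.map (Int.castRingHom ℚ)).natDegree = 1 := Polynomial.natDegree_eq_of_degree_eq_some h2
  rw [Polynomial.natDegree_map_eq_of_injective (Int.cast_injective (α := ℚ))] at h3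
  omega

end Vale.Agent.P018
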