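import Mathlib

/-! Linear algebra: vanishing of all maximal minors gives a kernel vector. -/

namespace Vale.Agent.P018

open Finset

theorem exists_kernel {I J K : Type*} [Field K] [Fintype J] [DecidableEq J] (v : I → J → K)
    (h : ∀ φ : J → I, (Matrix.of fun i j => v (φ i) j).det = 0) :
    ∃ α : J → K, α ≠ 0 ∧ ∀ i, ∑ j, α j * v i j = 0 := by
  classical
  by_cases htop : Submodule.span K (Set.range v) = ⊤
  · exfalso
    obtain ⟨κ, a, -, hspan, hli⟩ := exists_linearIndependent' K v
    rw [htop] at hspan
    let b : Module.Basis κ K (J → K) := Module.Basis.mk hli hspan.ge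
    let e : J ≃ κ := (Pi.basisFun K J).indexEquiv b
    have hli2 : LinearIndependent K (fun i : J => v (a (e i))) := hli.comp e e.injective
    have h3 : IsUnit (Matrix.of fun i j => v (a (e i)) j) := by
      rw [← Matrix.linearIndependent_rows_iff_isUnit]
      exact hli2
    rw [Matrix.isUnit_iff_isUnit_det] at h3
    exact h3.ne_zero (h (fun i => a (e i)))
  · obtain ⟨g, hg0, hg⟩ := Submodule.exists_le_ker_of_lt_top (Submodule.span K (Set.range v))
      (lt_top_iff_ne_top.mpr htop)
    refine ⟨fun j => g (Pi.single j 1), ?_, ?_⟩
    · intro h0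
      apply hg0
      refine (Pi.basisFun K J).ext fun j => ?_
      have := congrFun h0 j
      simpa using this
    · intro i
      have h1 : g (v i) = 0 := hg (Submodule.subset_span ⟨i, rfl⟩)
      have h2 : v i = ∑ j, v i j • (Pi.single j (1 : K) : J → K) := by
        ext j
        simp [Finset.sum_apply, Pi.single_apply]
      rw [h2, map_sum] at h1
      rw [← h1]
      refine Finset.sum_congr rfl fun j _ => ?_
      rw [map_smul, smul_eq_mul, mul_comm]

end Vale.Agent.P018
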