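import Mathlib

/-! Determinants of products: expansion over functions, size bound, divisibility. -/

namespace Vale.Agent.P018

open Finset

theorem sum_range_id_le_sum (S : Finset ℕ) : ∑ i ∈ Finset.range S.card, i ≤ ∑ m ∈ S, m := by
  have h := Finset.sum_range_le_sum (s := S.map ⟨fun n : ℕ => (n : ℤ), Nat.cast_injective⟩) (c := 0)
    (by
      intro x hx
      simp only [Finset.mem_map, Function.Embedding.coeFn_mk] at hx
      obtain ⟨a, _, rfl⟩ := hx
      positivity)
  simp only [Finset.card_map, zero_add, Finset.sum_map, Function.Embedding.coeFn_mk] at h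
  have h2 : ((∑ i ∈ Finset.range S.card, i : ℕ) : ℤ) ≤ ((∑ m ∈ S, m : ℕ) : ℤ) := by
    push_cast
    exact h
  exact_mod_cast h2

/-- Expansion of the determinant of `(∑ t, A i t * B t j)` over all functions `J → T`. -/
theorem det_expand {R J T : Type*} [CommRing R] [Fintype J] [DecidableEq J] [Fintype T]
    [DecidableEq T] (A : J → T → R) (B : T → J → R) :
    (Matrix.of fun i j => ∑ t, A i t * B t j).det =
      ∑ φ : J → T, (∏ j, B (φ j) j) * (Matrix.of fun i j => A i (φ j)).det := by
  rw [← Matrix.det_transpose]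
  have h1 : (Matrix.of fun i j => ∑ t, A i t * B t j).transpose =
      (fun j => ∑ t, B t j • (fun i => A i t)) := by
    ext j i
    simp [Finset.sum_apply, mul_comm]
  rw [h1]
  change Matrix.detRowAlternating (fun j => ∑ t, B t j • (fun i => A i t)) = _
  have h2 := (Matrix.detRowAlternating (R := R) (n := J)).toMultilinearMap.map_sum
    (fun j t => B t j • (fun i => A i t))
  change Matrix.detRowAlternating.toMultilinearMap _ = _
  rw [h2]
  refine Finset.sum_congr rfl fun φ _ => ?_
  rw [MultilinearMap.map_smul_univ]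
  rw [smul_eq_mul]
  congr 1
  rw [← Matrix.det_transpose]
  rfl

theorem det_zero_of_not_injective {R J T : Type*} [CommRing R] [Fintype J] [DecidableEq J]
    (A : J → T → R) (φ : J → T) (h : ¬ Function.Injective φ) :
    (Matrix.of fun i j => A i (φ j)).det = 0 := by
  simp only [Function.Injective, not_forall] at h
  obtain ⟨a, b, hab, hne⟩ := h
  exact Matrix.det_zero_of_column_eq hne (fun i => by simp [hab])

theorem det_bound {J T : Type*} [Fintype J] [DecidableEq J] [Fintype T] [DecidableEq T]
    (A : J → T → ℝ) (B : T → J → ℝ) (α : T → ℝ) (β Γ : ℝ)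
    (hA : ∀ i t, |A i t| ≤ α t) (hB : ∀ t j, |B t j| ≤ β) (hΓ0 : 0 ≤ Γ)
    (hΓ : ∀ φ : J → T, Function.Injective φ → ∏ j, α (φ j) ≤ Γ) :
    |(Matrix.of fun i j => ∑ t, A i t * B t j).det| ≤
      (Fintype.card T : ℝ) ^ (Fintype.card J) *
        (β ^ (Fintype.card J) * ((Fintype.card J).factorial * Γ)) := by
  rw [det_expand]
  refine (Finset.abs_sum_le_sum_abs _ _).trans ?_
  have hcard : (Fintype.card T : ℝ) ^ (Fintype.card J) = (Finset.univ : Finset (J → T)).card := by
    simp [Finset.card_univ]
  rw [hcard, ← nsmul_eq_mul, ← Finset.sum_const]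
  refine Finset.sum_le_sum fun φ _ => ?_
  rw [abs_mul]
  have hβ0 : 0 ≤ β ^ (Fintype.card J) := by
    by_cases hJ : Nonempty J
    · obtain ⟨j⟩ := hJ
      exact pow_nonneg ((abs_nonneg _).trans (hB (φ j) j)) _
    · rw [not_nonempty_iff] at hJ
      simp
  have hprodB : |∏ j, B (φ j) j| ≤ β ^ (Fintype.card J) := by
    rw [Finset.abs_prod]
    calc ∏ j, |B (φ j) j| ≤ ∏ _j : J, β :=
          Finset.prod_le_prod (fun _ _ => abs_nonneg _) (fun j _ => hB _ _)
      _ = β ^ (Fintype.card J) := by simp
  have hdet : |(Matrix.of fun i j => A i (φ j)).det| ≤ (Fintype.card J).factorial * Γ := by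
    by_cases hinj : Function.Injective φ
    · rw [Matrix.det_apply]
      refine (Finset.abs_sum_le_sum_abs _ _).trans ?_
      have hperm : ((Fintype.card J).factorial : ℝ) = (Finset.univ : Finset (Equiv.Perm J)).card := by
        rw [Finset.card_univ, Fintype.card_perm]
      rw [hperm, ← nsmul_eq_mul, ← Finset.sum_const]
      refine Finset.sum_le_sum fun σ _ => ?_
      have h3 : |Equiv.Perm.sign σ • ∏ i, (Matrix.of fun i j => A i (φ j)) (σ i) i| =
          ∏ i, |A (σ i) (φ i)| := by
        rcases Int.units_eq_one_or (Equiv.Perm.sign σ) with h | h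
        · simp [h, Finset.abs_prod]
        · simp [h, Finset.abs_prod]
      rw [h3]
      calc ∏ i, |A (σ i) (φ i)| ≤ ∏ i, α (φ i) :=
            Finset.prod_le_prod (fun _ _ => abs_nonneg _) (fun i _ => hA _ _)
        _ ≤ Γ := hΓ φ hinj
    · rw [det_zero_of_not_injective A φ hinj]
      simpa using mul_nonneg (Nat.cast_nonneg _) hΓ0
  exact mul_le_mul hprodB hdet (abs_nonneg _) hβ0

/-- The determinant of `(∑ t < n, (l * a i)^t * B t j)` is divisible by `l^(s(s-1)/2)`. -/
theorem det_dvd_pow {J : Type*} [Fintype J] [DecidableEq J] (n : ℕ) (l : ℤ) (a : J → ℤ)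
    (B : Fin n → J → ℤ) :
    l ^ (Fintype.card J * (Fintype.card J - 1) / 2) ∣
      (Matrix.of fun i j => ∑ t : Fin n, (l * a i) ^ (t : ℕ) * B t j).det := by
  rw [det_expand (fun i (t : Fin n) => (l * a i) ^ (t : ℕ)) B]
  refine Finset.dvd_sum fun φ _ => Dvd.dvd.mul_left ?_ _
  by_cases hinj : Function.Injective φ
  · have h1 : (Matrix.of fun i j => (l * a i) ^ ((φ j : Fin n) : ℕ)) =
        (Matrix.of fun i j => (fun j => l ^ ((φ j : Fin n) : ℕ)) j *
          (Matrix.of fun i j => (a i) ^ ((φ j : Fin n) : ℕ)) i j) := by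
      ext i j
      simp [mul_pow]
    rw [h1, Matrix.det_mul_row]
    refine Dvd.dvd.mul_right ?_ _
    rw [Finset.prod_pow_eq_pow_sum]
    refine pow_dvd_pow _ ?_
    have hinj' : Function.Injective (fun j => ((φ j : Fin n) : ℕ)) :=
      fun x y h => hinj (Fin.ext h)
    have h2 : ∑ j, ((φ j : Fin n) : ℕ) = ∑ m ∈ Finset.univ.image (fun j => ((φ j : Fin n) : ℕ)), m := by
      rw [Finset.sum_image (fun x _ y _ h => hinj' h)]
    have h3 : (Finset.univ.image (fun j => ((φ j : Fin n) : ℕ))).card = Fintype.card J := by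
      rw [Finset.card_image_of_injective _ hinj', Finset.card_univ]
    rw [h2, ← h3]
    rw [← Finset.sum_range_id]
    exact sum_range_id_le_sum _
  · rw [det_zero_of_not_injective (fun i (t : Fin n) => (l * a i) ^ (t : ℕ)) φ hinj]
    exact dvd_zero _

end Vale.Agent.P018
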