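import Mathlib

/-! Expansion of the monomials in the local coordinates `u - u0`, `w`. -/

namespace Vale.Agent.P018

open Finset

/-- bivariate polynomials in `v = u - u0` and `w` with coefficients polynomial in `u0`. -/
abbrev BP := MvPolynomial (Fin 2) (Polynomial ℝ)

noncomputable def Fh (f : Polynomial ℤ) : BP :=
  ∑ t ∈ range (f.natDegree + 1), MvPolynomial.C (Polynomial.C (f.coeff t : ℝ)) *
    (MvPolynomial.C Polynomial.X + MvPolynomial.X 0) ^ t * (MvPolynomial.X 1) ^ (f.natDegree - t)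

noncomputable def Gh (f : Polynomial ℤ) (h D : ℕ) (t : ℕ × ℕ × ℕ) : BP :=
  (MvPolynomial.X 1) ^ (D - (t.1 + t.2.1 + h * t.2.2)) *
    (MvPolynomial.C Polynomial.X + MvPolynomial.X 0) ^ t.1 * (Fh f) ^ t.2.2

noncomputable def evBP (u0 v w : ℝ) : BP →+* ℝ :=
  MvPolynomial.eval₂Hom (Polynomial.evalRingHom u0) ![v, w]

theorem evBP_Fh (f : Polynomial ℤ) (u0 v w : ℝ) :
    evBP u0 v w (Fh f) = ∑ t ∈ range (f.natDegree + 1), (f.coeff t : ℝ) * (u0 + v) ^ t *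
      w ^ (f.natDegree - t) := by
  simp only [evBP, Fh, map_sum, map_mul, map_pow, map_add, MvPolynomial.coe_eval₂Hom,
    MvPolynomial.eval₂_C, MvPolynomial.eval₂_X, Polynomial.coe_evalRingHom, Polynomial.eval_C,
    Polynomial.eval_X, Matrix.cons_val_zero, Matrix.cons_val_one]

theorem evBP_Gh (f : Polynomial ℤ) (h D : ℕ) (t : ℕ × ℕ × ℕ) (u0 v w : ℝ) :
    evBP u0 v w (Gh f h D t) = w ^ (D - (t.1 + t.2.1 + h * t.2.2)) * (u0 + v) ^ t.1 *
      (∑ t ∈ range (f.natDegree + 1), (f.coeff t : ℝ) * (u0 + v) ^ t *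
      w ^ (f.natDegree - t)) ^ t.2.2 := by
  rw [← evBP_Fh]
  simp [evBP, Gh]

/-- The basic identity: `n^a p^b m^c = p^D G(n/p, 1/p)` when `p^k m = f(n)`. -/
theorem mono_eq (f : Polynomial ℤ) (k h D : ℕ) (hk : k + h = f.natDegree) (t : ℕ × ℕ × ℕ)
    (ht : t.1 + t.2.1 + h * t.2.2 ≤ D) (n p m : ℤ) (hp : p ≠ 0) (hm : p ^ k * m = f.eval n)
    (u0 : ℝ) :
    ((n : ℝ) ^ t.1 * (p : ℝ) ^ t.2.1 * (m : ℝ) ^ t.2.2) =
      (p : ℝ) ^ D * evBP u0 ((n : ℝ) / p - u0) (1 / p) (Gh f h D t) := by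
  have hp' : (p : ℝ) ≠ 0 := by exact_mod_cast hp
  rw [evBP_Gh]
  have h1 : u0 + ((n : ℝ) / p - u0) = (n : ℝ) / p := by ring
  rw [h1]
  have h2 : (∑ t ∈ range (f.natDegree + 1), (f.coeff t : ℝ) * ((n : ℝ) / p) ^ t *
      (1 / (p : ℝ)) ^ (f.natDegree - t)) = (m : ℝ) / (p : ℝ) ^ h := by
    have h3 : ((f.eval n : ℤ) : ℝ) = ∑ t ∈ range (f.natDegree + 1), (f.coeff t : ℝ) * (n : ℝ) ^ t := by
      rw [Polynomial.eval_eq_sum_range]
      push_cast
      rfl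
    have h4 : (p : ℝ) ^ k * m = ∑ t ∈ range (f.natDegree + 1), (f.coeff t : ℝ) * (n : ℝ) ^ t := by
      rw [← h3, ← hm]
      push_cast
      rfl
    rw [eq_div_iff (pow_ne_zero _ hp')]
    have h5 : ∀ t ∈ range (f.natDegree + 1), (f.coeff t : ℝ) * ((n : ℝ) / p) ^ t *
      (1 / (p : ℝ)) ^ (f.natDegree - t) = ((f.coeff t : ℝ) * (n : ℝ) ^ t) / (p : ℝ) ^ f.natDegree := by
      intro t ht
      rw [mem_range] at ht
      have h6 : (p : ℝ) ^ f.natDegree = (p : ℝ) ^ t * (p : ℝ) ^ (f.natDegree - t) := by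
        rw [← pow_add]
        congr 1
        omega
      rw [h6, div_pow, div_pow, one_pow]
      field_simp
    rw [Finset.sum_congr rfl h5, ← Finset.sum_div, ← h4, ← hk, pow_add]
    field_simp
  rw [h2]
  have h7 : (p : ℝ) ^ D = (p : ℝ) ^ (D - (t.1 + t.2.1 + h * t.2.2)) * ((p : ℝ) ^ t.1 *
      (p : ℝ) ^ t.2.1 * ((p : ℝ) ^ h) ^ t.2.2) := by
    rw [← pow_mul, ← pow_add, ← pow_add, ← pow_add]
    congr 1
    omega
  rw [h7, div_pow, div_pow, div_pow, one_pow]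
  field_simp

theorem taylor_rep {J : Type*} [Fintype J] (G : J → BP) :
    ∃ (T : Finset (Fin 2 →₀ ℕ)) (β : ℝ), 0 ≤ β ∧ ∀ u0 : ℝ, 0 ≤ u0 → u0 ≤ 2 →
      (∀ t j, |(MvPolynomial.coeff t (G j)).eval u0| * (if t ∈ T then 1 else 0) ≤ β) ∧
      ∀ v w : ℝ, ∀ j, evBP u0 v w (G j) =
        ∑ t ∈ T, (v ^ (t 0) * w ^ (t 1)) * (MvPolynomial.coeff t (G j)).eval u0 := by
  classical
  let T : Finset (Fin 2 →₀ ℕ) := Finset.univ.biUnion fun j => (G j).support
  have hb : ∀ (t : Fin 2 →₀ ℕ) (j : J), ∃ β : ℝ, 0 ≤ β ∧ ∀ u0 : ℝ, 0 ≤ u0 → u0 ≤ 2 →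
      |(MvPolynomial.coeff t (G j)).eval u0| ≤ β := by
    intro t j
    obtain ⟨β, hβ⟩ := (isCompact_Icc (a := (0 : ℝ)) (b := 2)).exists_bound_of_continuousOn
      ((MvPolynomial.coeff t (G j)).continuous.continuousOn)
    refine ⟨|β|, abs_nonneg _, fun u0 h0 h2 => ?_⟩
    exact (hβ u0 ⟨h0, h2⟩).trans (le_abs_self _)
  choose β hβ0 hβ using hb
  refine ⟨T, ∑ t ∈ T, ∑ j, β t j, Finset.sum_nonneg fun t _ => Finset.sum_nonneg fun j _ => hβ0 t j,
    fun u0 h0 h2 => ⟨fun t j => ?_, fun v w j => ?_⟩⟩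
  · split_ifs with ht
    · rw [mul_one]
      refine (hβ t j u0 h0 h2).trans ?_
      refine (Finset.single_le_sum (f := fun j => β t j) (fun j _ => hβ0 t j) (mem_univ j)).trans ?_
      exact Finset.single_le_sum (f := fun t => ∑ j, β t j)
        (fun t _ => Finset.sum_nonneg fun j _ => hβ0 t j) ht
    · rw [mul_zero]
      exact Finset.sum_nonneg fun t _ => Finset.sum_nonneg fun j _ => hβ0 t j
  · unfold evBP
    rw [MvPolynomial.coe_eval₂Hom, MvPolynomial.eval₂_eq']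
    have hsub : (G j).support ⊆ T := by
      intro t ht
      exact Finset.mem_biUnion.mpr ⟨j, mem_univ j, ht⟩
    rw [Finset.sum_subset hsub]
    · refine Finset.sum_congr rfl fun t _ => ?_
      simp [Fin.prod_univ_two]
      ring
    · intro t _ ht
      rw [MvPolynomial.notMem_support_iff] at ht
      rw [ht]
      simp

end Vale.Agent.P018
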