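import Mathlib

/-! Counting estimates for the determinant method. -/

namespace Vale.Agent.P018

open Finset

theorem sumA (y : ℝ) (N : ℕ) :
    ∑ e ∈ range N, max 0 (y - e) ≤ (max 0 (y + 1)) ^ 2 / 2 := by
  have key : ∀ e : ℕ, max 0 (y - e) ≤
      (max 0 (y + 1 - e)) ^ 2 / 2 - (max 0 (y + 1 - ((e + 1 : ℕ) : ℝ))) ^ 2 / 2 := by
    intro e
    push_cast
    have h1 : y + 1 - ((e : ℝ) + 1) = y - e := by ring
    rw [h1]
    have h2 : y + 1 - (e : ℝ) = (y - e) + 1 := by ring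
    rw [h2]
    generalize y - (e : ℝ) = t
    rcases le_total t 0 with h | h
    · rw [max_eq_left h]
      have : 0 ≤ (max 0 (t + 1)) ^ 2 := sq_nonneg _
      simp only [ne_eq, OfNat.ofNat_ne_zero, not_false_eq_true, zero_pow, zero_div, sub_zero]
      linarith
    · rw [max_eq_right h, max_eq_right (by linarith)]
      nlinarith
  calc ∑ e ∈ range N, max 0 (y - e)
      ≤ ∑ e ∈ range N, ((max 0 (y + 1 - e)) ^ 2 / 2 -
          (max 0 (y + 1 - ((e + 1 : ℕ) : ℝ))) ^ 2 / 2) := Finset.sum_le_sum fun e _ => key e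
    _ = (max 0 (y + 1 - ((0 : ℕ) : ℝ))) ^ 2 / 2 - (max 0 (y + 1 - (N : ℝ))) ^ 2 / 2 := by
        rw [Finset.sum_range_sub' (fun e : ℕ => (max 0 (y + 1 - (e : ℝ))) ^ 2 / 2)]
    _ ≤ (max 0 (y + 1)) ^ 2 / 2 := by
        have : 0 ≤ (max 0 (y + 1 - (N : ℝ))) ^ 2 := sq_nonneg _
        simp only [Nat.cast_zero, sub_zero]
        linarith

theorem sumB (Y x : ℝ) (hx : 0 < x) (N : ℕ) :
    ∑ i ∈ range N, (max 0 (Y - x * i)) ^ 2 / 2 ≤ (max 0 (Y + x)) ^ 3 / (6 * x) := by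
  have key : ∀ i : ℕ, x * ((max 0 (Y - x * i)) ^ 2 / 2) ≤
      (max 0 (Y + x - x * i)) ^ 3 / 6 - (max 0 (Y + x - x * ((i + 1 : ℕ) : ℝ))) ^ 3 / 6 := by
    intro i
    push_cast
    have h1 : Y + x - x * ((i : ℝ) + 1) = Y - x * i := by ring
    rw [h1]
    have h2 : Y + x - x * (i : ℝ) = (Y - x * i) + x := by ring
    rw [h2]
    generalize Y - x * (i : ℝ) = t
    rcases le_total t 0 with h | h
    · rw [max_eq_left h]
      have : 0 ≤ (max 0 (t + x)) ^ 3 := pow_nonneg (le_max_left _ _) _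
      simp only [ne_eq, OfNat.ofNat_ne_zero, not_false_eq_true, zero_pow, zero_div, sub_zero,
        mul_zero]
      linarith
    · rw [max_eq_right h, max_eq_right (by linarith)]
      have h3 : 0 ≤ 3 * t * x ^ 2 + x ^ 3 := by positivity
      nlinarith
  have h3 : x * ∑ i ∈ range N, (max 0 (Y - x * i)) ^ 2 / 2 ≤ (max 0 (Y + x)) ^ 3 / 6 := by
    rw [Finset.mul_sum]
    calc ∑ i ∈ range N, x * ((max 0 (Y - x * i)) ^ 2 / 2)
        ≤ ∑ i ∈ range N, ((max 0 (Y + x - x * i)) ^ 3 / 6 -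
            (max 0 (Y + x - x * ((i + 1 : ℕ) : ℝ))) ^ 3 / 6) := Finset.sum_le_sum fun i _ => key i
      _ = (max 0 (Y + x - x * ((0 : ℕ) : ℝ))) ^ 3 / 6 - (max 0 (Y + x - x * (N : ℝ))) ^ 3 / 6 := by
          rw [Finset.sum_range_sub' (fun i : ℕ => (max 0 (Y + x - x * (i : ℝ))) ^ 3 / 6)]
      _ ≤ (max 0 (Y + x)) ^ 3 / 6 := by
          have : 0 ≤ (max 0 (Y + x - x * (N : ℝ))) ^ 3 := pow_nonneg (le_max_left _ _) _
          simp only [Nat.cast_zero, mul_zero, sub_zero]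
          linarith
  rw [le_div_iff₀ (by positivity)]
  nlinarith

theorem sumC (Y h : ℝ) (hh : 0 < h) (hY : 0 ≤ Y) (N : ℕ) (hN : Y ≤ h * N) :
    Y ^ 2 / (2 * h) ≤ ∑ c ∈ range N, max 0 (Y - h * c) := by
  have key : ∀ c : ℕ, (max 0 (Y - h * c)) ^ 2 / 2 - (max 0 (Y - h * ((c + 1 : ℕ) : ℝ))) ^ 2 / 2 ≤
      h * max 0 (Y - h * c) := by
    intro c
    push_cast
    have h1 : Y - h * ((c : ℝ) + 1) = (Y - h * c) - h := by ring
    rw [h1]
    generalize Y - h * (c : ℝ) = t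
    rcases le_total t 0 with h | h'
    · rw [max_eq_left h, max_eq_left (by linarith)]
      simp
    · rw [max_eq_right h']
      rcases le_total (t - h) 0 with h4 | h4
      · rw [max_eq_left h4]
        nlinarith
      · rw [max_eq_right h4]
        nlinarith
  have h3 : Y ^ 2 / 2 ≤ h * ∑ c ∈ range N, max 0 (Y - h * c) := by
    rw [Finset.mul_sum]
    calc Y ^ 2 / 2 = (max 0 (Y - h * ((0 : ℕ) : ℝ))) ^ 2 / 2 - (max 0 (Y - h * (N : ℝ))) ^ 2 / 2 := by
          rw [max_eq_left (show Y - h * (N : ℝ) ≤ 0 by linarith)]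
          simp [max_eq_right hY]
      _ = ∑ c ∈ range N, ((max 0 (Y - h * c)) ^ 2 / 2 -
            (max 0 (Y - h * ((c + 1 : ℕ) : ℝ))) ^ 2 / 2) := by
          rw [Finset.sum_range_sub' (fun c : ℕ => (max 0 (Y - h * (c : ℝ))) ^ 2 / 2)]
      _ ≤ ∑ c ∈ range N, h * max 0 (Y - h * c) := Finset.sum_le_sum fun c _ => key c
  rw [div_le_iff₀ (by positivity)]
  nlinarith

/-- `Φ` for a finite set of exponents. -/
theorem phi_bound (x z : ℝ) (hx : 0 < x) (hz : 0 ≤ z) (T : Finset (Fin 2 →₀ ℕ)) :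
    ∑ t ∈ T, max 0 (z - (x * (t 0 : ℕ) + (t 1 : ℕ))) ≤ (z + 1 + x) ^ 3 / (6 * x) := by
  classical
  obtain ⟨N, hN⟩ : ∃ N : ℕ, ∀ t ∈ T, t 0 < N ∧ t 1 < N := by
    refine ⟨(T.sup fun t => t 0 + t 1) + 1, fun t ht => ?_⟩
    have h5 : t 0 + t 1 ≤ T.sup fun t : Fin 2 →₀ ℕ => t 0 + t 1 :=
      Finset.le_sup (f := fun t : Fin 2 →₀ ℕ => t 0 + t 1) ht
    omega
  calc ∑ t ∈ T, max 0 (z - (x * (t 0 : ℕ) + (t 1 : ℕ)))
      = ∑ p ∈ T.image (fun t => (t 0, t 1)), max 0 (z - (x * (p.1 : ℕ) + (p.2 : ℕ))) := by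
        rw [Finset.sum_image]
        intro a _ b _ hab
        simp only [Prod.mk.injEq] at hab
        ext i
        fin_cases i
        · exact hab.1
        · exact hab.2
    _ ≤ ∑ p ∈ range N ×ˢ range N, max 0 (z - (x * (p.1 : ℕ) + (p.2 : ℕ))) := by
        apply Finset.sum_le_sum_of_subset_of_nonneg
        · intro p hp
          simp only [mem_image] at hp
          obtain ⟨t, ht, rfl⟩ := hp
          simp only [mem_product, mem_range]
          exact hN t ht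
        · intro _ _ _
          exact le_max_left _ _
    _ = ∑ i ∈ range N, ∑ e ∈ range N, max 0 ((z - x * i) - e) := by
        rw [Finset.sum_product]
        refine Finset.sum_congr rfl fun i _ => Finset.sum_congr rfl fun e _ => ?_
        congr 1
        ring
    _ ≤ ∑ i ∈ range N, (max 0 ((z + 1) - x * i)) ^ 2 / 2 := by
        refine Finset.sum_le_sum fun i _ => ?_
        have := sumA (z - x * i) N
        have h2 : z - x * (i : ℝ) + 1 = z + 1 - x * i := by ring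
        rwa [h2] at this
    _ ≤ (max 0 (z + 1 + x)) ^ 3 / (6 * x) := sumB (z + 1) x hx N
    _ = (z + 1 + x) ^ 3 / (6 * x) := by
        rw [max_eq_right (by linarith)]

/-- the index set of monomials `x^a y^b z^c` with `a < d`, `a + b + h c ≤ D`. -/
def idx (d h D : ℕ) : Finset (ℕ × ℕ × ℕ) :=
  ((range d) ×ˢ ((range (D + 1)) ×ˢ (range (D + 1)))).filter
    (fun t => t.1 + t.2.1 + h * t.2.2 ≤ D)

theorem mem_idx {d h D : ℕ} {t : ℕ × ℕ × ℕ} (hh : 1 ≤ h) :
    t ∈ idx d h D ↔ t.1 < d ∧ t.1 + t.2.1 + h * t.2.2 ≤ D := by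
  simp only [idx, mem_filter, mem_product, mem_range]
  constructor
  · rintro ⟨⟨h1, _, _⟩, h2⟩
    exact ⟨h1, h2⟩
  · rintro ⟨h1, h2⟩
    refine ⟨⟨h1, ?_, ?_⟩, h2⟩
    · omega
    · have : t.2.2 ≤ h * t.2.2 := Nat.le_mul_of_pos_left _ hh
      omega

theorem card_idx_ge (d h D : ℕ) (hh : 1 ≤ h) (hD : d ≤ D) :
    (d : ℝ) * ((D : ℝ) - d) ^ 2 / (2 * h) ≤ ((idx d h D).card : ℝ) := by
  have h1 : ((idx d h D).card : ℝ) =
      ∑ a ∈ range d, ∑ c ∈ range (D + 1), (((range (D + 1)).filter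
        (fun b => a + b + h * c ≤ D)).card : ℝ) := by
    have : (idx d h D).card = ∑ a ∈ range d, ∑ c ∈ range (D + 1), ((range (D + 1)).filter
        (fun b => a + b + h * c ≤ D)).card := by
      unfold idx
      rw [Finset.card_filter, Finset.sum_product]
      refine Finset.sum_congr rfl fun a _ => ?_
      rw [Finset.sum_product_right]
      refine Finset.sum_congr rfl fun c _ => ?_
      rw [Finset.card_filter]
    rw [this]
    push_cast
    rfl
  rw [h1]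
  have hd0 : (0 : ℝ) ≤ (D : ℝ) - d := by
    have : (d : ℝ) ≤ D := by exact_mod_cast hD
    linarith
  have hh' : (0 : ℝ) < h := by exact_mod_cast hh
  have h2 : ∀ a ∈ range d, ((D : ℝ) - d) ^ 2 / (2 * h) ≤
      ∑ c ∈ range (D + 1), (((range (D + 1)).filter (fun b => a + b + h * c ≤ D)).card : ℝ) := by
    intro a ha
    rw [mem_range] at ha
    refine (sumC ((D : ℝ) - d) h hh' hd0 (D + 1) ?_).trans ?_
    · have : (1 : ℝ) ≤ h := by exact_mod_cast hh
      push_cast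
      nlinarith
    · refine Finset.sum_le_sum fun c _ => ?_
      have hsub : range (D - d - h * c) ⊆ (range (D + 1)).filter (fun b => a + b + h * c ≤ D) := by
        intro b hb
        rw [mem_range] at hb
        rw [mem_filter, mem_range]
        constructor
        · omega
        · omega
      have hcard := Finset.card_le_card hsub
      rw [card_range] at hcard
      refine max_le (by positivity) ?_
      have h5 : ((D : ℝ) - d) - h * c ≤ ((D - d - h * c : ℕ) : ℝ) := by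
        have h6 : ((D : ℤ) - d) - h * c ≤ ((D - d - h * c : ℕ) : ℤ) := by omega
        exact_mod_cast h6
      refine h5.trans ?_
      exact_mod_cast hcard
  calc (d : ℝ) * ((D : ℝ) - d) ^ 2 / (2 * h) = ∑ _a ∈ range d, ((D : ℝ) - d) ^ 2 / (2 * h) := by
        simp [mul_div_assoc]
    _ ≤ _ := Finset.sum_le_sum h2

/-- Choice of `D`. -/
theorem exists_D (d h : ℕ) (hh : 1 ≤ h) (hd : 1 ≤ d) (x : ℝ) (hx : 9 * (h : ℝ) / (4 * d) < x) :
    ∃ D : ℕ, d ≤ D ∧ 1 ≤ D ∧ ∀ T : Finset (Fin 2 →₀ ℕ),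
      ∑ t ∈ T, max 0 ((3 / 2 * (D : ℝ)) - (x * (t 0 : ℕ) + (t 1 : ℕ))) <
        ((idx d h D).card : ℝ) * ((D : ℝ) / 2) := by
  have hh' : (0 : ℝ) < h := by exact_mod_cast hh
  have hd' : (0 : ℝ) < d := by exact_mod_cast hd
  have hx0 : 0 < x := lt_trans (by positivity) hx
  have hkey : ∃ D : ℕ, d ≤ D ∧ 1 ≤ D ∧ (3 / 2 * (D : ℝ) + 1 + x) ^ 3 / (6 * x) <
      (d : ℝ) * ((D : ℝ) - d) ^ 2 / (2 * h) * (D / 2) := by
    have hlim1 : Filter.Tendsto (fun D : ℕ => (3 / 2 + (1 + x) * ((D : ℝ))⁻¹) ^ 3 / (6 * x))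
        Filter.atTop (nhds ((3 / 2 + (1 + x) * 0) ^ 3 / (6 * x))) := by
      refine Filter.Tendsto.div_const (Filter.Tendsto.pow (Filter.Tendsto.add tendsto_const_nhds
        (Filter.Tendsto.const_mul _ ?_)) 3) _
      exact tendsto_inv_atTop_nhds_zero_nat
    have hlim2 : Filter.Tendsto (fun D : ℕ => (d : ℝ) * (1 - d * ((D : ℝ))⁻¹) ^ 2 / (4 * h))
        Filter.atTop (nhds ((d : ℝ) * (1 - d * 0) ^ 2 / (4 * h))) := by
      refine Filter.Tendsto.div_const (Filter.Tendsto.const_mul _ (Filter.Tendsto.pow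
        (Filter.Tendsto.sub tendsto_const_nhds (Filter.Tendsto.const_mul _ ?_)) 2)) _
      exact tendsto_inv_atTop_nhds_zero_nat
    have hlt : (3 / 2 + (1 + x) * 0) ^ 3 / (6 * x) < (d : ℝ) * (1 - d * 0) ^ 2 / (4 * h) := by
      rw [div_lt_div_iff₀ (by positivity) (by positivity)]
      rw [div_lt_iff₀ (by positivity)] at hx
      nlinarith
    have hev := (hlim1.eventually_lt hlim2 hlt).and (Filter.eventually_ge_atTop (max d 1))
    obtain ⟨D, hD1, hD2⟩ := hev.exists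
    have hD3 : d ≤ D := le_trans (le_max_left _ _) hD2
    have hD4 : 1 ≤ D := le_trans (le_max_right _ _) hD2
    have hD0 : (0 : ℝ) < D := by exact_mod_cast hD4
    refine ⟨D, hD3, hD4, ?_⟩
    have h1 : (3 / 2 * (D : ℝ) + 1 + x) ^ 3 / (6 * x) =
        (D : ℝ) ^ 3 * ((3 / 2 + (1 + x) * ((D : ℝ))⁻¹) ^ 3 / (6 * x)) := by
      field_simp
      ring
    have h2 : (d : ℝ) * ((D : ℝ) - d) ^ 2 / (2 * h) * (D / 2) =
        (D : ℝ) ^ 3 * ((d : ℝ) * (1 - d * ((D : ℝ))⁻¹) ^ 2 / (4 * h)) := by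
      field_simp
      ring
    rw [h1, h2]
    exact mul_lt_mul_of_pos_left hD1 (by positivity)
  obtain ⟨D, hD1, hD2, hD3⟩ := hkey
  refine ⟨D, hD1, hD2, fun T => ?_⟩
  refine (phi_bound x _ hx0 (by positivity) T).trans_lt ?_
  refine hD3.trans_le ?_
  exact mul_le_mul_of_nonneg_right (card_idx_ge d h D hh hD1) (by positivity)

end Vale.Agent.P018
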