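import Mathlib
import Vale.Agent.P018.DetBound
import Vale.Agent.P018.Weights
import Vale.Agent.P018.Taylor

/-! All maximal minors vanish on a patch. -/

namespace Vale.Agent.P018

open Finset

theorem prod_alpha_le {J : Type*} [Fintype J] (T : Finset (Fin 2 →₀ ℕ)) (x P z : ℝ) (hP : 1 ≤ P)
    (φ : J → T) (hφ : Function.Injective φ) :
    ∏ j, P ^ (-(x * ((φ j : Fin 2 →₀ ℕ) 0 : ℕ) + ((φ j : Fin 2 →₀ ℕ) 1 : ℕ))) ≤
      P ^ (-((Fintype.card J : ℝ) * z -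
        ∑ t ∈ T, max 0 (z - (x * (t 0 : ℕ) + (t 1 : ℕ))))) := by
  classical
  have hP0 : 0 < P := by linarith
  rw [← Real.rpow_sum_of_pos hP0]
  apply Real.rpow_le_rpow_of_exponent_le hP
  rw [Finset.sum_neg_distrib, neg_le_neg_iff]
  have h1 : ∑ j, max 0 (z - (x * ((φ j : Fin 2 →₀ ℕ) 0 : ℕ) + ((φ j : Fin 2 →₀ ℕ) 1 : ℕ))) ≤
      ∑ t ∈ T, max 0 (z - (x * (t 0 : ℕ) + (t 1 : ℕ))) := by
    have hinj : Function.Injective (fun j => ((φ j : T) : Fin 2 →₀ ℕ)) :=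
      fun a b hab => hφ (Subtype.ext hab)
    calc ∑ j, max 0 (z - (x * ((φ j : Fin 2 →₀ ℕ) 0 : ℕ) + ((φ j : Fin 2 →₀ ℕ) 1 : ℕ)))
        = ∑ t ∈ univ.image (fun j => ((φ j : T) : Fin 2 →₀ ℕ)),
            max 0 (z - (x * (t 0 : ℕ) + (t 1 : ℕ))) := by
          rw [Finset.sum_image (fun a _ b _ hab => hinj hab)]
      _ ≤ ∑ t ∈ T, max 0 (z - (x * (t 0 : ℕ) + (t 1 : ℕ))) := by
          apply Finset.sum_le_sum_of_subset_of_nonneg
          · intro t ht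
            simp only [mem_image, mem_univ, true_and] at ht
            obtain ⟨j, rfl⟩ := ht
            exact (φ j).2
          · intro _ _ _
            exact le_max_left _ _
  have h2 : (Fintype.card J : ℝ) * z ≤ ∑ j, ((x * ((φ j : Fin 2 →₀ ℕ) 0 : ℕ) +
      ((φ j : Fin 2 →₀ ℕ) 1 : ℕ)) +
      max 0 (z - (x * ((φ j : Fin 2 →₀ ℕ) 0 : ℕ) + ((φ j : Fin 2 →₀ ℕ) 1 : ℕ)))) := by
    have : (Fintype.card J : ℝ) * z = ∑ _j : J, z := by
      simp [Finset.sum_const, Finset.card_univ]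
    rw [this]
    refine Finset.sum_le_sum fun j _ => ?_
    have := le_max_right (0 : ℝ) (z - (x * ((φ j : Fin 2 →₀ ℕ) 0 : ℕ) +
      ((φ j : Fin 2 →₀ ℕ) 1 : ℕ)))
    linarith
  rw [Finset.sum_add_distrib] at h2
  linarith

theorem patch_minor (f : Polynomial ℤ) (k h : ℕ) (hh : 1 ≤ h) (hkh : k + h = f.natDegree)
    (x : ℝ) (hx : 9 * (h : ℝ) / (4 * f.natDegree) < x) :
    ∃ D P0 : ℕ, 1 ≤ P0 ∧ ∀ P : ℕ, P0 ≤ P → ∀ u0 : ℝ, 0 ≤ u0 → u0 ≤ 2 →
      ∀ n p m : (idx f.natDegree h D) → ℤ,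
      (∀ i, (P : ℤ) < p i ∧ p i ≤ 2 * P ∧ |(n i : ℝ) / p i - u0| ≤ (P : ℝ) ^ (-x) ∧
        (p i) ^ k * m i = f.eval (n i)) →
      (Matrix.of fun i (j : idx f.natDegree h D) =>
        (n i) ^ (j : ℕ × ℕ × ℕ).1 * (p i) ^ (j : ℕ × ℕ × ℕ).2.1 * (m i) ^ (j : ℕ × ℕ × ℕ).2.2).det
        = 0 := by
  classical
  have hd : 1 ≤ f.natDegree := by omega
  obtain ⟨D, hD1, hD2, hD3⟩ := exists_D f.natDegree h hh hd x hx
  have hx0 : 0 < x := by
    refine lt_of_le_of_lt ?_ hx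
    positivity
  obtain ⟨T, β, hβ0, hT⟩ := taylor_rep (fun j : idx f.natDegree h D => Gh f h D (j : ℕ × ℕ × ℕ))
  set s : ℕ := (idx f.natDegree h D).card with hs
  have hcardJ : Fintype.card (idx f.natDegree h D) = s := Fintype.card_coe _
  set Φ : ℝ := ∑ t ∈ T, max 0 ((3 / 2 * (D : ℝ)) - (x * (t 0 : ℕ) + (t 1 : ℕ))) with hΦ
  have hgap : 0 < (s : ℝ) * ((D : ℝ) / 2) - Φ := by
    have := hD3 T
    linarith
  set γ : ℝ := (s : ℝ) * ((D : ℝ) / 2) - Φ with hγ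
  set K : ℝ := (2 : ℝ) ^ (D * s) * ((Fintype.card T : ℝ) ^ s * (β ^ s * (s.factorial : ℝ))) with hK
  have hlim : Filter.Tendsto (fun P : ℕ => K * (P : ℝ) ^ (-γ)) Filter.atTop (nhds (K * 0)) := by
    refine Filter.Tendsto.const_mul _ ?_
    exact (tendsto_rpow_neg_atTop hgap).comp tendsto_natCast_atTop_atTop
  rw [mul_zero] at hlim
  obtain ⟨P0, hP0⟩ := Filter.eventually_atTop.mp (hlim.eventually (gt_mem_nhds one_pos))
  refine ⟨D, max P0 1, le_max_right _ _, ?_⟩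
  intro P hP u0 hu0 hu2 n p m hz
  have hP1 : 1 ≤ P := le_trans (le_max_right _ _) hP
  have hP1' : (1 : ℝ) ≤ P := by exact_mod_cast hP1
  have hPpos : (0 : ℝ) < P := by linarith
  have hsmall : K * (P : ℝ) ^ (-γ) < 1 := hP0 P (le_trans (le_max_left _ _) hP)
  obtain ⟨hT1, hT2⟩ := hT u0 hu0 hu2
  set M : Matrix (idx f.natDegree h D) (idx f.natDegree h D) ℤ :=
    Matrix.of fun i (j : idx f.natDegree h D) =>
        (n i) ^ (j : ℕ × ℕ × ℕ).1 * (p i) ^ (j : ℕ × ℕ × ℕ).2.1 * (m i) ^ (j : ℕ × ℕ × ℕ).2.2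
    with hM
  have hcast : ((M.det : ℤ) : ℝ) = (M.map (Int.castRingHom ℝ)).det := by
    have h9 := RingHom.map_det (Int.castRingHom ℝ) M
    rw [RingHom.mapMatrix_apply] at h9
    exact h9
  let A : (idx f.natDegree h D) → T → ℝ := fun i t =>
    ((n i : ℝ) / p i - u0) ^ ((t : Fin 2 →₀ ℕ) 0) * (1 / (p i : ℝ)) ^ ((t : Fin 2 →₀ ℕ) 1)
  let B : T → (idx f.natDegree h D) → ℝ := fun t j =>
    (MvPolynomial.coeff (t : Fin 2 →₀ ℕ) (Gh f h D (j : ℕ × ℕ × ℕ))).eval u0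
  have hfac : M.map (Int.castRingHom ℝ) = Matrix.of fun i j => (fun i => ((p i : ℝ)) ^ D) i *
      (Matrix.of fun i j => ∑ t, A i t * B t j) i j := by
    ext i j
    have hj := (mem_idx hh).mp j.2
    have hpi : p i ≠ 0 := by
      have := (hz i).1
      have h0 : (0 : ℤ) ≤ P := by positivity
      omega
    simp only [hM, Matrix.map_apply, Matrix.of_apply, eq_intCast, Int.cast_mul, Int.cast_pow]
    rw [mono_eq f k h D hkh (j : ℕ × ℕ × ℕ) hj.2 (n i) (p i) (m i) hpi (hz i).2.2.2 u0]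
    rw [hT2]
    congr 1
    rw [← Finset.sum_coe_sort T]
  have hdetM : |((M.det : ℤ) : ℝ)| < 1 := by
    rw [hcast, hfac, Matrix.det_mul_column, abs_mul]
    have h1 : |∏ i, (p i : ℝ) ^ D| ≤ (2 * (P : ℝ)) ^ (D * s) := by
      rw [Finset.abs_prod]
      calc ∏ i, |(p i : ℝ) ^ D| ≤ ∏ _i : (idx f.natDegree h D), (2 * (P : ℝ)) ^ D := by
            refine Finset.prod_le_prod (fun _ _ => abs_nonneg _) fun i _ => ?_
            rw [abs_pow]
            refine pow_le_pow_left₀ (abs_nonneg _) ?_ _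
            have h2 : (p i : ℝ) ≤ 2 * P := by exact_mod_cast (hz i).2.1
            have h3 : (P : ℝ) < p i := by exact_mod_cast (hz i).1
            rw [abs_of_pos (by linarith)]
            exact h2
        _ = (2 * (P : ℝ)) ^ (D * s) := by
            rw [Finset.prod_const, ← pow_mul, Finset.card_univ, hcardJ]
    have h2 := det_bound A B
      (fun t => (P : ℝ) ^ (-(x * ((t : Fin 2 →₀ ℕ) 0 : ℕ) + ((t : Fin 2 →₀ ℕ) 1 : ℕ)))) β
      ((P : ℝ) ^ (-((Fintype.card (idx f.natDegree h D) : ℝ) * (3 / 2 * (D : ℝ)) - Φ)))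
      ?_ ?_ (by positivity) ?_
    · rw [hcardJ] at h2
      calc |∏ i, (p i : ℝ) ^ D| * |(Matrix.of fun i j => ∑ t, A i t * B t j).det|
          ≤ (2 * (P : ℝ)) ^ (D * s) * ((Fintype.card T : ℝ) ^ s * (β ^ s * ((s.factorial : ℝ) *
              (P : ℝ) ^ (-((s : ℝ) * (3 / 2 * (D : ℝ)) - Φ))))) :=
            mul_le_mul h1 h2 (abs_nonneg _) (by positivity)
        _ = K * (P : ℝ) ^ (-γ) := by
            have h4 : (P : ℝ) ^ (-γ) = (P : ℝ) ^ (D * s) *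
                (P : ℝ) ^ (-((s : ℝ) * (3 / 2 * (D : ℝ)) - Φ)) := by
              rw [← Real.rpow_natCast, ← Real.rpow_add hPpos]
              congr 1
              rw [hγ]
              push_cast
              ring
            rw [h4, hK, mul_pow]
            ring
        _ < 1 := hsmall
    · intro i t
      simp only [A]
      rw [abs_mul, abs_pow, abs_pow]
      have hpi : (P : ℝ) < p i := by exact_mod_cast (hz i).1
      have hpi0 : (0 : ℝ) < p i := by linarith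
      have e1 : |(n i : ℝ) / p i - u0| ≤ (P : ℝ) ^ (-x) := (hz i).2.2.1
      have e2 : |1 / (p i : ℝ)| ≤ (P : ℝ) ^ (-1 : ℝ) := by
        rw [abs_of_pos (by positivity), Real.rpow_neg_one, one_div]
        exact inv_anti₀ hPpos hpi.le
      calc |(n i : ℝ) / p i - u0| ^ ((t : Fin 2 →₀ ℕ) 0) * |1 / (p i : ℝ)| ^ ((t : Fin 2 →₀ ℕ) 1)
          ≤ ((P : ℝ) ^ (-x)) ^ ((t : Fin 2 →₀ ℕ) 0) *
              ((P : ℝ) ^ (-1 : ℝ)) ^ ((t : Fin 2 →₀ ℕ) 1) :=
            mul_le_mul (pow_le_pow_left₀ (abs_nonneg _) e1 _)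
              (pow_le_pow_left₀ (abs_nonneg _) e2 _) (by positivity) (by positivity)
        _ = (P : ℝ) ^ (-(x * ((t : Fin 2 →₀ ℕ) 0 : ℕ) + ((t : Fin 2 →₀ ℕ) 1 : ℕ))) := by
            rw [← Real.rpow_natCast, ← Real.rpow_natCast, ← Real.rpow_mul hPpos.le,
              ← Real.rpow_mul hPpos.le, ← Real.rpow_add hPpos]
            congr 1
            ring
    · intro t j
      have := hT1 (t : Fin 2 →₀ ℕ) j
      simp only [t.2, if_true, mul_one] at this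
      exact this
    · intro φ hφ
      exact prod_alpha_le T x P (3 / 2 * (D : ℝ)) hP1' φ hφ
  have hint : |M.det| < 1 := by exact_mod_cast hdetM
  exact Int.abs_lt_one_iff.mp hint

end Vale.Agent.P018
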