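import Mathlib
import Vale.Agent.P018.Defs
import Vale.Agent.P018.LinAlg
import Vale.Agent.P018.PatchMinor

/-! The points of a patch lie on a curve of bounded degree. -/

namespace Vale.Agent.P018

open Finset Polynomial

/-- `f(x)` as a polynomial in two variables. -/
noncomputable def fX (f : ℤ[X]) : MvPolynomial (Fin 2) ℚ :=
  Polynomial.aeval (MvPolynomial.X 0) f

theorem evQ_fX (f : ℤ[X]) (z : ℤ × ℤ) : evQ z (fX f) = ((f.eval z.1 : ℤ) : ℚ) := by
  unfold fX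
  rw [Polynomial.aeval_def, Polynomial.hom_eval₂]
  have h1 : evQ z (MvPolynomial.X 0) = (Int.castRingHom ℚ) z.1 := by
    simp [evQ]
  rw [h1, show (evQ z).comp (algebraMap ℤ (MvPolynomial (Fin 2) ℚ)) = Int.castRingHom ℚ from
    RingHom.ext_int _ _, Polynomial.eval₂_at_apply]
  rfl

/-- the two-variable polynomial attached to the monomial `x^a y^b z^c`. -/
noncomputable def gpoly (f : ℤ[X]) (k D : ℕ) (t : ℕ × ℕ × ℕ) : MvPolynomial (Fin 2) ℚ :=
  (MvPolynomial.X 0) ^ t.1 * (MvPolynomial.X 1) ^ (t.2.1 + k * (D - t.2.2)) * (fX f) ^ t.2.2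

theorem evQ_gpoly (f : ℤ[X]) (k D : ℕ) (t : ℕ × ℕ × ℕ) (ht : t.2.2 ≤ D) (z : ℤ × ℤ) (m : ℤ)
    (hm : z.2 ^ k * m = f.eval z.1) :
    evQ z (gpoly f k D t) = (z.2 : ℚ) ^ (k * D) *
      ((z.1 : ℚ) ^ t.1 * (z.2 : ℚ) ^ t.2.1 * (m : ℚ) ^ t.2.2) := by
  unfold gpoly
  rw [map_mul, map_mul, map_pow, map_pow, map_pow, evQ_fX, ← hm]
  have h0 : evQ z (MvPolynomial.X 0) = (z.1 : ℚ) := by simp [evQ]
  have h1 : evQ z (MvPolynomial.X 1) = (z.2 : ℚ) := by simp [evQ]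
  rw [h0, h1]
  push_cast
  rw [mul_pow, ← pow_mul, pow_add]
  have h3 : k * D = k * (D - t.2.2) + k * t.2.2 := by
    rw [← mul_add]
    congr 1
    omega
  rw [h3, pow_add]
  ring

theorem totalDegree_fX_le (f : ℤ[X]) : (fX f).totalDegree ≤ f.natDegree := by
  unfold fX
  rw [Polynomial.aeval_eq_sum_range]
  refine (MvPolynomial.totalDegree_finsetSum _ _).trans ?_
  refine Finset.sup_le fun i hi => ?_
  rw [Finset.mem_range] at hi
  rw [← Int.cast_smul_eq_zsmul ℚ]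
  refine (MvPolynomial.totalDegree_smul_le _ _).trans ?_
  refine (MvPolynomial.totalDegree_pow _ _).trans ?_
  rw [MvPolynomial.totalDegree_X]
  omega

theorem totalDegree_gpoly_le (f : ℤ[X]) (k h D : ℕ) (hh : 1 ≤ h) (t : ℕ × ℕ × ℕ)
    (ht : t.1 + t.2.1 + h * t.2.2 ≤ D) :
    (gpoly f k D t).totalDegree ≤ D + k * D + f.natDegree * D := by
  unfold gpoly
  have hc : t.2.2 ≤ h * t.2.2 := Nat.le_mul_of_pos_left _ hh
  have hc2 : t.2.2 ≤ D := by omega
  refine (MvPolynomial.totalDegree_mul _ _).trans ?_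
  have h1 : ((MvPolynomial.X 0 : MvPolynomial (Fin 2) ℚ) ^ t.1 *
      (MvPolynomial.X 1) ^ (t.2.1 + k * (D - t.2.2))).totalDegree ≤ t.1 + (t.2.1 + k * (D - t.2.2)) := by
    refine (MvPolynomial.totalDegree_mul _ _).trans ?_
    rw [MvPolynomial.totalDegree_X_pow, MvPolynomial.totalDegree_X_pow]
  have h2 : ((fX f) ^ t.2.2).totalDegree ≤ t.2.2 * f.natDegree := by
    refine (MvPolynomial.totalDegree_pow _ _).trans ?_
    exact Nat.mul_le_mul_left _ (totalDegree_fX_le f)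
  have h3 : k * (D - t.2.2) ≤ k * D := Nat.mul_le_mul_left _ (Nat.sub_le _ _)
  have h4 : t.2.2 * f.natDegree ≤ f.natDegree * D := by
    rw [mul_comm]
    exact Nat.mul_le_mul_left _ hc2
  omega

/-- the ring map to `ℚ[X][Y]`. -/
noncomputable def toBi : MvPolynomial (Fin 2) ℚ →ₐ[ℚ] ℚ[X][X] :=
  MvPolynomial.aeval ![(Polynomial.C Polynomial.X : ℚ[X][X]), Polynomial.X]

theorem toBi_fX (f : ℤ[X]) : toBi (fX f) = Polynomial.C (f.map (Int.castRingHom ℚ)) := by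
  unfold fX
  rw [Polynomial.aeval_def]
  change (toBi : MvPolynomial (Fin 2) ℚ →+* ℚ[X][X]) _ = _
  rw [Polynomial.hom_eval₂]
  have h1 : (toBi : MvPolynomial (Fin 2) ℚ →+* ℚ[X][X]) (MvPolynomial.X 0) =
      Polynomial.C Polynomial.X := by
    simp [toBi]
  rw [h1]
  have h2 : Polynomial.C (f.map (Int.castRingHom ℚ)) = (Polynomial.C : ℚ[X] →+* ℚ[X][X])
      ((f.map (Int.castRingHom ℚ)).eval₂ (Polynomial.C : ℚ →+* ℚ[X]) Polynomial.X) := by
    rw [Polynomial.eval₂_C_X]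
  rw [h2, Polynomial.hom_eval₂, Polynomial.eval₂_map]
  congr 1
  exact RingHom.ext_int _ _

theorem toBi_gpoly (f : ℤ[X]) (k D : ℕ) (t : ℕ × ℕ × ℕ) :
    toBi (gpoly f k D t) = Polynomial.C (Polynomial.X ^ t.1 *
      (f.map (Int.castRingHom ℚ)) ^ t.2.2) * Polynomial.X ^ (t.2.1 + k * (D - t.2.2)) := by
  unfold gpoly
  rw [map_mul, map_mul, map_pow, map_pow, map_pow, toBi_fX]
  have h0 : toBi (MvPolynomial.X 0) = Polynomial.C Polynomial.X := by simp [toBi]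
  have h1 : toBi (MvPolynomial.X 1) = Polynomial.X := by simp [toBi]
  rw [h0, h1, Polynomial.C_mul, Polynomial.C_pow, Polynomial.C_pow]
  ring

/-- Linear independence of the `gpoly`. -/
theorem gpoly_sum_ne_zero (f : ℤ[X]) (k h D : ℕ) (hh : 1 ≤ h) (hf : 1 ≤ f.natDegree)
    (α : idx f.natDegree h D → ℚ) (hα : α ≠ 0) :
    ∑ j, MvPolynomial.C (α j) * gpoly f k D (j : ℕ × ℕ × ℕ) ≠ 0 := by
  classical
  intro hzero
  have hex : ∃ j, α j ≠ 0 := by
    by_contra hcon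
    push Not at hcon
    exact hα (funext hcon)
  obtain ⟨j0, hj0⟩ := hex
  obtain ⟨js, hjs1, hjs2⟩ := Finset.exists_max_image (univ.filter fun j => α j ≠ 0)
    (fun j => (j : ℕ × ℕ × ℕ).1 + f.natDegree * (j : ℕ × ℕ × ℕ).2.2)
    ⟨j0, by simp [hj0]⟩
  rw [mem_filter] at hjs1
  have hlc : (f.map (Int.castRingHom ℚ)).leadingCoeff ≠ 0 := by
    rw [Polynomial.leadingCoeff_ne_zero]
    intro h0
    rw [Polynomial.map_eq_zero_iff (Int.cast_injective (α := ℚ))] at h0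
    rw [h0] at hf
    simp at hf
  have hnd : (f.map (Int.castRingHom ℚ)).natDegree = f.natDegree :=
    Polynomial.natDegree_map_eq_of_injective (Int.cast_injective (α := ℚ)) f
  have h1 := congrArg toBi hzero
  rw [map_sum, map_zero] at h1
  have h2 : ∀ j : idx f.natDegree h D, toBi (MvPolynomial.C (α j) * gpoly f k D (j : ℕ × ℕ × ℕ)) =
      Polynomial.C (Polynomial.C (α j) * (Polynomial.X ^ (j : ℕ × ℕ × ℕ).1 *
      (f.map (Int.castRingHom ℚ)) ^ (j : ℕ × ℕ × ℕ).2.2)) *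
      Polynomial.X ^ ((j : ℕ × ℕ × ℕ).2.1 + k * (D - (j : ℕ × ℕ × ℕ).2.2)) := by
    intro j
    rw [map_mul, toBi_gpoly, Polynomial.C_mul (a := Polynomial.C (α j))]
    have : toBi (MvPolynomial.C (α j)) = Polynomial.C (Polynomial.C (α j)) := by
      rw [← MvPolynomial.algebraMap_eq, AlgHom.commutes]
      rfl
    rw [this]
    ring
  simp_rw [h2] at h1
  set e : ℕ := (js : ℕ × ℕ × ℕ).2.1 + k * (D - (js : ℕ × ℕ × ℕ).2.2) with he
  set N : ℕ := (js : ℕ × ℕ × ℕ).1 + f.natDegree * (js : ℕ × ℕ × ℕ).2.2 with hN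
  have h3 := congrArg (fun q : ℚ[X][X] => (q.coeff e).coeff N) h1
  simp only [Polynomial.finsetSum_coeff, Polynomial.coeff_zero] at h3
  rw [Finset.sum_eq_single js] at h3
  · rw [Polynomial.coeff_C_mul_X_pow] at h3
    rw [if_pos he, Polynomial.coeff_C_mul] at h3
    have h4 : (Polynomial.X ^ (js : ℕ × ℕ × ℕ).1 *
      (f.map (Int.castRingHom ℚ)) ^ (js : ℕ × ℕ × ℕ).2.2).coeff N =
        (f.map (Int.castRingHom ℚ)).leadingCoeff ^ (js : ℕ × ℕ × ℕ).2.2 := by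
      rw [hN, Polynomial.coeff_X_pow_mul', if_pos (Nat.le_add_right _ _), Nat.add_sub_cancel_left]
      rw [← Polynomial.leadingCoeff_pow, Polynomial.leadingCoeff]
      congr 1
      rw [Polynomial.natDegree_pow, hnd, mul_comm]
    rw [h4] at h3
    exact (mul_ne_zero hjs1.2 (pow_ne_zero _ hlc)) h3
  · intro j _ hne
    rw [Polynomial.coeff_C_mul_X_pow]
    split_ifs with hej
    · rw [Polynomial.coeff_C_mul]
      by_cases hαj : α j = 0
      · rw [hαj, zero_mul]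
      · have h5 := hjs2 j (by simp [hαj])
        have hmj := (mem_idx hh).mp j.2
        have hms := (mem_idx hh).mp js.2
        rcases lt_or_eq_of_le h5 with hlt | heq
        · rw [Polynomial.coeff_eq_zero_of_natDegree_lt, mul_zero]
          refine lt_of_le_of_lt ?_ hlt
          refine (Polynomial.natDegree_mul_le).trans ?_
          rw [Polynomial.natDegree_X_pow, Polynomial.natDegree_pow, hnd, mul_comm]
        · exfalso
          apply hne
          have ha : (j : ℕ × ℕ × ℕ).1 = (js : ℕ × ℕ × ℕ).1 := by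
            rw [hN] at heq
            have := congrArg (· % f.natDegree) heq
            simp only [Nat.add_mul_mod_self_left] at this
            rwa [Nat.mod_eq_of_lt hmj.1, Nat.mod_eq_of_lt hms.1] at this
          have hc : (j : ℕ × ℕ × ℕ).2.2 = (js : ℕ × ℕ × ℕ).2.2 := by
            rw [ha] at heq
            have := Nat.add_left_cancel heq
            exact Nat.eq_of_mul_eq_mul_left hf this
          have hb : (j : ℕ × ℕ × ℕ).2.1 = (js : ℕ × ℕ × ℕ).2.1 := by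
            rw [he, hc] at hej
            omega
          apply Subtype.ext
          exact Prod.ext ha (Prod.ext hb hc)
    · simp
  · intro h
    exact absurd (mem_univ _) h

/-- Module B: the points in a patch lie on a curve of bounded degree. -/
theorem patch_curve (f : ℤ[X]) (k : ℕ) (hk1 : 1 ≤ k) (hkd : k < f.natDegree) (x : ℝ)
    (hx : 9 * ((f.natDegree : ℝ) - k) / (4 * f.natDegree) < x) :
    ∃ Δ P0 : ℕ, ∀ P : ℕ, P0 ≤ P → ∀ u0 : ℝ, 0 ≤ u0 → u0 ≤ 2 → ∀ Z : Finset (ℤ × ℤ),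
      (∀ z ∈ Z, (P : ℤ) < z.2 ∧ z.2 ≤ 2 * P ∧ |(z.1 : ℝ) / z.2 - u0| ≤ (P : ℝ) ^ (-x) ∧
        z.2 ^ k ∣ f.eval z.1) →
      ∃ C : MvPolynomial (Fin 2) ℚ, C ≠ 0 ∧ C.totalDegree ≤ Δ ∧ ∀ z ∈ Z, evQ z C = 0 := by
  classical
  set h : ℕ := f.natDegree - k with hh
  have hh1 : 1 ≤ h := by omega
  have hkh : k + h = f.natDegree := by omega
  have hx' : 9 * (h : ℝ) / (4 * f.natDegree) < x := by
    have : (h : ℝ) = (f.natDegree : ℝ) - k := by
      rw [← hkh]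
      push_cast
      ring
    rwa [this]
  obtain ⟨D, P0, hP01, hmin⟩ := patch_minor f k h hh1 hkh x hx'
  refine ⟨D + k * D + f.natDegree * D, P0, ?_⟩
  intro P hP u0 hu0 hu2 Z hZ
  have hm : ∀ z : Z, ∃ m : ℤ, (z : ℤ × ℤ).2 ^ k * m = f.eval (z : ℤ × ℤ).1 := by
    intro z
    obtain ⟨m, hm⟩ := (hZ z z.2).2.2.2
    exact ⟨m, hm.symm⟩
  choose m hm using hm
  obtain ⟨α, hα0, hα⟩ := exists_kernel (I := Z) (J := idx f.natDegree h D) (K := ℚ)
    (fun z j => ((z : ℤ × ℤ).1 : ℚ) ^ (j : ℕ × ℕ × ℕ).1 * ((z : ℤ × ℤ).2 : ℚ) ^ (j : ℕ × ℕ × ℕ).2.1 *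
      (m z : ℚ) ^ (j : ℕ × ℕ × ℕ).2.2) (by
      intro φ
      have h1 := hmin P hP u0 hu0 hu2 (fun i => (φ i : ℤ × ℤ).1) (fun i => (φ i : ℤ × ℤ).2)
        (fun i => m (φ i)) (fun i => ⟨(hZ _ (φ i).2).1, (hZ _ (φ i).2).2.1, (hZ _ (φ i).2).2.2.1,
          hm (φ i)⟩)
      have h2 := congrArg (Int.castRingHom ℚ) h1
      rw [RingHom.map_det, map_zero] at h2
      rw [← h2]
      congr 1
      ext i j
      simp)
  refine ⟨∑ j, MvPolynomial.C (α j) * gpoly f k D (j : ℕ × ℕ × ℕ),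
    gpoly_sum_ne_zero f k h D hh1 (by omega) α hα0, ?_, ?_⟩
  · refine (MvPolynomial.totalDegree_finsetSum _ _).trans ?_
    refine Finset.sup_le fun j _ => ?_
    refine (MvPolynomial.totalDegree_mul _ _).trans ?_
    rw [MvPolynomial.totalDegree_C, zero_add]
    exact totalDegree_gpoly_le f k h D hh1 _ ((mem_idx hh1).mp j.2).2
  · intro z hz
    rw [map_sum]
    have h4 := hα ⟨z, hz⟩
    have h5 : ∀ j : idx f.natDegree h D, evQ z (MvPolynomial.C (α j) * gpoly f k D (j : ℕ × ℕ × ℕ)) =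
        (z.2 : ℚ) ^ (k * D) * (α j * ((z.1 : ℚ) ^ (j : ℕ × ℕ × ℕ).1 *
          (z.2 : ℚ) ^ (j : ℕ × ℕ × ℕ).2.1 * (m ⟨z, hz⟩ : ℚ) ^ (j : ℕ × ℕ × ℕ).2.2)) := by
      intro j
      have hmj := (mem_idx hh1).mp j.2
      have hc : (j : ℕ × ℕ × ℕ).2.2 ≤ h * (j : ℕ × ℕ × ℕ).2.2 := Nat.le_mul_of_pos_left _ hh1
      rw [map_mul, evQ_gpoly f k D _ (by omega) z (m ⟨z, hz⟩) (hm ⟨z, hz⟩)]
      have : evQ z (MvPolynomial.C (α j)) = α j := by simp [evQ]
      rw [this]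
      ring
    rw [Finset.sum_congr rfl fun j _ => h5 j, ← Finset.mul_sum, h4, mul_zero]

end Vale.Agent.P018
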