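import Mathlib
import Vale.Agent.P018.Defs
import Vale.Agent.P018.PairsDef
import Vale.Agent.P018.PairsAux
import Vale.Agent.P018.Patch
import Vale.Agent.P018.CurveCount

/-! The bound for the number of pairs `(n, p)`. -/

namespace Vale.Agent.P018

open Finset Polynomial

theorem fiber_bound (f : ℤ[X]) (hirr : Irreducible (f.map (Int.castRingHom ℚ))) (k : ℕ)
    (hk : 2 ≤ k) (hkd : k < f.natDegree) (x ε : ℝ)
    (hx : 9 * ((f.natDegree : ℝ) - k) / (4 * f.natDegree) < x) (hε : 0 < ε) :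
    ∃ (K : ℝ) (P0 : ℕ), 0 < K ∧ ∀ P : ℕ, P0 ≤ P → ∀ Q0 : ℕ, 2 ≤ Q0 →
      (P : ℝ) ^ x ≤ (Q0 : ℝ) ^ 2 → Q0 ≤ P → ∀ (a : ℤ) (q : ℕ), 1 ≤ q → q ≤ Q0 →
      Int.gcd a q = 1 → ∀ u0 : ℝ, 0 ≤ u0 → u0 ≤ 2 → ∀ S : Finset (ℕ × ℕ),
      (∀ z ∈ S, 1 ≤ z.1 ∧ z.1 < z.2 ∧ P < z.2 ∧ z.2 ≤ 2 * P ∧ z.2.Prime ∧
        (z.2 : ℤ) ^ k ∣ f.eval (z.1 : ℤ) ∧ |(z.1 : ℝ) / z.2 - a / q| ≤ 1 / (Q0 * q) ∧
        |(z.1 : ℝ) / z.2 - u0| ≤ 1 / (Q0 : ℝ) ^ 2) →
      (S.card : ℝ) ≤ K * ((P : ℝ) / q) ^ (1 / (f.natDegree : ℝ) + ε) := by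
  classical
  obtain ⟨Δ, P1, hpatch⟩ := patch_curve f k (by omega) hkd x hx
  obtain ⟨K, P2, hK0, hcurve⟩ := curve_count f hirr (by omega) Δ ε hε
  set β : ℝ := 1 / (f.natDegree : ℝ) + ε with hβ
  have hβ0 : 0 ≤ β := by positivity
  refine ⟨K * 5 ^ β, max (max P1 P2) 1, by positivity, ?_⟩
  intro P hP Q0 hQ0 hQx hQP a q hq1 hqQ hgcd u0 hu0 hu2 S hS
  have hP1 : P1 ≤ P := le_trans (le_trans (le_max_left _ _) (le_max_left _ _)) hP
  have hP2 : P2 ≤ P := le_trans (le_trans (le_max_right _ _) (le_max_left _ _)) hP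
  have hP3 : 1 ≤ P := le_trans (le_max_right _ _) hP
  have hPr : (1 : ℝ) ≤ P := by exact_mod_cast hP3
  have hqr : (1 : ℝ) ≤ q := by exact_mod_cast hq1
  have hQr : (2 : ℝ) ≤ Q0 := by exact_mod_cast hQ0
  have hqQr : (q : ℝ) ≤ Q0 := by exact_mod_cast hqQ
  have hqPr : (q : ℝ) ≤ P := by exact_mod_cast hqQ.trans hQP
  let e : ℕ × ℕ → ℤ × ℤ := fun z => ((z.1 : ℤ), (z.2 : ℤ))
  have he : Function.Injective e := by
    intro z w hzw
    simp only [e, Prod.mk.injEq, Nat.cast_inj] at hzw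
    exact Prod.ext hzw.1 hzw.2
  have hdelta : 1 / (Q0 : ℝ) ^ 2 ≤ (P : ℝ) ^ (-x) := by
    rw [Real.rpow_neg (by linarith), one_div]
    exact inv_anti₀ (by positivity) hQx
  obtain ⟨C, hC0, hCΔ, hCz⟩ := hpatch P hP1 u0 hu0 hu2 (S.image e) (by
    intro w hw
    rw [mem_image] at hw
    obtain ⟨z, hz, rfl⟩ := hw
    obtain ⟨h1, h2, h3, h4, h5, h6, h7, h8⟩ := hS z hz
    simp only [e]
    refine ⟨by exact_mod_cast h3, by exact_mod_cast h4, ?_, h6⟩
    push_cast
    exact h8.trans hdelta)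
  obtain ⟨b, r, hdet, hr0, hrq⟩ := exists_unimodular a q (by omega) hgcd
  set Y : ℕ := 4 * P / q + 1 with hY
  have hY1 : 4 * (P : ℝ) / q ≤ Y := by
    rw [div_le_iff₀ (by linarith)]
    have h1 : 4 * P < q * (4 * P / q + 1) := Nat.lt_mul_div_succ _ (by omega)
    have h2 : ((4 * P : ℕ) : ℝ) < ((q * (4 * P / q + 1) : ℕ) : ℝ) := by exact_mod_cast h1
    push_cast at h2
    rw [hY]
    push_cast
    linarith
  have hY2 : (Y : ℝ) ≤ 5 * (P / q) := by
    have h1 : ((4 * P / q : ℕ) : ℝ) ≤ ((4 * P : ℕ) : ℝ) / q := Nat.cast_div_le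
    push_cast at h1
    have h2 : 1 ≤ (P : ℝ) / q := by
      rw [le_div_iff₀ (by linarith)]
      linarith
    rw [hY]
    push_cast
    have h3 : 4 * (P : ℝ) / q = 4 * (P / q) := by ring
    rw [h3] at h1
    linarith
  have hY3 : 2 ≤ Y := by
    have h1 : 1 ≤ 4 * P / q := by
      rw [Nat.one_le_div_iff (by omega)]
      have : q ≤ P := hqQ.trans hQP
      omega
    omega
  have hmain := hcurve P hP2 Y hY3 a b q r hdet C hC0 hCΔ (S.image e) (by
    intro w hw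
    have hw' := hw
    rw [mem_image] at hw
    obtain ⟨z, hz, rfl⟩ := hw
    obtain ⟨h1, h2, h3, h4, h5, h6, h7, h8⟩ := hS z hz
    simp only [e]
    have hzpos : (0 : ℝ) < z.2 := by
      have : 0 < z.2 := by omega
      exact_mod_cast this
    have h4r : (z.2 : ℝ) ≤ 2 * P := by exact_mod_cast h4
    have hA : |(a : ℝ) * z.2 - q * z.1| ≤ z.2 / Q0 := by
      have h9 : (a : ℝ) * z.2 - q * z.1 = -(q * z.2) * ((z.1 : ℝ) / z.2 - a / q) := by
        field_simp
        ring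
      rw [h9, abs_mul, abs_neg, abs_of_pos (by positivity)]
      calc (q : ℝ) * z.2 * |(z.1 : ℝ) / z.2 - a / q| ≤ q * z.2 * (1 / (Q0 * q)) :=
            mul_le_mul_of_nonneg_left h7 (by positivity)
        _ = z.2 / Q0 := by
            field_simp
    have hA2 : (z.2 : ℝ) / Q0 ≤ z.2 / q :=
      div_le_div_of_nonneg_left hzpos.le (by linarith) hqQr
    have hA3 : (z.2 : ℝ) / q ≤ 2 * P / q := by
      apply div_le_div_of_nonneg_right h4r (by linarith)
    refine ⟨by exact_mod_cast h1, by exact_mod_cast h2, by exact_mod_cast h3,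
      by exact_mod_cast h4, Nat.prime_iff_prime_int.mp h5, (dvd_pow_self _ (by omega)).trans h6,
      ?_, ?_, hCz _ hw'⟩
    · have hB : |(r : ℝ) * z.1 - b * z.2| ≤ Y := by
        have hdetR : (a : ℝ) * r - b * q = 1 := by exact_mod_cast hdet
        have h9 : (q : ℝ) * ((r : ℝ) * z.1 - b * z.2) = z.2 - r * (a * z.2 - q * z.1) := by
          linear_combination (z.2 : ℝ) * hdetR
        have h10 : (q : ℝ) * |(r : ℝ) * z.1 - b * z.2| ≤ z.2 + q * (z.2 / q) := by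
          rw [← abs_of_pos (by linarith : (0 : ℝ) < q), ← abs_mul, abs_of_pos (by linarith : (0 : ℝ) < q),
            h9]
          refine (abs_sub _ _).trans ?_
          rw [abs_of_pos hzpos, abs_mul]
          have h11 : |(r : ℝ)| ≤ q := by
            rw [abs_of_nonneg (by exact_mod_cast hr0)]
            exact_mod_cast hrq
          have h12 := mul_le_mul h11 (hA.trans hA2) (abs_nonneg _) (by linarith)
          linarith
        have h13 : (q : ℝ) * (z.2 / q) = z.2 := by field_simp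
        rw [h13] at h10
        have h14 : |(r : ℝ) * z.1 - b * z.2| ≤ 2 * z.2 / q := by
          rw [le_div_iff₀ (by linarith)]
          linarith
        refine h14.trans (le_trans ?_ hY1)
        apply div_le_div_of_nonneg_right _ (by linarith)
        linarith
      have hB' : |((r * (z.1 : ℤ) - b * (z.2 : ℤ) : ℤ) : ℝ)| ≤ ((Y : ℤ) : ℝ) := by
        push_cast
        exact hB
      exact_mod_cast hB'
    · have hB : |(a : ℝ) * z.2 - q * z.1| ≤ Y := by
        refine hA.trans (hA2.trans (hA3.trans (le_trans ?_ hY1)))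
        apply div_le_div_of_nonneg_right _ (by linarith)
        linarith
      have hB' : |((a * (z.2 : ℤ) - (q : ℤ) * (z.1 : ℤ) : ℤ) : ℝ)| ≤ ((Y : ℤ) : ℝ) := by
        push_cast
        exact hB
      exact_mod_cast hB')
  rw [Finset.card_image_of_injective _ he] at hmain
  refine hmain.trans ?_
  rw [mul_assoc, ← Real.mul_rpow (by norm_num) (by positivity)]
  exact mul_le_mul_of_nonneg_left (Real.rpow_le_rpow (by positivity) hY2 hβ0) hK0.le

end Vale.Agent.P018
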