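import Mathlib
import Vale.Agent.P018.PairsBound

/-! `pairs_bound`. -/

namespace Vale.Agent.P018

open Finset Polynomial

/-- The pairs with ratio close to `0`. -/
theorem zero_sector (f : ℤ[X]) (hirr : Irreducible (f.map (Int.castRingHom ℚ))) (k : ℕ)
    (hk : 1 ≤ k) (hd : 2 ≤ f.natDegree) (X P : ℕ) (hX : 1 ≤ X) (hXP : X ≤ P)
    (hXA : ∑ i ∈ range (f.natDegree + 1), |(f.coeff i : ℝ)| < X) (R : ℝ) (hR : 0 ≤ R)
    (S : Finset (ℕ × ℕ)) (hS : ∀ z ∈ S, z ∈ pairs f k X P ∧ (z.1 : ℝ) ≤ R) :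
    (S.card : ℝ) ≤ R * f.natDegree := by
  classical
  have hg : ∀ z ∈ S, z.1 ∈ Icc 1 ⌊R⌋₊ := by
    intro z hz
    have h1 := (hS z hz).1
    simp only [pairs, mem_filter, mem_product, mem_Icc, mem_Ioc] at h1
    rw [mem_Icc]
    exact ⟨h1.1.1.1, Nat.le_floor (hS z hz).2⟩
  have h2 := card_le_mul_of_fiber S (Icc 1 ⌊R⌋₊) (fun z => z.1) hg (f.natDegree : ℝ) ?_
  · refine h2.trans ?_
    rw [Nat.card_Icc, Nat.add_sub_cancel]
    exact mul_le_mul_of_nonneg_right (Nat.floor_le hR) (by positivity)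
  · intro n hn
    rcases Finset.eq_empty_or_nonempty (S.filter fun z => z.1 = n) with he | he
    · rw [he]
      simp
    obtain ⟨z0, hz0⟩ := he
    rw [mem_filter] at hz0
    have hnX : n ≤ X := by
      have h1 := (hS z0 hz0.1).1
      simp only [pairs, mem_filter, mem_product, mem_Icc, mem_Ioc] at h1
      rw [← hz0.2]
      exact h1.1.1.2
    have hcard : (S.filter fun z => z.1 = n).card =
        ((S.filter fun z => z.1 = n).image Prod.snd).card := by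
      rw [Finset.card_image_of_injOn]
      intro z hz w hw hzw
      simp only [coe_filter, Set.mem_ofPred_eq] at hz hw
      exact Prod.ext (hz.2.trans hw.2.symm) hzw
    rw [hcard]
    have h3 := pa_card_primes_le k f.natDegree (f.eval (n : ℤ))
      (pa_eval_ne_zero f hirr hd n) X _ hXA hX hk (pa_abs_eval_le f n X hnX hX)
      ((S.filter fun z => z.1 = n).image Prod.snd) ?_
    · exact_mod_cast h3
    · intro p hp
      rw [mem_image] at hp
      obtain ⟨z, hz, rfl⟩ := hp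
      rw [mem_filter] at hz
      have h1 := (hS z hz.1).1
      simp only [pairs, mem_filter, mem_product, mem_Icc, mem_Ioc] at h1
      refine ⟨h1.2.1, by omega, ?_⟩
      rw [← hz.2]
      exact h1.2.2

theorem choose_params (d k : ℝ) (hd3 : 3 ≤ d) (hk : 2 ≤ k) (hrr : 5 * d + 3 ≤ 9 * k) :
    ∃ x t : ℝ, 3 / 4 ≤ x ∧ x < 1 ∧ 0 < t ∧ 1 / d + t < 1 ∧
      0 < 1 - x - (1 / d + t) * (1 - x / 2) ∧ d / k * (1 - x / 2) < 1 ∧
      9 * (d - k) / (4 * d) < x := by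
  have hdpos : (0 : ℝ) < d := by linarith
  have hkpos : (0 : ℝ) < k := by linarith
  set t : ℝ := (2 * d - 3) / (32 * (d : ℝ) ^ 2) with ht
  have htpos : 0 < t := by
    rw [ht]
    apply div_pos (by linarith) (by positivity)
  have htd : t * d ≤ 1 / 16 := by
    rw [ht, div_mul_eq_mul_div, div_le_div_iff₀ (by positivity) (by norm_num)]
    nlinarith
  set x : ℝ := 1 - 3 / (4 * d) + t with hx
  have h34 : 3 / (4 * (d : ℝ)) ≤ 1 / 4 := by
    rw [div_le_div_iff₀ (by positivity) (by norm_num)]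
    linarith
  have ht34 : t < 3 / (4 * (d : ℝ)) := by
    rw [lt_div_iff₀ (by positivity)]
    nlinarith
  have htdpos : 0 < t * d := by positivity
  refine ⟨x, t, ?_, ?_, htpos, ?_, ?_, ?_, ?_⟩
  · rw [hx]; linarith
  · rw [hx]; linarith
  · have h1 : 1 / (d : ℝ) ≤ 1 / 3 := one_div_le_one_div_of_le (by norm_num) hd3
    have h2 : t < 1 / 4 := by linarith
    linarith
  · have h1 : 1 - x - (1 / d + t) * (1 - x / 2) =
        (2 * d - 3) / (8 * (d : ℝ) ^ 2) - 3 / 2 * t + t / (8 * d) + t ^ 2 / 2 := by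
      rw [hx]
      field_simp
      ring
    have h2 : (2 * d - 3) / (8 * (d : ℝ) ^ 2) = 4 * t := by
      rw [ht]
      field_simp
      ring
    rw [h1, h2]
    have h3 : 0 < t / (8 * d) := by positivity
    nlinarith [sq_nonneg t]
  · rw [div_mul_eq_mul_div, div_lt_one hkpos]
    have h1 : (d : ℝ) * (1 - x / 2) = d / 2 + 3 / 8 - t * d / 2 := by
      rw [hx]
      field_simp
      ring
    rw [h1]
    linarith
  · rw [div_lt_iff₀ (by positivity), hx]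
    have h1 : (1 - 3 / (4 * (d : ℝ)) + t) * (4 * d) = 4 * d - 3 + 4 * (t * d) := by
      field_simp
    rw [h1]
    linarith

theorem q0_choice (P : ℕ) (hP : 2 ≤ P) (x : ℝ) (hx0 : 3 / 4 ≤ x) (hx1 : x < 1) :
    ∃ Q0 : ℕ, 2 ≤ Q0 ∧ (Q0 : ℝ) ≤ 2 * (P : ℝ) ^ (x / 2) ∧ (P : ℝ) ^ (x / 2) ≤ Q0 ∧ Q0 ≤ P ∧
      (P : ℝ) ^ x ≤ (Q0 : ℝ) ^ 2 := by
  have hPr : (2 : ℝ) ≤ P := by exact_mod_cast hP
  have hPpos : (0 : ℝ) < P := by linarith
  have hP1 : (1 : ℝ) ≤ P := by linarith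
  set Q0 : ℕ := ⌈(P : ℝ) ^ (x / 2)⌉₊ with hQ0
  have hpow1 : 1 < (P : ℝ) ^ (x / 2) := Real.one_lt_rpow (by linarith) (by linarith)
  have hQge : (P : ℝ) ^ (x / 2) ≤ Q0 := Nat.le_ceil _
  refine ⟨Q0, ?_, ?_, hQge, ?_, ?_⟩
  · have : 1 < Q0 := by
      rw [hQ0, Nat.lt_ceil]
      exact_mod_cast hpow1
    omega
  · have := Nat.ceil_lt_add_one (a := (P : ℝ) ^ (x / 2)) (by positivity)
    rw [← hQ0] at this
    linarith
  · rw [hQ0, Nat.ceil_le]
    calc (P : ℝ) ^ (x / 2) ≤ (P : ℝ) ^ (1 : ℝ) := Real.rpow_le_rpow_of_exponent_le hP1 (by linarith)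
      _ = P := Real.rpow_one _
  · calc (P : ℝ) ^ x = ((P : ℝ) ^ (x / 2)) ^ 2 := by
          rw [← Real.rpow_natCast, ← Real.rpow_mul hPpos.le]
          congr 1
          push_cast
          ring
      _ ≤ (Q0 : ℝ) ^ 2 := by
          apply pow_le_pow_left₀ (by positivity) hQge

theorem sector_algebra (X P Q x β η : ℝ) (hX1 : 1 ≤ X) (hXP : X ≤ P) (hQpos : 0 < Q)
    (hβ0 : 0 ≤ β) (hβ1 : β < 1)
    (hQle : Q ≤ 2 * P ^ (x / 2)) (hη0 : 0 ≤ η) (hη : η ≤ 1 - x - β * (1 - x / 2)) :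
    (X / P) * P ^ β * Q ^ (2 - β) ≤ 4 * X ^ (1 - η) := by
  have hXpos : 0 < X := by linarith
  have hPpos : 0 < P := by linarith
  set μ : ℝ := 1 - x - β * (1 - x / 2) with hμ
  have h2 : Q ^ (2 - β) ≤ 4 * P ^ (x / 2 * (2 - β)) := by
    calc Q ^ (2 - β) ≤ (2 * P ^ (x / 2)) ^ (2 - β) :=
          Real.rpow_le_rpow hQpos.le hQle (by linarith)
      _ = 2 ^ (2 - β) * (P ^ (x / 2)) ^ (2 - β) :=
          Real.mul_rpow (by norm_num) (by positivity)
      _ = 2 ^ (2 - β) * P ^ (x / 2 * (2 - β)) := by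
          rw [← Real.rpow_mul hPpos.le]
      _ ≤ 4 * P ^ (x / 2 * (2 - β)) := by
          apply mul_le_mul_of_nonneg_right _ (by positivity)
          calc (2 : ℝ) ^ (2 - β) ≤ 2 ^ (2 : ℝ) :=
                Real.rpow_le_rpow_of_exponent_le (by norm_num) (by linarith)
            _ = 4 := by norm_num
  have h3 : (X / P) * P ^ β * P ^ (x / 2 * (2 - β)) = X * P ^ (-μ) := by
    have h4 : -μ = -1 + β + x / 2 * (2 - β) := by
      rw [hμ]
      ring
    rw [h4, Real.rpow_add hPpos, Real.rpow_add hPpos, Real.rpow_neg_one]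
    ring
  have h5 : P ^ (-μ) ≤ X ^ (-μ) :=
    Real.rpow_le_rpow_of_nonpos hXpos hXP (by linarith)
  have h6 : X * X ^ (-μ) ≤ X ^ (1 - η) := by
    have h7 : X * X ^ (-μ) = X ^ (1 - μ) := by
      rw [sub_eq_add_neg, Real.rpow_add hXpos, Real.rpow_one]
    rw [h7]
    apply Real.rpow_le_rpow_of_exponent_le hX1
    linarith
  calc (X / P) * P ^ β * Q ^ (2 - β)
      ≤ (X / P) * P ^ β * (4 * P ^ (x / 2 * (2 - β))) := by
        apply mul_le_mul_of_nonneg_left h2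
        positivity
    _ = 4 * ((X / P) * P ^ β * P ^ (x / 2 * (2 - β))) := by ring
    _ = 4 * (X * P ^ (-μ)) := by rw [h3]
    _ ≤ 4 * (X * X ^ (-μ)) := by
        apply mul_le_mul_of_nonneg_left _ (by norm_num)
        exact mul_le_mul_of_nonneg_left h5 hXpos.le
    _ ≤ 4 * X ^ (1 - η) := mul_le_mul_of_nonneg_left h6 (by norm_num)

theorem zero_algebra (X P A x η : ℝ) (d k : ℕ) (hk : 1 ≤ k) (hX1 : 1 ≤ X) (hXP : X ≤ P)
    (hA : 0 < A) (hx1 : x < 1) (hPA : P ^ k ≤ A * X ^ d)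
    (hη : η ≤ 1 - (d : ℝ) / k * (1 - x / 2)) :
    P ^ (1 - x / 2) ≤ A ^ ((1 - x / 2) / k) * X ^ (1 - η) := by
  have hXpos : 0 < X := by linarith
  have hPpos : 0 < P := by linarith
  have hkpos : (0 : ℝ) < k := by exact_mod_cast hk
  have h2 : P ≤ A ^ (1 / (k : ℝ)) * X ^ ((d : ℝ) / k) := by
    have h3 : P = (P ^ k) ^ (1 / (k : ℝ)) := by
      rw [← Real.rpow_natCast, ← Real.rpow_mul hPpos.le, mul_one_div_cancel hkpos.ne',
        Real.rpow_one]
    calc P = (P ^ k) ^ (1 / (k : ℝ)) := h3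
      _ ≤ (A * X ^ d) ^ (1 / (k : ℝ)) :=
          Real.rpow_le_rpow (by positivity) hPA (by positivity)
      _ = A ^ (1 / (k : ℝ)) * (X ^ d) ^ (1 / (k : ℝ)) :=
          Real.mul_rpow hA.le (by positivity)
      _ = A ^ (1 / (k : ℝ)) * X ^ ((d : ℝ) / k) := by
          rw [← Real.rpow_natCast, ← Real.rpow_mul hXpos.le]
          congr 2
          ring
  calc P ^ (1 - x / 2) ≤ (A ^ (1 / (k : ℝ)) * X ^ ((d : ℝ) / k)) ^ (1 - x / 2) :=
        Real.rpow_le_rpow hPpos.le h2 (by linarith)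
    _ = (A ^ (1 / (k : ℝ))) ^ (1 - x / 2) * (X ^ ((d : ℝ) / k)) ^ (1 - x / 2) :=
        Real.mul_rpow (by positivity) (by positivity)
    _ = A ^ ((1 - x / 2) / k) * X ^ ((d : ℝ) / k * (1 - x / 2)) := by
        rw [← Real.rpow_mul hA.le, ← Real.rpow_mul hXpos.le]
        congr 2
        ring
    _ ≤ A ^ ((1 - x / 2) / k) * X ^ (1 - η) := by
        apply mul_le_mul_of_nonneg_left _ (by positivity)
        apply Real.rpow_le_rpow_of_exponent_le hX1
        linarith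

/-- If Dirichlet's fraction of `n/p` is at most `0` then `n` is small. -/
theorem small_of_num_nonpos (n p P Q0 : ℕ) (x : ℝ) (hP : 0 < P) (hQ : 0 < Q0)
    (hQge : (P : ℝ) ^ (x / 2) ≤ Q0) (hp : 0 < p) (hp2 : p ≤ 2 * P) (ρ : ℚ)
    (hρ : |(n : ℝ) / p - (ρ : ℝ)| ≤ 1 / (((Q0 : ℝ) + 1) * ρ.den)) (hnum : ¬ 0 < ρ.num) :
    (n : ℝ) ≤ 2 * (P : ℝ) ^ (1 - x / 2) := by
  have hPpos : (0 : ℝ) < P := by exact_mod_cast hP
  have hQpos : (0 : ℝ) < Q0 := by exact_mod_cast hQ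
  have hz2 : (0 : ℝ) < p := by exact_mod_cast hp
  have hnum' : (ρ : ℝ) ≤ 0 := by
    have : ρ ≤ 0 := Rat.num_nonpos.mp (not_lt.mp hnum)
    exact_mod_cast this
  have h8 := (abs_le.mp hρ).2
  have h9 : 1 / (((Q0 : ℝ) + 1) * ρ.den) ≤ 1 / Q0 := by
    apply one_div_le_one_div_of_le hQpos
    have : (1 : ℝ) ≤ ρ.den := by exact_mod_cast ρ.den_pos
    nlinarith
  have h10 : (n : ℝ) / p ≤ 1 / Q0 := by linarith
  rw [div_le_iff₀ hz2] at h10
  have h11 : (p : ℝ) ≤ 2 * P := by exact_mod_cast hp2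
  have h12 : 1 / (Q0 : ℝ) ≤ (P : ℝ) ^ (-(x / 2)) := by
    rw [Real.rpow_neg hPpos.le, one_div]
    exact inv_anti₀ (by positivity) hQge
  calc (n : ℝ) ≤ 1 / Q0 * p := h10
    _ ≤ (P : ℝ) ^ (-(x / 2)) * (2 * P) := mul_le_mul h12 h11 hz2.le (by positivity)
    _ = 2 * (P : ℝ) ^ (1 - x / 2) := by
        rw [sub_eq_add_neg, Real.rpow_add hPpos, Real.rpow_one]
        ring

/-- Module F2b. -/
theorem pairs_bound (f : ℤ[X]) (hirr : Irreducible (f.map (Int.castRingHom ℚ))) (k : ℕ)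
    (hk : 2 ≤ k) (hkd : k < f.natDegree) (hr : 5 * f.natDegree + 3 ≤ 9 * k) (A : ℝ) (hA : 0 < A) :
    ∃ η K : ℝ, 0 < η ∧ 0 < K ∧ ∃ X0 : ℕ, ∀ X P : ℕ, X0 ≤ X → X ≤ P →
      (P : ℝ) ^ k ≤ A * (X : ℝ) ^ f.natDegree →
      ((pairs f k X P).card : ℝ) ≤ K * (X : ℝ) ^ (1 - η) := by
  classical
  have hd3 : (3 : ℝ) ≤ f.natDegree := by
    have : 3 ≤ f.natDegree := by omega
    exact_mod_cast this
  have hkr : (2 : ℝ) ≤ k := by exact_mod_cast hk
  have hrr : 5 * (f.natDegree : ℝ) + 3 ≤ 9 * k := by exact_mod_cast hr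
  have hdpos : (0 : ℝ) < f.natDegree := by linarith
  obtain ⟨x, t, hx0, hx1, htpos, hβ1, hμ0, hθ1, hxfib⟩ := choose_params _ _ hd3 hkr hrr
  obtain ⟨K, P0, hK0, hfib⟩ := fiber_bound f hirr k hk hkd x t hxfib htpos
  generalize hβ : 1 / (f.natDegree : ℝ) + t = β at hβ1 hμ0 hfib
  have hβ0 : 0 ≤ β := by rw [← hβ]; positivity
  have hη1 := min_le_left (1 - x - β * (1 - x / 2)) (1 - (f.natDegree : ℝ) / k * (1 - x / 2))
  have hη2 := min_le_right (1 - x - β * (1 - x / 2)) (1 - (f.natDegree : ℝ) / k * (1 - x / 2))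
  have hη0 : 0 < min (1 - x - β * (1 - x / 2)) (1 - (f.natDegree : ℝ) / k * (1 - x / 2)) :=
    lt_min hμ0 (by linarith)
  generalize min (1 - x - β * (1 - x / 2)) (1 - (f.natDegree : ℝ) / k * (1 - x / 2)) = η
    at hη1 hη2 hη0
  have h1β : 0 < 1 - β := by linarith
  refine ⟨η, 4 * K / (1 - β) * 4 + 2 * f.natDegree * A ^ ((1 - x / 2) / k), hη0, by positivity,
    max (max P0 2) (⌊∑ i ∈ range (f.natDegree + 1), |(f.coeff i : ℝ)|⌋₊ + 1), ?_⟩
  intro X P hX0 hXP hPA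
  have hXP0 : P0 ≤ X := le_trans (le_trans (le_max_left _ _) (le_max_left _ _)) hX0
  have hX2 : 2 ≤ X := le_trans (le_trans (le_max_right _ _) (le_max_left _ _)) hX0
  have hXA : ∑ i ∈ range (f.natDegree + 1), |(f.coeff i : ℝ)| < X := by
    have h1 := le_trans (le_max_right _ _) hX0
    exact (Nat.floor_lt' (by omega)).mp (Nat.lt_of_succ_le h1)
  have hP2 : 2 ≤ P := le_trans hX2 hXP
  have hX1 : (1 : ℝ) ≤ X := by
    have : 1 ≤ X := by omega
    exact_mod_cast this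
  have hXPr : (X : ℝ) ≤ P := by exact_mod_cast hXP
  obtain ⟨Q0, hQ2, hQle, hQge, hQP, hQx⟩ := q0_choice P hP2 x hx0 hx1
  have hQpos : (0 : ℝ) < Q0 := by
    have : 0 < Q0 := by omega
    exact_mod_cast this
  have hdir : ∀ z : ℕ × ℕ, ∃ q : ℚ, |(z.1 : ℝ) / z.2 - (q : ℝ)| ≤ 1 / (((Q0 : ℝ) + 1) * q.den) ∧
      q.den ≤ Q0 := fun z =>
    Real.exists_rat_abs_sub_le_and_den_le ((z.1 : ℝ) / z.2) (by omega)
  choose ρ hρ using hdir
  have hcard : ((pairs f k X P).card : ℝ) =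
      (((pairs f k X P).filter (fun z => 0 < (ρ z).num)).card : ℝ) +
      ((pairs f k X P).filter (fun z => ¬ 0 < (ρ z).num)).card := by
    rw [← Finset.card_filter_add_card_filter_not (s := pairs f k X P) (fun z => 0 < (ρ z).num)]
    push_cast
    rfl
  have hb1 : (((pairs f k X P).filter (fun z => 0 < (ρ z).num)).card : ℝ) ≤
      4 * K / (1 - β) * 4 * (X : ℝ) ^ (1 - η) := by
    have h1 := sector_count f k β K hK0.le hβ0 hβ1 P Q0 X (by omega) hXP hQ2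
      (hfib P (hXP0.trans hXP) Q0 hQ2 hQx hQP) ρ hρ
      ((pairs f k X P).filter (fun z => 0 < (ρ z).num)) (fun z hz => by
        rw [mem_filter] at hz; exact hz)
    refine h1.trans ?_
    have h2 := sector_algebra X P Q0 x β η hX1 hXPr hQpos hβ0 hβ1 hQle hη0.le hη1
    calc 4 * K / (1 - β) * ((X : ℝ) / P) * (P : ℝ) ^ β * (Q0 : ℝ) ^ (2 - β)
        = 4 * K / (1 - β) * (((X : ℝ) / P) * (P : ℝ) ^ β * (Q0 : ℝ) ^ (2 - β)) := by ring
      _ ≤ 4 * K / (1 - β) * (4 * (X : ℝ) ^ (1 - η)) := by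
          apply mul_le_mul_of_nonneg_left h2
          positivity
      _ = 4 * K / (1 - β) * 4 * (X : ℝ) ^ (1 - η) := by ring
  have hb0 : (((pairs f k X P).filter (fun z => ¬ 0 < (ρ z).num)).card : ℝ) ≤
      2 * f.natDegree * A ^ ((1 - x / 2) / k) * (X : ℝ) ^ (1 - η) := by
    have h1 := zero_sector f hirr k (by omega) (by omega) X P (by omega) hXP hXA
      (2 * (P : ℝ) ^ (1 - x / 2)) (by positivity)
      ((pairs f k X P).filter (fun z => ¬ 0 < (ρ z).num)) (fun z hz => by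
        rw [mem_filter] at hz
        refine ⟨hz.1, ?_⟩
        have h1 := hz.1
        simp only [pairs, mem_filter, mem_product, mem_Icc, mem_Ioc] at h1
        exact small_of_num_nonpos z.1 z.2 P Q0 x (by omega) (by omega) hQge (by omega)
          h1.1.2.2 (ρ z) (hρ z).1 hz.2)
    refine h1.trans ?_
    have h2 := zero_algebra X P A x η f.natDegree k (by omega) hX1 hXPr hA hx1 hPA hη2
    calc 2 * (P : ℝ) ^ (1 - x / 2) * f.natDegree
        = 2 * f.natDegree * (P : ℝ) ^ (1 - x / 2) := by ring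
      _ ≤ 2 * f.natDegree * (A ^ ((1 - x / 2) / k) * (X : ℝ) ^ (1 - η)) := by
          apply mul_le_mul_of_nonneg_left h2
          positivity
      _ = 2 * f.natDegree * A ^ ((1 - x / 2) / k) * (X : ℝ) ^ (1 - η) := by ring
  rw [hcard, add_mul]
  exact add_le_add hb1 hb0

end Vale.Agent.P018
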