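import Vale.Agent.P018.SmallCurve

/-! # P018, Module G: the tail for `k ≥ deg f`. -/

namespace Vale.Agent.P018

open Polynomial Finset Filter Topology

theorem tendsto_primeCounting_div :
    Tendsto (fun n : ℕ => (Nat.primeCounting n : ℝ) / n) atTop (𝓝 0) := by
  have h1 := Chebyshev.eventually_primeCounting_le (ε := 1) one_pos
  have h2 : Tendsto (fun n : ℕ => (Real.log 4 + 1) / Real.log (n : ℝ)) atTop (𝓝 0) :=
    Tendsto.const_div_atTop (Real.tendsto_log_atTop.comp tendsto_natCast_atTop_atTop) _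
  refine squeeze_zero' (Eventually.of_forall fun n => by positivity) ?_ h2
  filter_upwards [tendsto_natCast_atTop_atTop.eventually h1, eventually_gt_atTop 0] with n hn hn0
  rw [Nat.floor_natCast] at hn
  have hn0' : (0 : ℝ) < n := by exact_mod_cast hn0
  rw [div_le_iff₀ hn0']
  calc (Nat.primeCounting n : ℝ) ≤ (Real.log 4 + 1) * n / Real.log n := hn
    _ = (Real.log 4 + 1) / Real.log n * n := by ring

theorem eval_natAbs_le (f : ℤ[X]) {n X : ℕ} (hn : 1 ≤ n) (hnX : n ≤ X) :
    (f.eval (n : ℤ)).natAbs ≤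
      (∑ i ∈ range (f.natDegree + 1), (f.coeff i).natAbs) * X ^ f.natDegree := by
  rw [eval_eq_sum_range, Finset.sum_mul]
  refine (Int.natAbs_sum_le _ _).trans (sum_le_sum fun i hi => ?_)
  rw [Int.natAbs_mul, Int.natAbs_pow, Int.natAbs_natCast]
  rw [mem_range] at hi
  refine Nat.mul_le_mul_left _ ?_
  exact (Nat.pow_le_pow_left hnX i).trans (Nat.pow_le_pow_right (by omega) (by omega))

theorem tail_le (f : ℤ[X]) (hf0 : f ≠ 0) (k : ℕ) (hk : 1 ≤ k) (hkd : f.natDegree ≤ k) {H : ℕ}
    (hH : H = ∑ i ∈ range (f.natDegree + 1), (f.coeff i).natAbs) {X : ℕ} (hX : H ≤ X) (hX1 : 1 ≤ X) :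
    tail f k X ≤ f.natDegree + f.natDegree * Nat.primeCounting (H * X) := by
  classical
  set d := f.natDegree with hd
  have hlc : f.leadingCoeff.natAbs ≤ H := by
    rw [hH]
    exact single_le_sum (f := fun i => (f.coeff i).natAbs) (fun _ _ => Nat.zero_le _)
      (mem_range.2 (Nat.lt_succ_self _))
  have hH1 : 1 ≤ H := by
    have : 0 < f.leadingCoeff.natAbs := Int.natAbs_pos.2 (leadingCoeff_ne_zero.2 hf0)
    omega
  set PS := (Finset.Icc 1 (H * X)).filter (fun p => p.Prime ∧ X < p) with hPS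
  have hPScard : PS.card ≤ Nat.primeCounting (H * X) := by
    rw [← Nat.primesLE_card_eq_primeCounting]
    refine card_le_card fun p hp => ?_
    rw [hPS, mem_filter, mem_Icc] at hp
    rw [Nat.mem_primesLE]
    exact ⟨hp.1.2, hp.2.1⟩
  have hsub : (Finset.Icc 1 X).filter (fun n : ℕ => ∃ p : ℕ, p.Prime ∧ X < p ∧
      (p : ℤ) ^ k ∣ f.eval (n : ℤ)) ⊆
      (Finset.Icc 1 X).filter (fun n : ℕ => f.eval (n : ℤ) = 0) ∪
      PS.biUnion (fun p => (Finset.Icc 1 X).filter (fun n : ℕ => (p : ℤ) ∣ f.eval (n : ℤ))) := by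
    intro n hn
    rw [mem_filter, mem_Icc] at hn
    obtain ⟨⟨hn1, hnX⟩, p, hp, hXp, hdvd⟩ := hn
    rw [mem_union, mem_filter, mem_Icc, mem_biUnion]
    by_cases h0 : f.eval (n : ℤ) = 0
    · exact Or.inl ⟨⟨hn1, hnX⟩, h0⟩
    refine Or.inr ⟨p, ?_, ?_⟩
    · rw [hPS, mem_filter, mem_Icc]
      refine ⟨⟨hp.one_lt.le, ?_⟩, hp, hXp⟩
      by_contra hlt
      push Not at hlt
      have h1 : p ^ k ∣ (f.eval (n : ℤ)).natAbs := by
        have := Int.natAbs_dvd_natAbs.2 hdvd
        rwa [Int.natAbs_pow, Int.natAbs_natCast] at this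
      have h2 := Nat.le_of_dvd (Int.natAbs_pos.2 h0) h1
      have h3 := eval_natAbs_le f hn1 hnX
      rw [← hH] at h3
      have h4 : H * X ^ d ≤ H ^ k * X ^ k :=
        Nat.mul_le_mul (Nat.le_self_pow (by omega) H) (Nat.pow_le_pow_right hX1 hkd)
      have h5 : (H * X) ^ k < p ^ k := Nat.pow_lt_pow_left hlt (by omega)
      rw [mul_pow] at h5
      exact absurd (((h2.trans h3).trans h4).trans_lt h5) (lt_irrefl _)
    · rw [mem_filter, mem_Icc]
      exact ⟨⟨hn1, hnX⟩, (dvd_pow_self _ (by omega)).trans hdvd⟩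
  unfold tail
  refine (card_le_card hsub).trans ((card_union_le _ _).trans (add_le_add ?_ ?_))
  · calc ((Finset.Icc 1 X).filter (fun n : ℕ => f.eval (n : ℤ) = 0)).card
        ≤ f.roots.toFinset.card := by
          refine card_le_card_of_injOn (fun n : ℕ => (n : ℤ)) ?_ ?_
          · intro n hn
            rw [mem_coe, mem_filter] at hn
            rw [mem_coe, Multiset.mem_toFinset, mem_roots hf0]
            exact hn.2
          · intro a _ b _ hab
            exact Int.natCast_inj.1 hab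
      _ ≤ Multiset.card f.roots := f.roots.toFinset_card_le
      _ ≤ d := card_roots' f
  · refine card_biUnion_le.trans ?_
    calc ∑ p ∈ PS, ((Finset.Icc 1 X).filter (fun n : ℕ => (p : ℤ) ∣ f.eval (n : ℤ))).card
        ≤ ∑ p ∈ PS, d := by
          refine sum_le_sum fun p hp => ?_
          rw [hPS, mem_filter, mem_Icc] at hp
          have hinj : Set.InjOn (fun n : ℕ => (n : ℤ))
              (((Finset.Icc 1 X).filter (fun n : ℕ => (p : ℤ) ∣ f.eval (n : ℤ)) : Finset ℕ) : Set ℕ) :=
            fun a _ b _ hab => Int.natCast_inj.1 hab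
          rw [← card_image_of_injOn hinj]
          refine card_roots_mod_le f hf0 hp.2.1 (by omega) _ ?_
          intro n hn
          obtain ⟨m, hm, rfl⟩ := mem_image.1 hn
          rw [mem_filter, mem_Icc] at hm
          refine ⟨by positivity, ?_, hm.2⟩
          exact_mod_cast (by omega : m < p)
      _ = PS.card * d := by rw [sum_const, smul_eq_mul]
      _ ≤ d * Nat.primeCounting (H * X) := by
          rw [mul_comm]
          exact Nat.mul_le_mul_left _ hPScard

/-- Module G: the tail for `k ≥ d`. -/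
theorem tail_large_k (f : ℤ[X]) (hirr : Irreducible (f.map (Int.castRingHom ℚ))) (k : ℕ)
    (hk : 2 ≤ k) (hkd : f.natDegree ≤ k) :
    Tendsto (fun X : ℕ => (tail f k X : ℝ) / X) atTop (𝓝 0) := by
  have hf0 : f ≠ 0 := by
    rintro rfl
    simp at hirr
  obtain ⟨H, hH⟩ : ∃ H : ℕ, H = ∑ i ∈ range (f.natDegree + 1), (f.coeff i).natAbs := ⟨_, rfl⟩
  have hlc : f.leadingCoeff.natAbs ≤ H := by
    rw [hH]
    exact single_le_sum (f := fun i => (f.coeff i).natAbs) (fun _ _ => Nat.zero_le _)
      (mem_range.2 (Nat.lt_succ_self _))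
  have hH1 : 1 ≤ H := by
    have : 0 < f.leadingCoeff.natAbs := Int.natAbs_pos.2 (leadingCoeff_ne_zero.2 hf0)
    omega
  have hHX : Tendsto (fun X : ℕ => H * X) atTop atTop :=
    tendsto_id.const_mul_atTop' (by omega)
  have h1 := (tendsto_primeCounting_div.comp hHX).const_mul ((f.natDegree : ℝ) * H)
  have h2 : Tendsto (fun X : ℕ => (f.natDegree : ℝ) / X) atTop (𝓝 0) :=
    tendsto_const_div_atTop_nhds_zero_nat _
  have h3 := h2.add h1
  rw [mul_zero, add_zero] at h3
  refine squeeze_zero' (Eventually.of_forall fun n => by positivity) ?_ h3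
  filter_upwards [eventually_ge_atTop H, eventually_ge_atTop 1] with X hX hX1
  have h4 := tail_le f hf0 k (by omega) hkd hH hX hX1
  have hX0 : (0 : ℝ) < X := by exact_mod_cast (by omega : 0 < X)
  have hH0 : (0 : ℝ) < H := by exact_mod_cast (by omega : 0 < H)
  have h5 : (tail f k X : ℝ) ≤ f.natDegree + f.natDegree * Nat.primeCounting (H * X) := by
    exact_mod_cast h4
  calc (tail f k X : ℝ) / X ≤ (f.natDegree + f.natDegree * Nat.primeCounting (H * X)) / X := by
        gcongr
    _ = f.natDegree / X + f.natDegree * H * (((fun n : ℕ => (Nat.primeCounting n : ℝ) / n) ∘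
          fun X => H * X) X) := by
        simp only [Function.comp]
        push_cast
        field_simp

end Vale.Agent.P018
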