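import Vale.Agent.P018.Defs
import Vale.Agent.P018.PairsDef

/-! # P018, module F2c: from the bound for dyadic blocks of primes to the tail. -/

namespace Vale.Agent.P018

open Polynomial Filter Topology Asymptotics

/-- an irreducible polynomial of degree at least two has no integer root. -/
theorem eval_ne_zero_of_irreducible (f : ℤ[X]) (hirr : Irreducible (f.map (Int.castRingHom ℚ)))
    (hd : 2 ≤ f.natDegree) (n : ℤ) : f.eval n ≠ 0 := by
  intro h
  have h1 : (f.map (Int.castRingHom ℚ)).eval (n : ℚ) = 0 := by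
    have h2 : (f.map (Int.castRingHom ℚ)).eval ((Int.castRingHom ℚ) n) =
        (Int.castRingHom ℚ) (f.eval n) := eval_map_apply _ _
    rw [h, map_zero] at h2
    exact h2
  have hdeg := degree_eq_one_of_irreducible_of_root hirr h1
  have hinj : Function.Injective (Int.castRingHom ℚ) := Int.cast_injective
  have h3 : (f.map (Int.castRingHom ℚ)).natDegree = f.natDegree :=
    natDegree_map_eq_of_injective hinj f
  have h4 : (f.map (Int.castRingHom ℚ)).natDegree = 1 :=
    natDegree_eq_of_degree_eq_some (n := 1) (by exact_mod_cast hdeg)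
  omega

/-- the sum of the absolute values of the coefficients. -/
noncomputable def cSum (f : ℤ[X]) : ℕ := ∑ i ∈ Finset.range (f.natDegree + 1), (f.coeff i).natAbs

theorem abs_eval_le (f : ℤ[X]) {n X : ℕ} (hX : 1 ≤ X) (hn : n ≤ X) :
    (f.eval (n : ℤ)).natAbs ≤ cSum f * X ^ f.natDegree := by
  have h1 : ((f.eval (n : ℤ)).natAbs : ℤ) ≤ ((cSum f * X ^ f.natDegree : ℕ) : ℤ) := by
    rw [Int.natCast_natAbs, eval_eq_sum_range]
    refine (Finset.abs_sum_le_sum_abs _ _).trans ?_
    unfold cSum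
    push_cast
    rw [Finset.sum_mul]
    apply Finset.sum_le_sum
    intro i hi
    rw [Finset.mem_range] at hi
    rw [abs_mul, abs_pow]
    have hn' : |(n : ℤ)| = (n : ℤ) := abs_of_nonneg (by positivity)
    rw [hn']
    have h2 : (n : ℤ) ^ i ≤ (X : ℤ) ^ f.natDegree := by
      calc (n : ℤ) ^ i ≤ (X : ℤ) ^ i := by
            apply pow_le_pow_left₀ (by positivity)
            exact_mod_cast hn
        _ ≤ (X : ℤ) ^ f.natDegree := pow_le_pow_right₀ (by exact_mod_cast hX) (by omega)
    exact mul_le_mul_of_nonneg_left h2 (abs_nonneg _)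
  exact_mod_cast h1

/-- Module F2c: from `pairs_bound` to the tail. -/
theorem tail_of_pairs (f : ℤ[X]) (hirr : Irreducible (f.map (Int.castRingHom ℚ))) (k : ℕ)
    (hk : 2 ≤ k) (hkd : k < f.natDegree)
    (hpairs : ∀ A : ℝ, 0 < A → ∃ η K : ℝ, 0 < η ∧ 0 < K ∧ ∃ X0 : ℕ, ∀ X P : ℕ, X0 ≤ X → X ≤ P →
      (P : ℝ) ^ k ≤ A * (X : ℝ) ^ f.natDegree →
      ((pairs f k X P).card : ℝ) ≤ K * (X : ℝ) ^ (1 - η)) :
    Tendsto (fun X : ℕ => (tail f k X : ℝ) / X) atTop (𝓝 0) := by
  classical
  set d := f.natDegree with hd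
  set A : ℕ := cSum f + 1 with hA
  obtain ⟨η, K, hη, hK, X0, hX0⟩ := hpairs (A : ℝ) (by rw [hA]; push_cast; positivity)
  -- size of the primes
  have hsize : ∀ X : ℕ, 1 ≤ X → ∀ n p : ℕ, n ≤ X → (p : ℤ) ^ k ∣ f.eval (n : ℤ) →
      p ^ k ≤ A * X ^ d := by
    intro X hX n p hn hdvd
    have hne := eval_ne_zero_of_irreducible f hirr (by omega) (n : ℤ)
    have h1 : p ^ k ≤ (f.eval (n : ℤ)).natAbs := by
      have h2 := Int.natAbs_dvd_natAbs.2 hdvd
      rw [Int.natAbs_pow, Int.natAbs_natCast] at h2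
      exact Nat.le_of_dvd (Int.natAbs_pos.2 hne) h2
    refine h1.trans ((abs_eval_le f hX hn).trans ?_)
    exact Nat.mul_le_mul_right _ (by omega)
  -- every block is small
  have hblock : ∀ X : ℕ, max X0 1 ≤ X → ∀ j : ℕ,
      ((pairs f k X (2 ^ j * X)).card : ℝ) ≤ K * (X : ℝ) ^ (1 - η) := by
    intro X hX j
    rcases (pairs f k X (2 ^ j * X)).eq_empty_or_nonempty with h | ⟨z, hz⟩
    · rw [h]
      simp only [Finset.card_empty, Nat.cast_zero]
      positivity
    · apply hX0 X _ (le_trans (le_max_left _ _) hX)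
      · exact Nat.le_mul_of_pos_left X (by positivity)
      · unfold pairs at hz
        rw [Finset.mem_filter, Finset.mem_product, Finset.mem_Icc, Finset.mem_Ioc] at hz
        have h1 := hsize X (le_trans (le_max_right _ _) hX) z.1 z.2 hz.1.1.2 hz.2.2
        have h2 : (2 ^ j * X) ^ k ≤ A * X ^ d :=
          (Nat.pow_le_pow_left hz.1.2.1.le k).trans h1
        exact_mod_cast h2
  -- the number of blocks
  have htail : ∀ X : ℕ, max X0 1 ≤ X →
      (tail f k X : ℝ) ≤ ((Nat.log 2 (A * X ^ d) : ℝ) + 1) * (K * (X : ℝ) ^ (1 - η)) := by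
    intro X hX
    have hX1 : 1 ≤ X := le_trans (le_max_right _ _) hX
    set J := Nat.log 2 (A * X ^ d) with hJ
    have hsub : ((Finset.Icc 1 X).filter (fun n : ℕ => ∃ p : ℕ, p.Prime ∧ X < p ∧
        (p : ℤ) ^ k ∣ f.eval (n : ℤ))) ⊆
        (Finset.range (J + 1)).biUnion (fun j => (pairs f k X (2 ^ j * X)).image Prod.fst) := by
      intro n hn
      rw [Finset.mem_filter, Finset.mem_Icc] at hn
      obtain ⟨⟨hn1, hnX⟩, p, hp, hXp, hdvd⟩ := hn
      have hpk := hsize X hX1 n p hnX hdvd
      have hpA : p ≤ A * X ^ d := (Nat.le_self_pow (by omega) p).trans hpk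
      -- choose the block
      have hex : ∃ j, p ≤ 2 ^ (j + 1) * X := by
        refine ⟨p, ?_⟩
        have : p ≤ 2 ^ (p + 1) := (Nat.lt_two_pow_self (n := p)).le.trans
          (Nat.pow_le_pow_right (by norm_num) (by omega))
        exact this.trans (Nat.le_mul_of_pos_right _ (by omega))
      set j := Nat.find hex with hj
      have hj1 : p ≤ 2 ^ (j + 1) * X := Nat.find_spec hex
      have hj2 : 2 ^ j * X < p := by
        rcases Nat.eq_zero_or_pos j with h0 | h0
        · rw [h0]
          simpa using hXp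
        · have := Nat.find_min hex (m := j - 1) (by omega)
          push Not at this
          rwa [Nat.sub_add_cancel h0] at this
      have hjJ : j < J + 1 := by
        rw [Nat.lt_succ_iff, hJ]
        apply Nat.le_log_of_pow_le (by norm_num)
        calc 2 ^ j ≤ 2 ^ j * X := Nat.le_mul_of_pos_right _ (by omega)
          _ ≤ p := hj2.le
          _ ≤ A * X ^ d := hpA
      rw [Finset.mem_biUnion]
      refine ⟨j, Finset.mem_range.2 hjJ, ?_⟩
      rw [Finset.mem_image]
      refine ⟨(n, p), ?_, rfl⟩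
      unfold pairs
      rw [Finset.mem_filter, Finset.mem_product, Finset.mem_Icc, Finset.mem_Ioc]
      refine ⟨⟨⟨hn1, hnX⟩, hj2, ?_⟩, hp, hdvd⟩
      calc p ≤ 2 ^ (j + 1) * X := hj1
        _ = 2 * (2 ^ j * X) := by ring
    have hcard : tail f k X ≤ ∑ j ∈ Finset.range (J + 1), (pairs f k X (2 ^ j * X)).card := by
      unfold tail
      calc _ ≤ ((Finset.range (J + 1)).biUnion
            (fun j => (pairs f k X (2 ^ j * X)).image Prod.fst)).card := by
              convert Finset.card_le_card hsub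
        _ ≤ ∑ j ∈ Finset.range (J + 1), ((pairs f k X (2 ^ j * X)).image Prod.fst).card :=
              Finset.card_biUnion_le
        _ ≤ _ := Finset.sum_le_sum fun j _ => Finset.card_image_le
    calc (tail f k X : ℝ) ≤ ((∑ j ∈ Finset.range (J + 1), (pairs f k X (2 ^ j * X)).card : ℕ) : ℝ) := by
          exact_mod_cast hcard
      _ = ∑ j ∈ Finset.range (J + 1), ((pairs f k X (2 ^ j * X)).card : ℝ) := by push_cast; rfl
      _ ≤ ∑ j ∈ Finset.range (J + 1), (K * (X : ℝ) ^ (1 - η)) :=
          Finset.sum_le_sum fun j _ => hblock X hX j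
      _ = ((J : ℝ) + 1) * (K * (X : ℝ) ^ (1 - η)) := by
          rw [Finset.sum_const, Finset.card_range, nsmul_eq_mul]
          push_cast
          ring
  -- the limit
  have hlim : Tendsto (fun X : ℕ => ((Real.log A + d * Real.log X) / Real.log 2 + 1) *
      (K * (X : ℝ) ^ (-η))) atTop (𝓝 0) := by
    have h1 : Tendsto (fun x : ℝ => Real.log x * x ^ (-η)) atTop (𝓝 0) := by
      have := (isLittleO_log_rpow_atTop hη).tendsto_div_nhds_zero
      refine this.congr' ?_
      filter_upwards [eventually_gt_atTop 0] with x hx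
      rw [Real.rpow_neg hx.le, div_eq_mul_inv]
    have h2 : Tendsto (fun x : ℝ => x ^ (-η)) atTop (𝓝 0) := tendsto_rpow_neg_atTop hη
    have h3 : Tendsto (fun x : ℝ => ((Real.log A / Real.log 2 + 1) * K) * x ^ (-η) +
        (d / Real.log 2 * K) * (Real.log x * x ^ (-η))) atTop (𝓝 0) := by
      have := (h2.const_mul ((Real.log A / Real.log 2 + 1) * K)).add
        (h1.const_mul (d / Real.log 2 * K))
      simpa using this
    refine (h3.comp tendsto_natCast_atTop_atTop).congr ?_
    intro X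
    simp only [Function.comp_apply]
    ring
  refine squeeze_zero' (Eventually.of_forall fun X => by positivity) ?_ hlim
  filter_upwards [eventually_ge_atTop (max X0 1)] with X hX
  have hX1 : 1 ≤ X := le_trans (le_max_right _ _) hX
  have hXpos : (0 : ℝ) < X := by exact_mod_cast hX1
  have hApos : (0 : ℝ) < A := by rw [hA]; push_cast; positivity
  have hlog : (Nat.log 2 (A * X ^ d) : ℝ) ≤ (Real.log A + d * Real.log X) / Real.log 2 := by
    have h1 : (Nat.log 2 (A * X ^ d) : ℝ) ≤ Real.logb 2 ((A * X ^ d : ℕ) : ℝ) :=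
      Real.natLog_le_logb _ _
    refine h1.trans (le_of_eq ?_)
    rw [Real.logb]
    push_cast
    rw [Real.log_mul hApos.ne' (by positivity), Real.log_pow]
  rw [div_le_iff₀ hXpos]
  refine (htail X hX).trans ?_
  have h4 : (X : ℝ) ^ (1 - η) = (X : ℝ) ^ (-η) * X := by
    rw [sub_eq_add_neg, add_comm, Real.rpow_add hXpos, Real.rpow_one]
  rw [h4]
  have h5 : 0 ≤ K * ((X : ℝ) ^ (-η) * X) := by positivity
  calc ((Nat.log 2 (A * X ^ d) : ℝ) + 1) * (K * ((X : ℝ) ^ (-η) * X))
      ≤ ((Real.log A + d * Real.log X) / Real.log 2 + 1) * (K * ((X : ℝ) ^ (-η) * X)) := by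
        apply mul_le_mul_of_nonneg_right _ h5
        linarith
    _ = _ := by ring

end Vale.Agent.P018
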