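import Vale.Agent.P018.Sieve
import Vale.Agent.P018.TailLarge
import Vale.Agent.P018.TailOfPairs
import Vale.Agent.P018.PairsFinal

/-! The asymptotic formula for `k`-free values when `9 k ≥ 5 deg f + 3`. -/

namespace Vale.Agent.P018

open Polynomial Filter Topology Asymptotics

/-- The tail for `k < d` and `9 k ≥ 5 d + 3`. -/
theorem tail_small_k (f : ℤ[X]) (hirr : Irreducible (f.map (Int.castRingHom ℚ))) (k : ℕ)
    (hk : 2 ≤ k) (hkd : k < f.natDegree) (hr : 5 * f.natDegree + 3 ≤ 9 * k) :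
    Tendsto (fun X : ℕ => (tail f k X : ℝ) / X) atTop (𝓝 0) :=
  tail_of_pairs f hirr k hk hkd (fun A hA => pairs_bound f hirr k hk hkd hr A hA)

theorem main (f : ℤ[X]) (k : ℕ) (hk : 2 ≤ k)
    (hirr : Irreducible (f.map (Int.castRingHom ℚ)))
    (hloc : ∀ p : ℕ, p.Prime → rho f (p ^ k) < p ^ k)
    (hr : 5 * f.natDegree + 3 ≤ 9 * k) :
    0 < density f k ∧
    (fun X : ℕ => (countPF f k X : ℝ) - density f k * X) =o[atTop] (fun X : ℕ => (X : ℝ)) := by
  refine sieve_main f k hk hirr hloc ?_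
  rcases lt_or_ge k f.natDegree with h | h
  · exact tail_small_k f hirr k hk h hr
  · exact tail_large_k f hirr k hk h

end Vale.Agent.P018
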