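import Mathlib
import Vale.Agent.P018.Weights

/-! Counting estimates for the determinant method with rescaled columns. -/

namespace Vale.Agent.P018

open Finset

theorem sum_id_real (n : ℕ) : ∑ c ∈ range (n + 1), (c : ℝ) = (n : ℝ) * (n + 1) / 2 := by
  induction n with
  | zero => simp
  | succ n ih =>
    rw [Finset.sum_range_succ, ih]
    push_cast
    ring

theorem sum_sq_real (n : ℕ) : ∑ c ∈ range (n + 1), (c : ℝ) ^ 2 =
    (n : ℝ) * (n + 1) * (2 * n + 1) / 6 := by
  induction n with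
  | zero => simp
  | succ n ih =>
    rw [Finset.sum_range_succ, ih]
    push_cast
    ring

theorem sum_mul_sub_real (n : ℕ) : ∑ c ∈ range (n + 1), (c : ℝ) * ((n : ℝ) - c) =
    ((n : ℝ) ^ 3 - n) / 6 := by
  have h1 : ∀ c ∈ range (n + 1), (c : ℝ) * ((n : ℝ) - c) = (n : ℝ) * c - (c : ℝ) ^ 2 := by
    intro c _
    ring
  rw [Finset.sum_congr rfl h1, Finset.sum_sub_distrib, ← Finset.mul_sum, sum_id_real, sum_sq_real]
  ring

/-- lower bound for the sum of `k c - b` over the index set. -/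
theorem sum_idx_ge (d h k M : ℕ) (hh : 1 ≤ h) (hM : d ≤ M) :
    (d : ℝ) * ((k : ℝ) * h * (((M : ℝ) - d) ^ 3 - ((M : ℝ) - d)) / 6 -
      ((h : ℝ) ^ 2 * (M * (M + 1) * (2 * M + 1)) / 12 + h * (M * (M + 1)) / 4)) ≤
    ∑ t ∈ idx d h (h * M), ((k : ℝ) * (t.2.2 : ℝ) - (t.2.1 : ℝ)) := by
  have h1 : ∑ t ∈ idx d h (h * M), ((k : ℝ) * (t.2.2 : ℝ) - (t.2.1 : ℝ)) =
      ∑ a ∈ range d, ∑ c ∈ range (h * M + 1), ∑ b ∈ (range (h * M + 1)).filter
        (fun b => a + b + h * c ≤ h * M), ((k : ℝ) * (c : ℝ) - (b : ℝ)) := by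
    unfold idx
    rw [Finset.sum_filter, Finset.sum_product]
    refine Finset.sum_congr rfl fun a _ => ?_
    rw [Finset.sum_product_right]
    refine Finset.sum_congr rfl fun c _ => ?_
    rw [Finset.sum_filter]
  rw [h1]
  have h2 : ∀ a ∈ range d, ((k : ℝ) * h * (((M : ℝ) - d) ^ 3 - ((M : ℝ) - d)) / 6 -
      ((h : ℝ) ^ 2 * (M * (M + 1) * (2 * M + 1)) / 12 + h * (M * (M + 1)) / 4)) ≤
      ∑ c ∈ range (h * M + 1), ∑ b ∈ (range (h * M + 1)).filter
        (fun b => a + b + h * c ≤ h * M), ((k : ℝ) * (c : ℝ) - (b : ℝ)) := by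
    intro a ha
    rw [mem_range] at ha
    -- split the sum
    have h3 : ∀ c ∈ range (h * M + 1),
        (if c < M - d + 1 then (k : ℝ) * h * ((c : ℝ) * (((M - d : ℕ) : ℝ) - c)) else 0) -
        (if c < M + 1 then ((h : ℝ) ^ 2 * ((M : ℝ) - c) ^ 2 + h * ((M : ℝ) - c)) / 2 else 0) ≤
        ∑ b ∈ (range (h * M + 1)).filter
          (fun b => a + b + h * c ≤ h * M), ((k : ℝ) * (c : ℝ) - (b : ℝ)) := by
      intro c _
      rw [Finset.sum_sub_distrib]
      apply sub_le_sub
      · rw [Finset.sum_const, nsmul_eq_mul]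
        split_ifs with hc
        · have hsub : range (h * (M - d - c)) ⊆ (range (h * M + 1)).filter
              (fun b => a + b + h * c ≤ h * M) := by
            intro b hb
            rw [mem_range] at hb
            rw [mem_filter, mem_range]
            have e1 : h * (M - d - c) + h * d + h * c = h * M := by
              rw [← mul_add, ← mul_add]
              congr 1
              omega
            have e2 : d ≤ h * d := Nat.le_mul_of_pos_left _ hh
            constructor <;> omega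
          have hcard := Finset.card_le_card hsub
          rw [card_range] at hcard
          have hcard' : ((h * (M - d - c) : ℕ) : ℝ) ≤ (((range (h * M + 1)).filter
              (fun b => a + b + h * c ≤ h * M)).card : ℝ) := by exact_mod_cast hcard
          have e3 : ((h * (M - d - c) : ℕ) : ℝ) = (h : ℝ) * (((M - d : ℕ) : ℝ) - c) := by
            push_cast [Nat.cast_sub (show c ≤ M - d by omega)]
            rfl
          rw [e3] at hcard'
          calc (k : ℝ) * h * ((c : ℝ) * (((M - d : ℕ) : ℝ) - c))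
              = ((h : ℝ) * (((M - d : ℕ) : ℝ) - c)) * ((k : ℝ) * c) := by ring
            _ ≤ _ := mul_le_mul_of_nonneg_right hcard' (by positivity)
        · positivity
      · split_ifs with hc
        · have hsub : (range (h * M + 1)).filter (fun b => a + b + h * c ≤ h * M) ⊆
              range (h * (M - c) + 1) := by
            intro b hb
            rw [mem_filter, mem_range] at hb
            rw [mem_range]
            have e1 : h * (M - c) + h * c = h * M := by
              rw [← mul_add]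
              congr 1
              omega
            omega
          calc ∑ b ∈ (range (h * M + 1)).filter (fun b => a + b + h * c ≤ h * M), (b : ℝ)
              ≤ ∑ b ∈ range (h * (M - c) + 1), (b : ℝ) :=
                Finset.sum_le_sum_of_subset_of_nonneg hsub (fun _ _ _ => by positivity)
            _ = ((h : ℝ) ^ 2 * ((M : ℝ) - c) ^ 2 + h * ((M : ℝ) - c)) / 2 := by
                rw [sum_id_real]
                push_cast [Nat.cast_sub (show c ≤ M by omega)]
                ring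
        · apply le_of_eq
          apply Finset.sum_eq_zero
          intro b hb
          exfalso
          rw [mem_filter] at hb
          have : h * (M + 1) ≤ h * c := Nat.mul_le_mul_left _ (by omega)
          have h5 : h * (M + 1) = h * M + h := by ring
          omega
    refine le_trans ?_ (Finset.sum_le_sum h3)
    rw [Finset.sum_sub_distrib]
    apply sub_le_sub
    · rw [← Finset.sum_filter]
      have hf : (range (h * M + 1)).filter (fun c => c < M - d + 1) = range (M - d + 1) := by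
        ext c
        rw [mem_filter, mem_range, mem_range]
        have : M ≤ h * M := Nat.le_mul_of_pos_left _ hh
        constructor
        · exact fun h => h.2
        · intro h
          constructor <;> omega
      rw [hf, ← Finset.mul_sum, sum_mul_sub_real, Nat.cast_sub hM]
      apply le_of_eq
      ring
    · rw [← Finset.sum_filter]
      have hf : (range (h * M + 1)).filter (fun c => c < M + 1) = range (M + 1) := by
        ext c
        rw [mem_filter, mem_range, mem_range]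
        have : M ≤ h * M := Nat.le_mul_of_pos_left _ hh
        constructor
        · exact fun h => h.2
        · intro h
          constructor <;> omega
      rw [hf]
      have e4 : ∑ c ∈ range (M + 1), ((h : ℝ) ^ 2 * ((M : ℝ) - c) ^ 2 + h * ((M : ℝ) - c)) / 2 =
          ∑ c ∈ range (M + 1), ((h : ℝ) ^ 2 * (c : ℝ) ^ 2 + h * (c : ℝ)) / 2 := by
        rw [← Finset.sum_range_reflect]
        refine Finset.sum_congr rfl fun c hc => ?_
        rw [mem_range] at hc
        have : ((M + 1 - 1 - c : ℕ) : ℝ) = (M : ℝ) - c := by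
          rw [Nat.add_sub_cancel, Nat.cast_sub (by omega)]
        rw [this]
        ring
      rw [e4, ← Finset.sum_div, Finset.sum_add_distrib, ← Finset.mul_sum, ← Finset.mul_sum,
        sum_id_real, sum_sq_real]
      apply le_of_eq
      ring
  calc (d : ℝ) * ((k : ℝ) * h * (((M : ℝ) - d) ^ 3 - ((M : ℝ) - d)) / 6 -
      ((h : ℝ) ^ 2 * (M * (M + 1) * (2 * M + 1)) / 12 + h * (M * (M + 1)) / 4))
      = ∑ _a ∈ range d, ((k : ℝ) * h * (((M : ℝ) - d) ^ 3 - ((M : ℝ) - d)) / 6 -
      ((h : ℝ) ^ 2 * (M * (M + 1) * (2 * M + 1)) / 12 + h * (M * (M + 1)) / 4)) := by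
        rw [Finset.sum_const, card_range, nsmul_eq_mul]
    _ ≤ _ := Finset.sum_le_sum h2

/-- Choice of `D` at both ends of the range. -/
theorem exists_D2 (d h k : ℕ) (hh : 1 ≤ h) (hk : 1 ≤ k) (hkh : k + h = d) (x0 x1 : ℝ)
    (hx0 : 9 * (h : ℝ) / (4 * d) < x0)
    (hx1 : 9 * (h : ℝ) / (4 * d) * (((k : ℝ) + d) / (3 * k)) ^ 2 < x1) :
    ∃ D : ℕ, 1 ≤ D ∧ ∀ T : Finset (Fin 2 →₀ ℕ),
      (∑ t ∈ T, max 0 ((3 / 2 * (D : ℝ)) - (x0 * (t 0 : ℕ) + (t 1 : ℕ))) <
        ((idx d h D).card : ℝ) * ((D : ℝ) / 2)) ∧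
      (∑ t ∈ T, max 0 ((3 / 2 * (D : ℝ) * (((k : ℝ) + d) / (3 * k))) -
          (x1 * (t 0 : ℕ) + (t 1 : ℕ))) <
        ((h : ℝ) / k) * ∑ t ∈ idx d h D, ((k : ℝ) * (t.2.2 : ℝ) - (t.2.1 : ℝ)) +
        ((idx d h D).card : ℝ) * (D * (3 / 2 * (((k : ℝ) + d) / (3 * k)) - 1))) := by
  have hh' : (0 : ℝ) < h := by exact_mod_cast hh
  have hk' : (0 : ℝ) < k := by exact_mod_cast hk
  have hd : 1 ≤ d := by omega
  have hd' : (0 : ℝ) < d := by exact_mod_cast hd
  have hkd : (k : ℝ) + h = d := by exact_mod_cast hkh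
  have hx0p : 0 < x0 := lt_trans (by positivity) hx0
  have hx1p : 0 < x1 := lt_trans (by positivity) hx1
  generalize hρ : ((k : ℝ) + d) / (3 * k) = ρ at hx1
  have hρ0 : 0 < ρ := by rw [← hρ]; positivity
  have hρk : ρ * (3 * k) = k + d := by
    rw [← hρ]
    field_simp
  have hρ1 : 0 < 3 / 2 * ρ - 1 := by
    have : 3 / 2 * ρ - 1 = h / (2 * k) := by
      rw [eq_div_iff (by positivity)]
      nlinarith
    rw [this]
    positivity
  -- the two functions of `y = 1 / M`
  let G0 : ℝ → ℝ := fun y => (d : ℝ) * ((h : ℝ) - d * y) ^ 2 / (2 * h) * (h / 2) -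
    (3 / 2 * (h : ℝ) + (1 + x0) * y) ^ 3 / (6 * x0)
  let G1 : ℝ → ℝ := fun y => ((h : ℝ) / k) * ((d : ℝ) * ((k : ℝ) * h * ((1 - d * y) ^ 3 -
      (1 - d * y) * y ^ 2) / 6 - ((h : ℝ) ^ 2 * ((1 + y) * (2 + y)) / 12 + h * ((1 + y) * y) / 4))) +
      (d : ℝ) * ((h : ℝ) - d * y) ^ 2 / (2 * h) * (h * (3 / 2 * ρ - 1)) -
      (3 / 2 * (h : ℝ) * ρ + (1 + x1) * y) ^ 3 / (6 * x1)
  have hG0c : Continuous G0 := by
    simp only [G0]
    fun_prop
  have hG1c : Continuous G1 := by
    simp only [G1]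
    fun_prop
  have hG00 : 0 < G0 0 := by
    have h1 : G0 0 = (h : ℝ) ^ 2 * ((d : ℝ) / 4 - 9 * h / (16 * x0)) := by
      simp only [G0]
      field_simp
      ring
    rw [h1]
    apply mul_pos (by positivity)
    rw [sub_pos, div_lt_div_iff₀ (by positivity) (by positivity)]
    rw [div_lt_iff₀ (by positivity)] at hx0
    nlinarith
  have hG10 : 0 < G1 0 := by
    have h1 : G1 0 = (h : ℝ) ^ 2 * ρ * ((d : ℝ) / 4 - 9 * h * ρ ^ 2 / (16 * x1)) := by
      have h2 : (h : ℝ) / k * ((d : ℝ) * ((k : ℝ) * h / 6 - (h : ℝ) ^ 2 * 2 / 12)) +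
        (d : ℝ) * (h : ℝ) ^ 2 / (2 * h) * (h * (3 / 2 * ρ - 1)) = (h : ℝ) ^ 2 * ρ * (d / 4) := by
        have h3 : ρ = (k + d) / (3 * k) := hρ.symm
        rw [h3, ← hkd]
        field_simp
        ring
      have h4 : G1 0 = ((h : ℝ) / k * ((d : ℝ) * ((k : ℝ) * h / 6 - (h : ℝ) ^ 2 * 2 / 12)) +
        (d : ℝ) * (h : ℝ) ^ 2 / (2 * h) * (h * (3 / 2 * ρ - 1))) -
        (3 / 2 * (h : ℝ) * ρ) ^ 3 / (6 * x1) := by
        simp only [G1]
        ring
      rw [h4, h2]
      field_simp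
      ring
    rw [h1]
    apply mul_pos (by positivity)
    rw [sub_pos, div_lt_div_iff₀ (by positivity) (by positivity)]
    rw [div_mul_eq_mul_div, div_lt_iff₀ (by positivity)] at hx1
    nlinarith
  have hinv : Filter.Tendsto (fun M : ℕ => ((M : ℝ))⁻¹) Filter.atTop (nhds 0) :=
    tendsto_inv_atTop_nhds_zero_nat
  have hev0 := ((hG0c.tendsto 0).comp hinv).eventually (lt_mem_nhds hG00)
  have hev1 := ((hG1c.tendsto 0).comp hinv).eventually (lt_mem_nhds hG10)
  obtain ⟨M, hM0, hM1, hM2⟩ := (hev0.and (hev1.and (Filter.eventually_ge_atTop (max d 1)))).exists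
  simp only [Function.comp_apply] at hM0 hM1
  have hdM : d ≤ M := le_trans (le_max_left _ _) hM2
  have hM3 : 1 ≤ M := le_trans (le_max_right _ _) hM2
  have hMp : (0 : ℝ) < M := by exact_mod_cast hM3
  have hMh : M ≤ h * M := Nat.le_mul_of_pos_left _ hh
  have hcard := card_idx_ge d h (h * M) hh (hdM.trans hMh)
  have hsum := sum_idx_ge d h k M hh hdM
  refine ⟨h * M, by omega, fun T => ⟨?_, ?_⟩⟩
  · refine (phi_bound x0 _ hx0p (by positivity) T).trans_lt ?_
    refine lt_of_lt_of_le ?_ (mul_le_mul_of_nonneg_right hcard (by positivity))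
    rw [← sub_pos]
    have h1 : (d : ℝ) * (((h * M : ℕ) : ℝ) - d) ^ 2 / (2 * h) * (((h * M : ℕ) : ℝ) / 2) -
      (3 / 2 * ((h * M : ℕ) : ℝ) + 1 + x0) ^ 3 / (6 * x0) = (M : ℝ) ^ 3 * G0 ((M : ℝ)⁻¹) := by
      simp only [G0]
      push_cast
      field_simp
      ring
    rw [h1]
    positivity
  · refine (phi_bound x1 _ hx1p (by positivity) T).trans_lt ?_
    have h5 : ((h : ℝ) / k) * ((d : ℝ) * ((k : ℝ) * h * (((M : ℝ) - d) ^ 3 - ((M : ℝ) - d)) / 6 -
      ((h : ℝ) ^ 2 * (M * (M + 1) * (2 * M + 1)) / 12 + h * (M * (M + 1)) / 4))) +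
      (d : ℝ) * (((h * M : ℕ) : ℝ) - d) ^ 2 / (2 * h) * (((h * M : ℕ) : ℝ) * (3 / 2 * ρ - 1)) ≤
      ((h : ℝ) / k) * ∑ t ∈ idx d h (h * M), ((k : ℝ) * (t.2.2 : ℝ) - (t.2.1 : ℝ)) +
        ((idx d h (h * M)).card : ℝ) * (((h * M : ℕ) : ℝ) * (3 / 2 * ρ - 1)) :=
      add_le_add (mul_le_mul_of_nonneg_left hsum (by positivity))
        (mul_le_mul_of_nonneg_right hcard (mul_nonneg (by positivity) hρ1.le))
    refine lt_of_lt_of_le ?_ h5
    rw [← sub_pos]
    have h1 : ((h : ℝ) / k) * ((d : ℝ) * ((k : ℝ) * h * (((M : ℝ) - d) ^ 3 - ((M : ℝ) - d)) / 6 -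
      ((h : ℝ) ^ 2 * (M * (M + 1) * (2 * M + 1)) / 12 + h * (M * (M + 1)) / 4))) +
      (d : ℝ) * (((h * M : ℕ) : ℝ) - d) ^ 2 / (2 * h) * (((h * M : ℕ) : ℝ) * (3 / 2 * ρ - 1)) -
      (3 / 2 * ((h * M : ℕ) : ℝ) * ρ + 1 + x1) ^ 3 / (6 * x1) = (M : ℝ) ^ 3 * G1 ((M : ℝ)⁻¹) := by
      simp only [G1]
      push_cast
      field_simp
      ring
    rw [h1]
    positivity

end Vale.Agent.P018
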