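import Mathlib
import Vale.Agent.P018.PatchMinor
import Vale.Agent.P018.Weights2

/-! All maximal minors vanish on a rescaled patch. -/

namespace Vale.Agent.P018

open Finset

/-- The rescaled basic identity. -/
theorem mono_eq2 (f : Polynomial ℤ) (k h D : ℕ) (hk : k + h = f.natDegree) (t : ℕ × ℕ × ℕ)
    (ht : t.1 + t.2.1 + h * t.2.2 ≤ D) (n p m : ℤ) (hp : p ≠ 0) (hm : p ^ k * m = f.eval n)
    (u0 V : ℝ) (hV : 0 < V) :
    ((n : ℝ) ^ t.1 * (p : ℝ) ^ t.2.1 * (m : ℝ) ^ t.2.2) =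
      (p : ℝ) ^ D * ((V⁻¹) ^ (D - t.2.1 + k * t.2.2) *
        evBP u0 ((n : ℝ) / p * V - u0) (1 / p * V) (Gh f h D t)) := by
  rw [mono_eq f k h D hk t ht n p m hp hm 0]
  congr 1
  rw [evBP_Gh, evBP_Gh]
  have h1 : u0 + ((n : ℝ) / p * V - u0) = (n : ℝ) / p * V := by ring
  have h2 : (0 : ℝ) + ((n : ℝ) / p - 0) = (n : ℝ) / p := by ring
  rw [h1, h2]
  generalize (n : ℝ) / p = A
  generalize (1 : ℝ) / p = w
  have h3 : ∑ t ∈ range (f.natDegree + 1), (f.coeff t : ℝ) * (A * V) ^ t *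
      (w * V) ^ (f.natDegree - t) = V ^ f.natDegree *
      ∑ t ∈ range (f.natDegree + 1), (f.coeff t : ℝ) * A ^ t * w ^ (f.natDegree - t) := by
    rw [Finset.mul_sum]
    refine Finset.sum_congr rfl fun t ht => ?_
    rw [mem_range] at ht
    have h4 : V ^ f.natDegree = V ^ t * V ^ (f.natDegree - t) := by
      rw [← pow_add]
      congr 1
      omega
    rw [h4, mul_pow, mul_pow]
    ring
  rw [h3]
  generalize (∑ t ∈ range (f.natDegree + 1), (f.coeff t : ℝ) * A ^ t * w ^ (f.natDegree - t)) = F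
  rw [mul_pow, mul_pow, mul_pow, ← pow_mul]
  have h5 : D - t.2.1 + k * t.2.2 = (D - (t.1 + t.2.1 + h * t.2.2)) + t.1 + f.natDegree * t.2.2 := by
    rw [← hk, add_mul]
    omega
  rw [h5, pow_add, pow_add]
  have hV' : V ≠ 0 := hV.ne'
  have e : ∀ a : ℕ, (V⁻¹) ^ a * V ^ a = 1 := fun a => by
    rw [← mul_pow, inv_mul_cancel₀ hV', one_pow]
  generalize D - (t.1 + t.2.1 + h * t.2.2) = e1
  generalize f.natDegree * t.2.2 = e3
  have h6 : (V⁻¹) ^ e1 * (V⁻¹) ^ t.1 * (V⁻¹) ^ e3 *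
      (w ^ e1 * V ^ e1 * (A ^ t.1 * V ^ t.1) * (V ^ e3 * F ^ t.2.2)) =
      ((V⁻¹) ^ e1 * V ^ e1) * ((V⁻¹) ^ t.1 * V ^ t.1) * ((V⁻¹) ^ e3 * V ^ e3) *
      (w ^ e1 * A ^ t.1 * F ^ t.2.2) := by ring
  rw [h6, e, e, e]
  ring

theorem phi_convex (T : Finset (Fin 2 →₀ ℕ)) (x0 x1 z0 z1 l : ℝ) (hl0 : 0 ≤ l) (hl1 : l ≤ 1) :
    ∑ t ∈ T, max 0 (((1 - l) * z0 + l * z1) -
      (((1 - l) * x0 + l * x1) * (t 0 : ℕ) + (t 1 : ℕ))) ≤
    (1 - l) * ∑ t ∈ T, max 0 (z0 - (x0 * (t 0 : ℕ) + (t 1 : ℕ))) +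
      l * ∑ t ∈ T, max 0 (z1 - (x1 * (t 0 : ℕ) + (t 1 : ℕ))) := by
  rw [Finset.mul_sum, Finset.mul_sum, ← Finset.sum_add_distrib]
  refine Finset.sum_le_sum fun t _ => ?_
  apply max_le
  · have h1 := le_max_left (0 : ℝ) (z0 - (x0 * (t 0 : ℕ) + (t 1 : ℕ)))
    have h2 := le_max_left (0 : ℝ) (z1 - (x1 * (t 0 : ℕ) + (t 1 : ℕ)))
    have h3 : 0 ≤ 1 - l := by linarith
    positivity
  · have h1 := mul_le_mul_of_nonneg_left
      (le_max_right (0 : ℝ) (z0 - (x0 * (t 0 : ℕ) + (t 1 : ℕ))))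
      (show 0 ≤ 1 - l by linarith)
    have h2 := mul_le_mul_of_nonneg_left
      (le_max_right (0 : ℝ) (z1 - (x1 * (t 0 : ℕ) + (t 1 : ℕ)))) hl0
    have h3 : ((1 - l) * z0 + l * z1) - (((1 - l) * x0 + l * x1) * (t 0 : ℕ) + (t 1 : ℕ)) =
      (1 - l) * (z0 - (x0 * (t 0 : ℕ) + (t 1 : ℕ))) +
      l * (z1 - (x1 * (t 0 : ℕ) + (t 1 : ℕ))) := by
      ring
    rw [h3]
    linarith

theorem prod_W (d h D k : ℕ) (hh : 1 ≤ h) (V : ℝ) (hVpos : 0 < V) :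
    ∏ j : idx d h D, (V⁻¹) ^ (D - (j : ℕ × ℕ × ℕ).2.1 + k * (j : ℕ × ℕ × ℕ).2.2) =
      V ^ (-(((idx d h D).card : ℝ) * D +
        ∑ t ∈ idx d h D, ((k : ℝ) * (t.2.2 : ℝ) - (t.2.1 : ℝ)))) := by
  have h1 : ∀ j : idx d h D, (V⁻¹) ^ (D - (j : ℕ × ℕ × ℕ).2.1 + k * (j : ℕ × ℕ × ℕ).2.2) =
      V ^ (-((D : ℝ) + ((k : ℝ) * ((j : ℕ × ℕ × ℕ).2.2 : ℝ) - ((j : ℕ × ℕ × ℕ).2.1 : ℝ)))) := by
    intro j
    have hj := (mem_idx hh).mp j.2
    rw [Real.rpow_neg hVpos.le, ← Real.inv_rpow hVpos.le, ← Real.rpow_natCast]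
    congr 1
    push_cast [Nat.cast_sub (show (j : ℕ × ℕ × ℕ).2.1 ≤ D by omega)]
    ring
  simp_rw [h1]
  rw [← Real.rpow_sum_of_pos hVpos]
  congr 1
  rw [Finset.sum_neg_distrib, Finset.sum_add_distrib]
  congr 1
  congr 1
  · rw [Finset.sum_const, Finset.card_univ, Fintype.card_coe, nsmul_eq_mul]
  · rw [← Finset.sum_coe_sort (idx d h D)]

theorem exp_combine (X P : ℝ) (hX : 1 ≤ X) (s D : ℕ) (S t : ℝ) (hPX : P = X ^ (1 + t)) :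
    P ^ (D * s) * (P / X) ^ (-((s : ℝ) * D + S)) = X ^ ((s : ℝ) * D - t * S) := by
  have hXpos : 0 < X := by linarith
  have hPpos : 0 < P := by rw [hPX]; positivity
  have h4 : P ^ (D * s) = P ^ ((s : ℝ) * D) := by
    rw [← Real.rpow_natCast]
    congr 1
    push_cast
    ring
  have h5 : (P / X) ^ (-((s : ℝ) * D + S)) = P ^ (-((s : ℝ) * D + S)) *
      X ^ ((s : ℝ) * D + S) := by
    rw [Real.div_rpow hPpos.le hXpos.le, div_eq_mul_inv,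
      ← Real.rpow_neg hXpos.le, neg_neg]
  rw [h4, h5]
  have h6 : P ^ ((s : ℝ) * D) * (P ^ (-((s : ℝ) * D + S)) *
      X ^ ((s : ℝ) * D + S)) = P ^ (-S) * X ^ ((s : ℝ) * D + S) := by
    rw [← mul_assoc, ← Real.rpow_add hPpos]
    congr 2
    ring
  rw [h6, hPX, ← Real.rpow_mul hXpos.le, ← Real.rpow_add hXpos]
  congr 1
  ring

/-- The size of the determinant in a rescaled patch. -/
theorem det_patch2 (f : Polynomial ℤ) (k h : ℕ) (hh : 1 ≤ h)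
    (hkh : k + h = f.natDegree) (D : ℕ) (T : Finset (Fin 2 →₀ ℕ)) (β : ℝ) (hβ0 : 0 ≤ β)
    (X P : ℕ) (hX1 : 1 ≤ X) (hXP : X ≤ P) (t x z u0 : ℝ)
    (hPX : (P : ℝ) = (X : ℝ) ^ (1 + t))
    (hT1 : ∀ t (j : idx f.natDegree h D),
      |(MvPolynomial.coeff t (Gh f h D (j : ℕ × ℕ × ℕ))).eval u0| * (if t ∈ T then 1 else 0) ≤ β)
    (hT2 : ∀ v w : ℝ, ∀ j : idx f.natDegree h D, evBP u0 v w (Gh f h D (j : ℕ × ℕ × ℕ)) =
        ∑ t ∈ T, (v ^ (t 0) * w ^ (t 1)) *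
          (MvPolynomial.coeff t (Gh f h D (j : ℕ × ℕ × ℕ))).eval u0)
    (n p m : (idx f.natDegree h D) → ℤ)
    (hz : ∀ i, (P : ℤ) < p i ∧ p i ≤ 2 * P ∧
        |(n i : ℝ) / p i * ((P : ℝ) / X) - u0| ≤ (X : ℝ) ^ (-x) ∧
        (p i) ^ k * m i = f.eval (n i)) :
    |(((Matrix.of fun i (j : idx f.natDegree h D) =>
        (n i) ^ (j : ℕ × ℕ × ℕ).1 * (p i) ^ (j : ℕ × ℕ × ℕ).2.1 *
        (m i) ^ (j : ℕ × ℕ × ℕ).2.2).det : ℤ) : ℝ)| ≤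
      (2 : ℝ) ^ (D * (idx f.natDegree h D).card) * ((Fintype.card T : ℝ) ^ (idx f.natDegree h D).card
        * (β ^ (idx f.natDegree h D).card * ((idx f.natDegree h D).card.factorial : ℝ))) *
      (X : ℝ) ^ (((idx f.natDegree h D).card : ℝ) * D -
        t * (∑ t ∈ idx f.natDegree h D, ((k : ℝ) * (t.2.2 : ℝ) - (t.2.1 : ℝ))) -
        (((idx f.natDegree h D).card : ℝ) * z -
          ∑ t ∈ T, max 0 (z - (x * (t 0 : ℕ) + (t 1 : ℕ))))) := by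
  classical
  set s : ℕ := (idx f.natDegree h D).card with hs
  have hcardJ : Fintype.card (idx f.natDegree h D) = s := Fintype.card_coe _
  set S : ℝ := ∑ t ∈ idx f.natDegree h D, ((k : ℝ) * (t.2.2 : ℝ) - (t.2.1 : ℝ)) with hS
  set Φ : ℝ := ∑ t ∈ T, max 0 (z - (x * (t 0 : ℕ) + (t 1 : ℕ))) with hΦ
  have hX1' : (1 : ℝ) ≤ X := by exact_mod_cast hX1
  have hXpos : (0 : ℝ) < X := by linarith
  have hXPr : (X : ℝ) ≤ P := by exact_mod_cast hXP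
  have hPpos : (0 : ℝ) < P := by linarith
  set V : ℝ := (P : ℝ) / X with hV
  have hVpos : 0 < V := by positivity
  set M : Matrix (idx f.natDegree h D) (idx f.natDegree h D) ℤ :=
    Matrix.of fun i (j : idx f.natDegree h D) =>
        (n i) ^ (j : ℕ × ℕ × ℕ).1 * (p i) ^ (j : ℕ × ℕ × ℕ).2.1 * (m i) ^ (j : ℕ × ℕ × ℕ).2.2
    with hM
  have hcast : ((M.det : ℤ) : ℝ) = (M.map (Int.castRingHom ℝ)).det := by
    have h9 := RingHom.map_det (Int.castRingHom ℝ) M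
    rw [RingHom.mapMatrix_apply] at h9
    exact h9
  let A : (idx f.natDegree h D) → T → ℝ := fun i t =>
    ((n i : ℝ) / p i * V - u0) ^ ((t : Fin 2 →₀ ℕ) 0) * (1 / (p i : ℝ) * V) ^ ((t : Fin 2 →₀ ℕ) 1)
  let B : T → (idx f.natDegree h D) → ℝ := fun t j =>
    (MvPolynomial.coeff (t : Fin 2 →₀ ℕ) (Gh f h D (j : ℕ × ℕ × ℕ))).eval u0
  let W : (idx f.natDegree h D) → ℝ := fun j =>
    (V⁻¹) ^ (D - (j : ℕ × ℕ × ℕ).2.1 + k * (j : ℕ × ℕ × ℕ).2.2)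
  have hfac : M.map (Int.castRingHom ℝ) = Matrix.of fun i j => (fun i => ((p i : ℝ)) ^ D) i *
      (Matrix.of fun i j => W j * (Matrix.of fun i j => ∑ t, A i t * B t j) i j) i j := by
    ext i j
    have hj := (mem_idx hh).mp j.2
    have hpi : p i ≠ 0 := by
      have := (hz i).1
      have h0 : (0 : ℤ) ≤ P := by positivity
      omega
    simp only [hM, Matrix.map_apply, Matrix.of_apply, eq_intCast, Int.cast_mul, Int.cast_pow]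
    rw [mono_eq2 f k h D hkh (j : ℕ × ℕ × ℕ) hj.2 (n i) (p i) (m i) hpi (hz i).2.2.2 u0 V hVpos]
    rw [hT2]
    congr 1
    congr 1
    rw [← Finset.sum_coe_sort T]
  have hprodW : ∏ j, W j = V ^ (-((s : ℝ) * D + S)) := prod_W f.natDegree h D k hh V hVpos
  have hW0 : 0 ≤ ∏ j, W j := by
    rw [hprodW]
    positivity
  rw [hcast, hfac, Matrix.det_mul_column, Matrix.det_mul_row, abs_mul, abs_mul, abs_of_nonneg hW0]
  have h1 : |∏ i, (p i : ℝ) ^ D| ≤ (2 * (P : ℝ)) ^ (D * s) := by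
    rw [Finset.abs_prod]
    calc ∏ i, |(p i : ℝ) ^ D| ≤ ∏ _i : (idx f.natDegree h D), (2 * (P : ℝ)) ^ D := by
          refine Finset.prod_le_prod (fun _ _ => abs_nonneg _) fun i _ => ?_
          rw [abs_pow]
          refine pow_le_pow_left₀ (abs_nonneg _) ?_ _
          have h2 : (p i : ℝ) ≤ 2 * P := by exact_mod_cast (hz i).2.1
          have h3 : (P : ℝ) < p i := by exact_mod_cast (hz i).1
          rw [abs_of_pos (by linarith)]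
          exact h2
      _ = (2 * (P : ℝ)) ^ (D * s) := by
          rw [Finset.prod_const, ← pow_mul, Finset.card_univ, hcardJ]
  have h2 := det_bound A B
    (fun t => (X : ℝ) ^ (-(x * ((t : Fin 2 →₀ ℕ) 0 : ℕ) + ((t : Fin 2 →₀ ℕ) 1 : ℕ)))) β
    ((X : ℝ) ^ (-((Fintype.card (idx f.natDegree h D) : ℝ) * z - Φ)))
    ?_ ?_ (by positivity) ?_
  · rw [hcardJ] at h2
    calc |∏ i, (p i : ℝ) ^ D| * ((∏ j, W j) * |(Matrix.of fun i j => ∑ t, A i t * B t j).det|)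
        ≤ (2 * (P : ℝ)) ^ (D * s) * ((∏ j, W j) * ((Fintype.card T : ℝ) ^ s *
            (β ^ s * ((s.factorial : ℝ) * (X : ℝ) ^ (-((s : ℝ) * z - Φ)))))) :=
          mul_le_mul h1 (mul_le_mul_of_nonneg_left h2 hW0)
            (mul_nonneg hW0 (abs_nonneg _)) (by positivity)
      _ = (2 : ℝ) ^ (D * s) * ((Fintype.card T : ℝ) ^ s * (β ^ s * (s.factorial : ℝ))) *
            (((P : ℝ) ^ (D * s) * V ^ (-((s : ℝ) * D + S))) *
            (X : ℝ) ^ (-((s : ℝ) * z - Φ))) := by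
          rw [hprodW, mul_pow]
          ring
      _ = (2 : ℝ) ^ (D * s) * ((Fintype.card T : ℝ) ^ s * (β ^ s * (s.factorial : ℝ))) *
            (X : ℝ) ^ ((s : ℝ) * D - t * S - ((s : ℝ) * z - Φ)) := by
          rw [hV, exp_combine X P hX1' s D S t hPX, ← Real.rpow_add hXpos]
          congr 1
  · intro i t
    simp only [A]
    rw [abs_mul, abs_pow, abs_pow]
    have hpi : (P : ℝ) < p i := by exact_mod_cast (hz i).1
    have hpi0 : (0 : ℝ) < p i := by linarith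
    have e1 : |(n i : ℝ) / p i * V - u0| ≤ (X : ℝ) ^ (-x) := (hz i).2.2.1
    have e2 : |1 / (p i : ℝ) * V| ≤ (X : ℝ) ^ (-1 : ℝ) := by
      rw [abs_of_pos (by positivity), Real.rpow_neg_one, hV]
      have h7 : 1 / (p i : ℝ) * ((P : ℝ) / X) = (P / p i) * (X : ℝ)⁻¹ := by
        field_simp
      rw [h7]
      have h8 : (P : ℝ) / p i ≤ 1 := by
        rw [div_le_one hpi0]
        exact hpi.le
      calc (P : ℝ) / p i * (X : ℝ)⁻¹ ≤ 1 * (X : ℝ)⁻¹ :=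
            mul_le_mul_of_nonneg_right h8 (by positivity)
        _ = (X : ℝ)⁻¹ := one_mul _
    calc |(n i : ℝ) / p i * V - u0| ^ ((t : Fin 2 →₀ ℕ) 0) *
          |1 / (p i : ℝ) * V| ^ ((t : Fin 2 →₀ ℕ) 1)
        ≤ ((X : ℝ) ^ (-x)) ^ ((t : Fin 2 →₀ ℕ) 0) *
            ((X : ℝ) ^ (-1 : ℝ)) ^ ((t : Fin 2 →₀ ℕ) 1) :=
          mul_le_mul (pow_le_pow_left₀ (abs_nonneg _) e1 _)
            (pow_le_pow_left₀ (abs_nonneg _) e2 _) (by positivity) (by positivity)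
      _ = (X : ℝ) ^ (-(x * ((t : Fin 2 →₀ ℕ) 0 : ℕ) + ((t : Fin 2 →₀ ℕ) 1 : ℕ))) := by
          rw [← Real.rpow_natCast, ← Real.rpow_natCast, ← Real.rpow_mul hXpos.le,
            ← Real.rpow_mul hXpos.le, ← Real.rpow_add hXpos]
          congr 1
          ring
  · intro t j
    have := hT1 (t : Fin 2 →₀ ℕ) j
    simp only [t.2, if_true, mul_one] at this
    exact this
  · intro φ hφ
    exact prod_alpha_le T x X z hX1' φ hφ

theorem patch_minor2 (f : Polynomial ℤ) (k h : ℕ) (hh : 1 ≤ h) (hk : 1 ≤ k)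
    (hkh : k + h = f.natDegree) (x0 x1 : ℝ)
    (hx0 : 9 * (h : ℝ) / (4 * f.natDegree) < x0)
    (hx1 : 9 * (h : ℝ) / (4 * f.natDegree) * (((k : ℝ) + f.natDegree) / (3 * k)) ^ 2 < x1) :
    ∃ D X0 : ℕ, 1 ≤ X0 ∧ ∀ X P : ℕ, X0 ≤ X → X ≤ P → ∀ l : ℝ, 0 ≤ l → l ≤ 1 →
      (P : ℝ) = (X : ℝ) ^ (1 + l * ((h : ℝ) / k)) →
      ∀ u0 : ℝ, 0 ≤ u0 → u0 ≤ 2 → ∀ n p m : (idx f.natDegree h D) → ℤ,
      (∀ i, (P : ℤ) < p i ∧ p i ≤ 2 * P ∧
        |(n i : ℝ) / p i * ((P : ℝ) / X) - u0| ≤ (X : ℝ) ^ (-((1 - l) * x0 + l * x1)) ∧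
        (p i) ^ k * m i = f.eval (n i)) →
      (Matrix.of fun i (j : idx f.natDegree h D) =>
        (n i) ^ (j : ℕ × ℕ × ℕ).1 * (p i) ^ (j : ℕ × ℕ × ℕ).2.1 * (m i) ^ (j : ℕ × ℕ × ℕ).2.2).det
        = 0 := by
  classical
  obtain ⟨D, hD1, hD2⟩ := exists_D2 f.natDegree h k hh hk hkh x0 x1 hx0 hx1
  obtain ⟨T, β, hβ0, hT⟩ := taylor_rep (fun j : idx f.natDegree h D => Gh f h D (j : ℕ × ℕ × ℕ))
  obtain ⟨hg0, hg1⟩ := hD2 T
  generalize ((k : ℝ) + f.natDegree) / (3 * k) = ρ at hg1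
  generalize hKdef : (2 : ℝ) ^ (D * (idx f.natDegree h D).card) *
    ((Fintype.card T : ℝ) ^ (idx f.natDegree h D).card *
    (β ^ (idx f.natDegree h D).card * ((idx f.natDegree h D).card.factorial : ℝ))) = K
  have hK0 : 0 ≤ K := by rw [← hKdef]; positivity
  obtain ⟨γ, hγ0, hγa, hγb⟩ : ∃ γ : ℝ, 0 < γ ∧
      γ ≤ ((idx f.natDegree h D).card : ℝ) * ((D : ℝ) / 2) -
        ∑ t ∈ T, max 0 ((3 / 2 * (D : ℝ)) - (x0 * (t 0 : ℕ) + (t 1 : ℕ))) ∧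
      γ ≤ (h : ℝ) / k * (∑ t ∈ idx f.natDegree h D, ((k : ℝ) * (t.2.2 : ℝ) - (t.2.1 : ℝ))) +
        ((idx f.natDegree h D).card : ℝ) * (D * (3 / 2 * ρ - 1)) -
        ∑ t ∈ T, max 0 ((3 / 2 * (D : ℝ) * ρ) - (x1 * (t 0 : ℕ) + (t 1 : ℕ))) :=
    ⟨_, lt_min (sub_pos.mpr hg0) (sub_pos.mpr hg1), min_le_left _ _, min_le_right _ _⟩
  have hlim : Filter.Tendsto (fun X : ℕ => K * (X : ℝ) ^ (-γ)) Filter.atTop (nhds (K * 0)) := by
    refine Filter.Tendsto.const_mul _ ?_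
    exact (tendsto_rpow_neg_atTop hγ0).comp tendsto_natCast_atTop_atTop
  rw [mul_zero] at hlim
  obtain ⟨X0, hX0⟩ := Filter.eventually_atTop.mp (hlim.eventually (gt_mem_nhds one_pos))
  refine ⟨D, max X0 1, le_max_right _ _, ?_⟩
  intro X P hX hXP l hl0 hl1 hPX u0 hu0 hu2 n p m hz
  have hX1 : 1 ≤ X := le_trans (le_max_right _ _) hX
  have hX1' : (1 : ℝ) ≤ X := by exact_mod_cast hX1
  have hsmall : K * (X : ℝ) ^ (-γ) < 1 := hX0 X (le_trans (le_max_left _ _) hX)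
  obtain ⟨hT1, hT2⟩ := hT u0 hu0 hu2
  have hdet := det_patch2 f k h hh hkh D T β hβ0 X P hX1 hXP (l * ((h : ℝ) / k))
    ((1 - l) * x0 + l * x1) ((1 - l) * (3 / 2 * (D : ℝ)) + l * (3 / 2 * (D : ℝ) * ρ)) u0 hPX
    hT1 hT2 n p m hz
  have hconv := phi_convex T x0 x1 (3 / 2 * (D : ℝ)) (3 / 2 * (D : ℝ) * ρ) l hl0 hl1
  rw [hKdef] at hdet
  have hexp : ((idx f.natDegree h D).card : ℝ) * D - l * ((h : ℝ) / k) *
      (∑ t ∈ idx f.natDegree h D, ((k : ℝ) * (t.2.2 : ℝ) - (t.2.1 : ℝ))) -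
      (((idx f.natDegree h D).card : ℝ) *
        ((1 - l) * (3 / 2 * (D : ℝ)) + l * (3 / 2 * (D : ℝ) * ρ)) -
        ∑ t ∈ T, max 0 (((1 - l) * (3 / 2 * (D : ℝ)) + l * (3 / 2 * (D : ℝ) * ρ)) -
          (((1 - l) * x0 + l * x1) * (t 0 : ℕ) + (t 1 : ℕ)))) ≤ -γ := by
    have h1 := mul_le_mul_of_nonneg_left hγa (show 0 ≤ 1 - l by linarith)
    have h2 := mul_le_mul_of_nonneg_left hγb hl0
    linarith
  have hdetM := hdet.trans (mul_le_mul_of_nonneg_left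
    (Real.rpow_le_rpow_of_exponent_le hX1' hexp) hK0)
  have hdetM' := hdetM.trans_lt hsmall
  have hint : |(Matrix.of fun i (j : idx f.natDegree h D) =>
        (n i) ^ (j : ℕ × ℕ × ℕ).1 * (p i) ^ (j : ℕ × ℕ × ℕ).2.1 *
        (m i) ^ (j : ℕ × ℕ × ℕ).2.2).det| < 1 := by exact_mod_cast hdetM'
  exact Int.abs_lt_one_iff.mp hint

end Vale.Agent.P018
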