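import Mathlib
import Vale.Agent.P018.Patch
import Vale.Agent.P018.PatchMinor2

/-! The points of a rescaled patch lie on a curve of bounded degree. -/

namespace Vale.Agent.P018

open Finset Polynomial

theorem patch_curve2 (f : ℤ[X]) (k : ℕ) (hk1 : 1 ≤ k) (hkd : k < f.natDegree) (x0 x1 : ℝ)
    (hx0 : 9 * ((f.natDegree : ℝ) - k) / (4 * f.natDegree) < x0)
    (hx1 : 9 * ((f.natDegree : ℝ) - k) / (4 * f.natDegree) *
      (((k : ℝ) + f.natDegree) / (3 * k)) ^ 2 < x1) :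
    ∃ Δ X0 : ℕ, ∀ X P : ℕ, X0 ≤ X → X ≤ P → ∀ l : ℝ, 0 ≤ l → l ≤ 1 →
      (P : ℝ) = (X : ℝ) ^ (1 + l * (((f.natDegree : ℝ) - k) / k)) →
      ∀ u0 : ℝ, 0 ≤ u0 → u0 ≤ 2 → ∀ Z : Finset (ℤ × ℤ),
      (∀ z ∈ Z, (P : ℤ) < z.2 ∧ z.2 ≤ 2 * P ∧
        |(z.1 : ℝ) / z.2 * ((P : ℝ) / X) - u0| ≤ (X : ℝ) ^ (-((1 - l) * x0 + l * x1)) ∧
        z.2 ^ k ∣ f.eval z.1) →
      ∃ C : MvPolynomial (Fin 2) ℚ, C ≠ 0 ∧ C.totalDegree ≤ Δ ∧ ∀ z ∈ Z, evQ z C = 0 := by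
  classical
  obtain ⟨h, hh⟩ : ∃ h : ℕ, h = f.natDegree - k := ⟨_, rfl⟩
  have hh1 : 1 ≤ h := by omega
  have hkh : k + h = f.natDegree := by omega
  have hhr : (f.natDegree : ℝ) - k = (h : ℝ) := by
    rw [← hkh]
    push_cast
    ring
  rw [hhr] at hx0 hx1
  obtain ⟨D, X0, hX01, hmin⟩ := patch_minor2 f k h hh1 hk1 hkh x0 x1 hx0 hx1
  refine ⟨D + k * D + f.natDegree * D, X0, ?_⟩
  intro X P hX hXP l hl0 hl1 hPX u0 hu0 hu2 Z hZ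
  rw [hhr] at hPX
  have hm : ∀ z : Z, ∃ m : ℤ, (z : ℤ × ℤ).2 ^ k * m = f.eval (z : ℤ × ℤ).1 := by
    intro z
    obtain ⟨m, hm⟩ := (hZ z z.2).2.2.2
    exact ⟨m, hm.symm⟩
  choose m hm using hm
  obtain ⟨α, hα0, hα⟩ := exists_kernel (I := Z) (J := idx f.natDegree h D) (K := ℚ)
    (fun z j => ((z : ℤ × ℤ).1 : ℚ) ^ (j : ℕ × ℕ × ℕ).1 * ((z : ℤ × ℤ).2 : ℚ) ^ (j : ℕ × ℕ × ℕ).2.1 *
      (m z : ℚ) ^ (j : ℕ × ℕ × ℕ).2.2) (by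
      intro φ
      have h1 := hmin X P hX hXP l hl0 hl1 hPX u0 hu0 hu2
        (fun i => (φ i : ℤ × ℤ).1) (fun i => (φ i : ℤ × ℤ).2)
        (fun i => m (φ i)) (fun i => ⟨(hZ _ (φ i).2).1, (hZ _ (φ i).2).2.1, (hZ _ (φ i).2).2.2.1,
          hm (φ i)⟩)
      have h2 := congrArg (Int.castRingHom ℚ) h1
      rw [RingHom.map_det, map_zero] at h2
      rw [← h2]
      congr 1
      ext i j
      simp)
  refine ⟨∑ j, MvPolynomial.C (α j) * gpoly f k D (j : ℕ × ℕ × ℕ),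
    gpoly_sum_ne_zero f k h D hh1 (by omega) α hα0, ?_, ?_⟩
  · refine (MvPolynomial.totalDegree_finsetSum _ _).trans ?_
    refine Finset.sup_le fun j _ => ?_
    refine (MvPolynomial.totalDegree_mul _ _).trans ?_
    rw [MvPolynomial.totalDegree_C, zero_add]
    exact totalDegree_gpoly_le f k h D hh1 _ ((mem_idx hh1).mp j.2).2
  · intro z hz
    rw [map_sum]
    have h4 := hα ⟨z, hz⟩
    have h5 : ∀ j : idx f.natDegree h D, evQ z (MvPolynomial.C (α j) * gpoly f k D (j : ℕ × ℕ × ℕ)) =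
        (z.2 : ℚ) ^ (k * D) * (α j * ((z.1 : ℚ) ^ (j : ℕ × ℕ × ℕ).1 *
          (z.2 : ℚ) ^ (j : ℕ × ℕ × ℕ).2.1 * (m ⟨z, hz⟩ : ℚ) ^ (j : ℕ × ℕ × ℕ).2.2)) := by
      intro j
      have hmj := (mem_idx hh1).mp j.2
      have hc : (j : ℕ × ℕ × ℕ).2.2 ≤ h * (j : ℕ × ℕ × ℕ).2.2 := Nat.le_mul_of_pos_left _ hh1
      rw [map_mul, evQ_gpoly f k D _ (by omega) z (m ⟨z, hz⟩) (hm ⟨z, hz⟩)]
      have : evQ z (MvPolynomial.C (α j)) = α j := by simp [evQ]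
      rw [this]
      ring
    rw [Finset.sum_congr rfl fun j _ => h5 j, ← Finset.mul_sum, h4, mul_zero]

end Vale.Agent.P018
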