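import Mathlib
import Vale.Agent.P018.PairsDef
import Vale.Agent.P018.PairsAux

/-! Counting the pairs in the sectors, with sharper information on the centres. -/

namespace Vale.Agent.P018

open Finset Polynomial

/-- The pairs whose ratio is close to `a/q` with `a ≥ 1`. -/
theorem sector_count2 (f : ℤ[X]) (k : ℕ) (β K : ℝ) (hK : 0 ≤ K) (hβ0 : 0 ≤ β) (hβ1 : β < 1)
    (P Q0 X : ℕ) (hX : 1 ≤ X) (hXP : X ≤ P) (hQ2 : 2 ≤ Q0)
    (hQXP : 1 / (Q0 : ℝ) ^ 2 ≤ (X : ℝ) / P)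
    (hfib : ∀ (a : ℤ) (q : ℕ), 1 ≤ q → q ≤ Q0 →
      Int.gcd a q = 1 → ∀ u0 : ℝ, 0 ≤ u0 → u0 ≤ 2 * ((X : ℝ) / P) → ∀ S : Finset (ℕ × ℕ),
      (∀ z ∈ S, 1 ≤ z.1 ∧ z.1 < z.2 ∧ P < z.2 ∧ z.2 ≤ 2 * P ∧ z.2.Prime ∧
        (z.2 : ℤ) ^ k ∣ f.eval (z.1 : ℤ) ∧ |(z.1 : ℝ) / z.2 - a / q| ≤ 1 / (Q0 * q) ∧
        |(z.1 : ℝ) / z.2 - u0| ≤ 1 / (Q0 : ℝ) ^ 2) →
      (S.card : ℝ) ≤ K * ((P : ℝ) / q) ^ β)
    (ρ : ℕ × ℕ → ℚ)
    (hρ : ∀ z, |(z.1 : ℝ) / z.2 - (ρ z : ℝ)| ≤ 1 / (((Q0 : ℝ) + 1) * (ρ z).den) ∧ (ρ z).den ≤ Q0)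
    (S : Finset (ℕ × ℕ)) (hS : ∀ z ∈ S, z ∈ pairs f k X P ∧ 0 < (ρ z).num) :
    (S.card : ℝ) ≤ 4 * K / (1 - β) * ((X : ℝ) / P) * (P : ℝ) ^ β * (Q0 : ℝ) ^ (2 - β) := by
  classical
  have hPpos : (0 : ℝ) < P := by
    have : 0 < P := by omega
    exact_mod_cast this
  have hXpos : (0 : ℝ) < X := by exact_mod_cast hX
  have hQr : (2 : ℝ) ≤ Q0 := by exact_mod_cast hQ2
  have hXPr : (X : ℝ) ≤ P := by exact_mod_cast hXP
  -- facts about members
  have hmem : ∀ z ∈ S, 1 ≤ z.1 ∧ z.1 ≤ X ∧ z.1 < z.2 ∧ P < z.2 ∧ z.2 ≤ 2 * P ∧ z.2.Prime ∧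
        (z.2 : ℤ) ^ k ∣ f.eval (z.1 : ℤ) := by
    intro z hz
    have h1 := (hS z hz).1
    simp only [pairs, mem_filter, mem_product, mem_Icc, mem_Ioc] at h1
    obtain ⟨⟨⟨h2, h3⟩, h4, h5⟩, h6, h7⟩ := h1
    exact ⟨h2, h3, by omega, h4, h5, h6, h7⟩
  have hq : ∀ q ∈ Icc 1 Q0, ((S.filter fun z => (ρ z).den = q).card : ℝ) ≤
      4 * K * Q0 * ((X : ℝ) / P) * (P : ℝ) ^ β * (q : ℝ) ^ (-β) := by
    intro q hq
    rw [mem_Icc] at hq
    have hq1 : (1 : ℝ) ≤ q := by exact_mod_cast hq.1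
    have hqQ : (q : ℝ) ≤ Q0 := by exact_mod_cast hq.2
    have hqpos : (0 : ℝ) < q := by linarith
    set Aq : ℕ := ⌊2 * (q : ℝ) * X / P⌋₊ with hAq
    let g : ℕ × ℕ → ℕ × ℕ := fun z => ((ρ z).num.toNat,
      ⌊((z.1 : ℝ) / z.2 - (ρ z : ℝ) + 1 / (Q0 * q)) * ((Q0 : ℝ) ^ 2 / 2)⌋₊)
    have hclose : ∀ z ∈ S, (ρ z).den = q →
        |(z.1 : ℝ) / z.2 - (ρ z : ℝ)| ≤ 1 / (Q0 * q) := by
      intro z hz hden
      refine (hρ z).1.trans ?_
      rw [hden]
      apply one_div_le_one_div_of_le (by positivity)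
      nlinarith
    have hρcast : ∀ z, (ρ z).den = q → (ρ z : ℝ) = ((ρ z).num : ℝ) / q := by
      intro z hden
      rw [Rat.cast_def, hden]
    have hg : ∀ z ∈ S.filter (fun z => (ρ z).den = q), g z ∈ (Icc 1 Aq) ×ˢ (range (Q0 / q + 1)) := by
      intro z hz
      rw [mem_filter] at hz
      obtain ⟨hzS, hden⟩ := hz
      have hnum := (hS z hzS).2
      obtain ⟨h1, h2, h3, h4, h5, h6, h7⟩ := hmem z hzS
      have hz2 : (0 : ℝ) < z.2 := by
        have : 0 < z.2 := by omega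
        exact_mod_cast this
      have hcl := hclose z hzS hden
      rw [mem_product, mem_Icc, mem_range]
      refine ⟨⟨?_, ?_⟩, ?_⟩
      · simp only [g]
        omega
      · simp only [g]
        rw [hAq]
        apply Nat.le_floor
        have hnumR : (((ρ z).num.toNat : ℕ) : ℝ) = ((ρ z).num : ℝ) := by
          have : (((ρ z).num.toNat : ℕ) : ℤ) = (ρ z).num := Int.toNat_of_nonneg hnum.le
          exact_mod_cast this
        rw [hnumR]
        have h8 : (ρ z : ℝ) ≤ (z.1 : ℝ) / z.2 + 1 / (((Q0 : ℝ) + 1) * q) := by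
          have := (hρ z).1
          rw [hden] at this
          have := (abs_le.mp this).1
          linarith
        rw [hρcast z hden] at h8
        have h9 : (z.1 : ℝ) / z.2 ≤ X / P := by
          apply div_le_div₀ hXpos.le (by exact_mod_cast h2) hPpos (by exact_mod_cast h4.le)
        have h10 : ((ρ z).num : ℝ) ≤ q * (X / P) + 1 / 2 := by
          have h11 : ((ρ z).num : ℝ) / q ≤ X / P + 1 / (((Q0 : ℝ) + 1) * q) := by linarith
          rw [div_le_iff₀ hqpos] at h11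
          have h12 : (X / P + 1 / (((Q0 : ℝ) + 1) * q)) * q = q * (X / P) + 1 / ((Q0 : ℝ) + 1) := by
            field_simp
          rw [h12] at h11
          have h13 : 1 / ((Q0 : ℝ) + 1) ≤ 1 / 2 := one_div_le_one_div_of_le (by norm_num) (by linarith)
          linarith
        have h14 : (1 : ℝ) ≤ ((ρ z).num : ℝ) := by exact_mod_cast hnum
        have h15 : 2 * (q : ℝ) * X / P = 2 * (q * (X / P)) := by ring
        rw [h15]
        linarith
      · simp only [g]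
        rw [Nat.lt_succ_iff, ← Nat.floor_div_eq_div (K := ℝ)]
        apply Nat.floor_le_floor
        have h8 := (abs_le.mp hcl).2
        have h9 : ((z.1 : ℝ) / z.2 - (ρ z : ℝ) + 1 / (Q0 * q)) ≤ 2 / (Q0 * q) := by
          have : (2 : ℝ) / (Q0 * q) = 1 / (Q0 * q) + 1 / (Q0 * q) := by ring
          linarith
        calc ((z.1 : ℝ) / z.2 - (ρ z : ℝ) + 1 / (Q0 * q)) * ((Q0 : ℝ) ^ 2 / 2)
            ≤ 2 / (Q0 * q) * ((Q0 : ℝ) ^ 2 / 2) :=
              mul_le_mul_of_nonneg_right h9 (by positivity)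
          _ = (Q0 : ℝ) / q := by field_simp
    have hfibre : ∀ t ∈ (Icc 1 Aq) ×ˢ (range (Q0 / q + 1)),
        (((S.filter (fun z => (ρ z).den = q)).filter (fun z => g z = t)).card : ℝ) ≤
          K * ((P : ℝ) / q) ^ β := by
      intro t ht
      rw [mem_product, mem_Icc, mem_range] at ht
      rcases Finset.eq_empty_or_nonempty
        ((S.filter (fun z => (ρ z).den = q)).filter (fun z => g z = t)) with he | he
      · rw [he]
        simp only [card_empty, Nat.cast_zero]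
        positivity
      · obtain ⟨z0, hz0⟩ := he
        rw [mem_filter, mem_filter] at hz0
        obtain ⟨⟨hz0S, hden0⟩, hg0⟩ := hz0
        have hgcd : Int.gcd (t.1 : ℤ) q = 1 := by
          have h1 : ((ρ z0).num.toNat : ℤ) = (ρ z0).num := Int.toNat_of_nonneg (hS z0 hz0S).2.le
          have h2 : t.1 = (ρ z0).num.toNat := by rw [← hg0]
          rw [h2, h1, ← hden0]
          exact (ρ z0).reduced
        have hQpos : (0 : ℝ) < Q0 := by linarith
        have ht1 : (1 : ℝ) ≤ (t.1 : ℝ) := by exact_mod_cast ht.1.1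
        have hnear : ∀ z, z ∈ (S.filter (fun z => (ρ z).den = q)).filter (fun z => g z = t) →
            |(z.1 : ℝ) / z.2 - ((t.1 : ℤ) : ℝ) / q| ≤ 1 / (Q0 * q) ∧
            |(z.1 : ℝ) / z.2 - ((t.1 : ℝ) / q - 1 / (Q0 * q) + (2 * t.2 + 1) / (Q0 : ℝ) ^ 2)| ≤
              1 / (Q0 : ℝ) ^ 2 := by
          intro z hz
          rw [mem_filter, mem_filter] at hz
          obtain ⟨⟨hzS, hden⟩, hgz⟩ := hz
          have hcl := hclose z hzS hden
          have h1 : (((ρ z).num.toNat : ℕ) : ℝ) = ((ρ z).num : ℝ) := by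
            have : (((ρ z).num.toNat : ℕ) : ℤ) = (ρ z).num := Int.toNat_of_nonneg (hS z hzS).2.le
            exact_mod_cast this
          have h2 : (ρ z : ℝ) = (t.1 : ℝ) / q := by
            rw [hρcast z hden, ← h1]
            rw [← hgz]
          have h3 : ⌊((z.1 : ℝ) / z.2 - (ρ z : ℝ) + 1 / (Q0 * q)) * ((Q0 : ℝ) ^ 2 / 2)⌋₊ = t.2 := by
            rw [← hgz]
          have h4 : 0 ≤ (z.1 : ℝ) / z.2 - (ρ z : ℝ) + 1 / (Q0 * q) := by
            have := (abs_le.mp hcl).1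
            linarith
          have h5 : 0 ≤ ((z.1 : ℝ) / z.2 - (ρ z : ℝ) + 1 / (Q0 * q)) * ((Q0 : ℝ) ^ 2 / 2) := by
            positivity
          rw [Nat.floor_eq_iff h5] at h3
          rw [h2] at hcl h3
          refine ⟨by push_cast; exact hcl, ?_⟩
          have hQ2pos : (0 : ℝ) < (Q0 : ℝ) ^ 2 := by positivity
          obtain ⟨h6, h7⟩ := h3
          set W := (z.1 : ℝ) / z.2 - (t.1 : ℝ) / q + 1 / (Q0 * q) with hW
          have h8 : 2 * (t.2 : ℝ) / (Q0 : ℝ) ^ 2 ≤ W := by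
            rw [div_le_iff₀ hQ2pos]
            linarith
          have h9 : W < 2 * ((t.2 : ℝ) + 1) / (Q0 : ℝ) ^ 2 := by
            rw [lt_div_iff₀ hQ2pos]
            linarith
          have h10 : (z.1 : ℝ) / z.2 - ((t.1 : ℝ) / q - 1 / (Q0 * q) + (2 * t.2 + 1) / (Q0 : ℝ) ^ 2)
              = W - (2 * t.2 + 1) / (Q0 : ℝ) ^ 2 := by
            rw [hW]
            ring
          rw [h10, abs_le]
          have h11 : 2 * ((t.2 : ℝ) + 1) / (Q0 : ℝ) ^ 2 =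
            (2 * t.2 + 1) / (Q0 : ℝ) ^ 2 + 1 / (Q0 : ℝ) ^ 2 := by ring
          have h12 : 2 * (t.2 : ℝ) / (Q0 : ℝ) ^ 2 =
            (2 * t.2 + 1) / (Q0 : ℝ) ^ 2 - 1 / (Q0 : ℝ) ^ 2 := by ring
          rw [h11] at h9
          rw [h12] at h8
          constructor <;> linarith
        refine hfib (t.1 : ℤ) q hq.1 hq.2 hgcd
          ((t.1 : ℝ) / q - 1 / (Q0 * q) + (2 * t.2 + 1) / (Q0 : ℝ) ^ 2) ?_ ?_ _ ?_
        · have h1 : 1 / ((Q0 : ℝ) * q) ≤ (t.1 : ℝ) / q := by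
            have h0 : 1 ≤ (t.1 : ℝ) * Q0 := by nlinarith
            rw [div_le_div_iff₀ (by positivity) hqpos]
            calc 1 * (q : ℝ) ≤ ((t.1 : ℝ) * Q0) * q := mul_le_mul_of_nonneg_right h0 hqpos.le
              _ = (t.1 : ℝ) * (Q0 * q) := by ring
          have h2 : 0 ≤ (2 * (t.2 : ℝ) + 1) / (Q0 : ℝ) ^ 2 := by positivity
          linarith
        · have h1 := hnear z0 (by
            rw [mem_filter, mem_filter]
            exact ⟨⟨hz0S, hden0⟩, hg0⟩)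
          obtain ⟨h11, h12, h13, h14, h15, h16, h17⟩ := hmem z0 hz0S
          have h2 : (z0.1 : ℝ) / z0.2 ≤ (X : ℝ) / P :=
            div_le_div₀ hXpos.le (by exact_mod_cast h12) hPpos (by exact_mod_cast h14.le)
          have h5 := (abs_le.mp h1.2).1
          linarith
        · intro z hz
          have h1 := hnear z hz
          rw [mem_filter, mem_filter] at hz
          obtain ⟨h11, h12, h13, h14, h15, h16, h17⟩ := hmem z hz.1.1
          exact ⟨h11, h13, h14, h15, h16, h17, h1.1, h1.2⟩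
    have hmain := card_le_mul_of_fiber _ _ g hg _ hfibre
    refine hmain.trans ?_
    rw [card_product, Nat.card_Icc, card_range]
    have hAqle : (Aq : ℝ) ≤ 2 * q * X / P := by
      rw [hAq]
      exact Nat.floor_le (by positivity)
    have hQqle : ((Q0 / q + 1 : ℕ) : ℝ) ≤ 2 * Q0 / q := by
      push_cast
      have h1 : ((Q0 / q : ℕ) : ℝ) ≤ (Q0 : ℝ) / q := Nat.cast_div_le
      have h2 : 1 ≤ (Q0 : ℝ) / q := by
        rw [le_div_iff₀ hqpos]
        linarith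
      have h3 : 2 * (Q0 : ℝ) / q = Q0 / q + Q0 / q := by ring
      linarith
    have hsplit : ((P : ℝ) / q) ^ β = (P : ℝ) ^ β * (q : ℝ) ^ (-β) := by
      rw [Real.div_rpow hPpos.le hqpos.le, Real.rpow_neg hqpos.le]
      rfl
    rw [hsplit]
    have hfac : (((Aq + 1 - 1) * (Q0 / q + 1) : ℕ) : ℝ) ≤ 4 * Q0 * ((X : ℝ) / P) := by
      rw [Nat.add_sub_cancel, Nat.cast_mul]
      calc (Aq : ℝ) * ((Q0 / q + 1 : ℕ) : ℝ) ≤ (2 * q * X / P) * (2 * Q0 / q) := by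
            apply mul_le_mul hAqle hQqle (by positivity) (by positivity)
        _ = 4 * Q0 * ((X : ℝ) / P) := by
            field_simp
            ring
    calc (((Aq + 1 - 1) * (Q0 / q + 1) : ℕ) : ℝ) * (K * ((P : ℝ) ^ β * (q : ℝ) ^ (-β)))
        ≤ (4 * Q0 * ((X : ℝ) / P)) * (K * ((P : ℝ) ^ β * (q : ℝ) ^ (-β))) := by
          apply mul_le_mul_of_nonneg_right hfac
          positivity
      _ = 4 * K * Q0 * ((X : ℝ) / P) * (P : ℝ) ^ β * (q : ℝ) ^ (-β) := by ring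
  -- sum over q
  have hsum : (S.card : ℝ) = ∑ q ∈ Icc 1 Q0, ((S.filter fun z => (ρ z).den = q).card : ℝ) := by
    have h1 : ∀ z ∈ S, (ρ z).den ∈ Icc 1 Q0 := by
      intro z _
      rw [mem_Icc]
      exact ⟨(ρ z).den_pos, (hρ z).2⟩
    rw [Finset.card_eq_sum_card_fiberwise h1]
    push_cast
    rfl
  rw [hsum]
  have hQ0pos : (0 : ℝ) < Q0 := by linarith
  have h1β : 0 < 1 - β := by linarith
  calc ∑ q ∈ Icc 1 Q0, ((S.filter fun z => (ρ z).den = q).card : ℝ)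
      ≤ ∑ q ∈ Icc 1 Q0, 4 * K * Q0 * ((X : ℝ) / P) * (P : ℝ) ^ β * (q : ℝ) ^ (-β) :=
        Finset.sum_le_sum hq
    _ = 4 * K * Q0 * ((X : ℝ) / P) * (P : ℝ) ^ β * ∑ q ∈ Icc 1 Q0, (q : ℝ) ^ (-β) := by
        rw [Finset.mul_sum]
    _ ≤ 4 * K * Q0 * ((X : ℝ) / P) * (P : ℝ) ^ β * ((Q0 : ℝ) ^ (1 - β) / (1 - β)) := by
        apply mul_le_mul_of_nonneg_left (sum_rpow_neg_le β hβ0 hβ1 Q0)
        positivity
    _ = 4 * K / (1 - β) * ((X : ℝ) / P) * (P : ℝ) ^ β * ((Q0 : ℝ) * (Q0 : ℝ) ^ (1 - β)) := by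
        field_simp
    _ = 4 * K / (1 - β) * ((X : ℝ) / P) * (P : ℝ) ^ β * (Q0 : ℝ) ^ (2 - β) := by
        congr 1
        have h2 : (2 : ℝ) - β = 1 + (1 - β) := by ring
        rw [h2, Real.rpow_add hQ0pos, Real.rpow_one]

end Vale.Agent.P018
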