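import Mathlib
import Vale.Agent.P018.Fiber2
import Vale.Agent.P018.PairsBound2
import Vale.Agent.P018.PairsFinal

/-! The bound for the number of pairs when `P ≥ X^(1+c)`. -/

namespace Vale.Agent.P018

open Finset Polynomial

theorem affine_le (A B l1 l C : ℝ) (h1 : A + B * l1 ≤ C) (h2 : A + B ≤ C) (hl1 : l1 ≤ l)
    (hl : l ≤ 1) : A + B * l ≤ C := by
  rcases le_total 0 B with h | h
  · nlinarith
  · nlinarith

theorem choose_params2 (d k c1 : ℝ) (hk : 0 < k) (hkd : k < d) (hc1 : 0 < c1)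
    (hd2 : 2 ≤ d)
    (hc : (1 - 1 / (2 * d)) * ((1 - c1 * k / (d - k)) * (9 * (d - k) / (4 * d)) +
      c1 * k / (d - k) * (9 * (d - k) / (4 * d) * ((k + d) / (3 * k)) ^ 2)) +
      (1 / (2 * d)) * (2 + c1) < 1)
    (hc' : (1 - 1 / (2 * d)) * (9 * (d - k) / (4 * d) * ((k + d) / (3 * k)) ^ 2) +
      (1 / (2 * d)) * (2 + (d - k) / k) < 1) :
    ∃ e η : ℝ, 0 < e ∧ 0 < η ∧ 1 / d + e < 1 ∧ ∀ l : ℝ, c1 * k / (d - k) ≤ l → l ≤ 1 →
      ((1 - l) * (9 * (d - k) / (4 * d) + e) +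
        l * (9 * (d - k) / (4 * d) * ((k + d) / (3 * k)) ^ 2 + e)) * (1 - (1 / d + e) / 2) +
        (1 / d + e) * (2 + l * ((d - k) / k)) / 2 ≤ 1 - η ∧
      (l * ((d - k) / k) - ((1 - l) * (9 * (d - k) / (4 * d) + e) +
        l * (9 * (d - k) / (4 * d) * ((k + d) / (3 * k)) ^ 2 + e))) / 2 ≤ -η := by
  have hd : 0 < d := by linarith
  have hh : 0 < d - k := by linarith
  have hx1 : (d - k) / k < 9 * (d - k) / (4 * d) * ((k + d) / (3 * k)) ^ 2 := by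
    rw [div_pow, div_mul_div_comm, div_lt_div_iff₀ hk (by positivity)]
    have h1 : 0 < (d - k) ^ 2 := by positivity
    have h2 : 4 * d * k < (k + d) ^ 2 := by nlinarith
    have h3 : 0 < 9 * (d - k) * k := by positivity
    calc (d - k) * (4 * d * (3 * k) ^ 2) = 9 * (d - k) * k * (4 * d * k) := by ring
      _ < 9 * (d - k) * k * (k + d) ^ 2 := mul_lt_mul_of_pos_left h2 h3
      _ = 9 * (d - k) * (k + d) ^ 2 * k := by ring
  generalize hX1 : 9 * (d - k) / (4 * d) * ((k + d) / (3 * k)) ^ 2 = X1 at hc hc' hx1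
  have hX0 : 0 < 9 * (d - k) / (4 * d) := by positivity
  generalize hX0' : 9 * (d - k) / (4 * d) = X0 at hc hX0
  generalize hl1 : c1 * k / (d - k) = l1 at hc
  have hl1κ : l1 * ((d - k) / k) = c1 := by
    rw [← hl1]
    field_simp
  generalize (d - k) / k = κ at hc' hx1 hl1κ
  let F : ℝ → ℝ → ℝ := fun l e => ((1 - l) * (X0 + e) + l * (X1 + e)) * (1 - (1 / d + e) / 2) +
        (1 / d + e) * (2 + l * κ) / 2
  have hF1 : Continuous (F l1) := by
    simp only [F]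
    fun_prop
  have hF2 : Continuous (F 1) := by
    simp only [F]
    fun_prop
  have hF10 : F l1 0 < 1 := by
    have : F l1 0 = (1 - 1 / (2 * d)) * ((1 - l1) * X0 + l1 * X1) + (1 / (2 * d)) * (2 + c1) := by
      simp only [F]
      rw [hl1κ]
      field_simp
      ring
    rw [this]
    exact hc
  have hF20 : F 1 0 < 1 := by
    have : F 1 0 = (1 - 1 / (2 * d)) * X1 + (1 / (2 * d)) * (2 + κ) := by
      simp only [F]
      field_simp
      ring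
    rw [this]
    exact hc'
  have hev1 := (hF1.tendsto 0).eventually (gt_mem_nhds hF10)
  have hev2 := (hF2.tendsto 0).eventually (gt_mem_nhds hF20)
  have hev3 : ∀ᶠ e : ℝ in nhds 0, e < 1 / 2 := gt_mem_nhds (by norm_num)
  have hev := ((hev1.and (hev2.and hev3)).filter_mono nhdsWithin_le_nhds).and
    (self_mem_nhdsWithin (a := (0 : ℝ)) (s := Set.Ioi 0))
  obtain ⟨e, ⟨he1, he2, he3⟩, he4⟩ := hev.exists
  have he0 : 0 < e := he4
  refine ⟨e, min (min (1 - F l1 e) (1 - F 1 e)) (min (X0 / 2) ((X1 - κ) / 2)), he0, ?_, ?_, ?_⟩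
  · apply lt_min (lt_min (by linarith) (by linarith)) (lt_min (by linarith) (by linarith))
  · have : 1 / d ≤ 1 / 2 := one_div_le_one_div_of_le (by norm_num) hd2
    linarith
  · intro l hll hl
    have m1 : min (min (1 - F l1 e) (1 - F 1 e)) (min (X0 / 2) ((X1 - κ) / 2)) ≤ 1 - F l1 e :=
      (min_le_left _ _).trans (min_le_left _ _)
    have m2 : min (min (1 - F l1 e) (1 - F 1 e)) (min (X0 / 2) ((X1 - κ) / 2)) ≤ 1 - F 1 e :=
      (min_le_left _ _).trans (min_le_right _ _)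
    have m3 : min (min (1 - F l1 e) (1 - F 1 e)) (min (X0 / 2) ((X1 - κ) / 2)) ≤ X0 / 2 :=
      (min_le_right _ _).trans (min_le_left _ _)
    have m4 : min (min (1 - F l1 e) (1 - F 1 e)) (min (X0 / 2) ((X1 - κ) / 2)) ≤ (X1 - κ) / 2 :=
      (min_le_right _ _).trans (min_le_right _ _)
    generalize min (min (1 - F l1 e) (1 - F 1 e)) (min (X0 / 2) ((X1 - κ) / 2)) = η at m1 m2 m3 m4
    have hl0 : 0 ≤ l := by
      refine le_trans ?_ hll
      rw [← hl1]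
      positivity
    constructor
    · have e1 : ∀ l, F l e = ((X0 + e) * (1 - (1 / d + e) / 2) + (1 / d + e)) +
          ((X1 - X0) * (1 - (1 / d + e) / 2) + (1 / d + e) * κ / 2) * l := by
        intro l
        simp only [F]
        ring
      have h1 := affine_le ((X0 + e) * (1 - (1 / d + e) / 2) + (1 / d + e))
        ((X1 - X0) * (1 - (1 / d + e) / 2) + (1 / d + e) * κ / 2) l1 l (1 - η)
        (by rw [← e1]; linarith) (by
          have := e1 1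
          rw [mul_one] at this
          rw [← this]; linarith) hll hl
      rw [← e1] at h1
      exact h1
    · have h1 := affine_le (-(X0 + e) / 2) ((κ - (X1 - X0)) / 2) 0 l (-η) (by linarith) (by linarith)
        hl0 hl
      calc (l * κ - ((1 - l) * (X0 + e) + l * (X1 + e))) / 2 =
          -(X0 + e) / 2 + (κ - (X1 - X0)) / 2 * l := by ring
        _ ≤ -η := h1

theorem q0_choice2 (R : ℝ) (P : ℕ) (hR1 : 1 < R) (hRP : R ≤ (P : ℝ) ^ 2) :
    ∃ Q0 : ℕ, 2 ≤ Q0 ∧ (Q0 : ℝ) ≤ 2 * R ^ (1 / 2 : ℝ) ∧ R ^ (1 / 2 : ℝ) ≤ Q0 ∧ Q0 ≤ P ∧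
      R ≤ (Q0 : ℝ) ^ 2 := by
  have hR0 : 0 < R := by linarith
  set Q0 : ℕ := ⌈R ^ (1 / 2 : ℝ)⌉₊ with hQ0
  have hpow1 : 1 < R ^ (1 / 2 : ℝ) := Real.one_lt_rpow hR1 (by norm_num)
  have hQge : R ^ (1 / 2 : ℝ) ≤ Q0 := Nat.le_ceil _
  refine ⟨Q0, ?_, ?_, hQge, ?_, ?_⟩
  · have : 1 < Q0 := by
      rw [hQ0, Nat.lt_ceil]
      exact_mod_cast hpow1
    omega
  · have := Nat.ceil_lt_add_one (a := R ^ (1 / 2 : ℝ)) (by positivity)
    rw [← hQ0] at this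
    linarith
  · rw [hQ0, Nat.ceil_le]
    calc R ^ (1 / 2 : ℝ) ≤ ((P : ℝ) ^ 2) ^ (1 / 2 : ℝ) :=
          Real.rpow_le_rpow hR0.le hRP (by norm_num)
      _ = P := by
          rw [← Real.rpow_natCast, ← Real.rpow_mul (by positivity)]
          norm_num
  · calc R = (R ^ (1 / 2 : ℝ)) ^ 2 := by
          rw [← Real.rpow_natCast, ← Real.rpow_mul hR0.le]
          norm_num
      _ ≤ (Q0 : ℝ) ^ 2 := by
          apply pow_le_pow_left₀ (by positivity) hQge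

theorem sector_algebra2 (X P Q t x β η : ℝ) (hX1 : 1 ≤ X) (hPX : P = X ^ (1 + t)) (hQpos : 0 < Q)
    (hβ0 : 0 ≤ β) (hβ1 : β < 1) (hQle : Q ≤ 2 * (P / X * X ^ x) ^ (1 / 2 : ℝ))
    (hη : x * (1 - β / 2) + β * (2 + t) / 2 ≤ 1 - η) :
    (X / P) * P ^ β * Q ^ (2 - β) ≤ 4 * X ^ (1 - η) := by
  have hXpos : 0 < X := by linarith
  have hPpos : 0 < P := by rw [hPX]; positivity
  have hR : P / X * X ^ x = X ^ (t + x) := by
    rw [hPX, Real.rpow_add hXpos, Real.rpow_add hXpos, Real.rpow_one]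
    field_simp
  rw [hR] at hQle
  have h2 : Q ^ (2 - β) ≤ 4 * X ^ ((t + x) * (1 - β / 2)) := by
    calc Q ^ (2 - β) ≤ (2 * (X ^ (t + x)) ^ (1 / 2 : ℝ)) ^ (2 - β) :=
          Real.rpow_le_rpow hQpos.le hQle (by linarith)
      _ = 2 ^ (2 - β) * ((X ^ (t + x)) ^ (1 / 2 : ℝ)) ^ (2 - β) :=
          Real.mul_rpow (by norm_num) (by positivity)
      _ = 2 ^ (2 - β) * X ^ ((t + x) * (1 - β / 2)) := by
          rw [← Real.rpow_mul hXpos.le, ← Real.rpow_mul hXpos.le]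
          congr 2
          ring
      _ ≤ 4 * X ^ ((t + x) * (1 - β / 2)) := by
          apply mul_le_mul_of_nonneg_right _ (by positivity)
          calc (2 : ℝ) ^ (2 - β) ≤ 2 ^ (2 : ℝ) :=
                Real.rpow_le_rpow_of_exponent_le (by norm_num) (by linarith)
            _ = 4 := by norm_num
  calc (X / P) * P ^ β * Q ^ (2 - β)
      ≤ (X / P) * P ^ β * (4 * X ^ ((t + x) * (1 - β / 2))) := by
        apply mul_le_mul_of_nonneg_left h2
        positivity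
    _ = 4 * X ^ (x * (1 - β / 2) + β * (2 + t) / 2) := by
        have h3 : X / P = X ^ (-t) := by
          rw [hPX, Real.rpow_add hXpos, Real.rpow_one, Real.rpow_neg hXpos.le]
          field_simp
        have h4 : P ^ β = X ^ ((1 + t) * β) := by
          rw [hPX, ← Real.rpow_mul hXpos.le]
        rw [h3, h4]
        have h5 : x * (1 - β / 2) + β * (2 + t) / 2 = -t + (1 + t) * β + (t + x) * (1 - β / 2) := by
          ring
        rw [h5, Real.rpow_add hXpos, Real.rpow_add hXpos]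
        ring
    _ ≤ 4 * X ^ (1 - η) := by
        apply mul_le_mul_of_nonneg_left _ (by norm_num)
        exact Real.rpow_le_rpow_of_exponent_le hX1 hη

theorem zero_algebra2 (X P t x η : ℝ) (hX1 : 1 ≤ X) (hPX : P = X ^ (1 + t))
    (hη : (t - x) / 2 ≤ -η) :
    P / (P / X * X ^ x) ^ (1 / 2 : ℝ) ≤ X ^ (1 - η) := by
  have hXpos : 0 < X := by linarith
  have hR : P / X * X ^ x = X ^ (t + x) := by
    rw [hPX, Real.rpow_add hXpos, Real.rpow_add hXpos, Real.rpow_one]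
    field_simp
  rw [hR, hPX, ← Real.rpow_mul hXpos.le, ← Real.rpow_sub hXpos]
  apply Real.rpow_le_rpow_of_exponent_le hX1
  linarith

theorem small_of_num_nonpos2 (n p P Q0 : ℕ) (R : ℝ) (hQ : 0 < Q0) (hR : 0 < R)
    (hQge : R ≤ Q0) (hp : 0 < p) (hp2 : p ≤ 2 * P) (ρ : ℚ)
    (hρ : |(n : ℝ) / p - (ρ : ℝ)| ≤ 1 / (((Q0 : ℝ) + 1) * ρ.den)) (hnum : ¬ 0 < ρ.num) :
    (n : ℝ) ≤ 2 * (P / R) := by
  have hQpos : (0 : ℝ) < Q0 := by exact_mod_cast hQ
  have hz2 : (0 : ℝ) < p := by exact_mod_cast hp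
  have hnum' : (ρ : ℝ) ≤ 0 := by
    have : ρ ≤ 0 := Rat.num_nonpos.mp (not_lt.mp hnum)
    exact_mod_cast this
  have h8 := (abs_le.mp hρ).2
  have h9 : 1 / (((Q0 : ℝ) + 1) * ρ.den) ≤ 1 / Q0 := by
    apply one_div_le_one_div_of_le hQpos
    have : (1 : ℝ) ≤ ρ.den := by exact_mod_cast ρ.den_pos
    nlinarith
  have h10 : (n : ℝ) / p ≤ 1 / Q0 := by linarith
  rw [div_le_iff₀ hz2] at h10
  have h11 : (p : ℝ) ≤ 2 * P := by exact_mod_cast hp2
  have h12 : 1 / (Q0 : ℝ) ≤ 1 / R := one_div_le_one_div_of_le hR hQge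
  calc (n : ℝ) ≤ 1 / Q0 * p := h10
    _ ≤ 1 / R * (2 * P) := mul_le_mul h12 h11 hz2.le (by positivity)
    _ = 2 * (P / R) := by ring

theorem range2_core (f : ℤ[X]) (hirr : Irreducible (f.map (Int.castRingHom ℚ))) (k : ℕ)
    (hk : 1 ≤ k) (hd2 : 2 ≤ f.natDegree) (K β η x t : ℝ) (hK0 : 0 < K) (hβ0 : 0 ≤ β) (hβ1 : β < 1)
    (X P : ℕ) (hX2 : 2 ≤ X) (hXP : X ≤ P)
    (hXA : ∑ i ∈ range (f.natDegree + 1), |(f.coeff i : ℝ)| < X)
    (hPt : (P : ℝ) = (X : ℝ) ^ (1 + t)) (hx0 : 0 < x) (hx2 : x ≤ 2)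
    (hp1 : x * (1 - β / 2) + β * (2 + t) / 2 ≤ 1 - η) (hp2 : (t - x) / 2 ≤ -η)
    (hfib' : ∀ Q0 : ℕ, 2 ≤ Q0 → (P : ℝ) / X * (X : ℝ) ^ x ≤ (Q0 : ℝ) ^ 2 → Q0 ≤ P →
      ∀ (a : ℤ) (q : ℕ), 1 ≤ q → q ≤ Q0 →
      Int.gcd a q = 1 → ∀ u0 : ℝ, 0 ≤ u0 → u0 ≤ 2 * ((X : ℝ) / P) → ∀ S : Finset (ℕ × ℕ),
      (∀ z ∈ S, 1 ≤ z.1 ∧ z.1 < z.2 ∧ P < z.2 ∧ z.2 ≤ 2 * P ∧ z.2.Prime ∧
        (z.2 : ℤ) ^ k ∣ f.eval (z.1 : ℤ) ∧ |(z.1 : ℝ) / z.2 - a / q| ≤ 1 / (Q0 * q) ∧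
        |(z.1 : ℝ) / z.2 - u0| ≤ 1 / (Q0 : ℝ) ^ 2) →
      (S.card : ℝ) ≤ K * ((P : ℝ) / q) ^ β) :
    ((pairs f k X P).card : ℝ) ≤ (4 * K / (1 - β) * 4 + 2 * f.natDegree) * (X : ℝ) ^ (1 - η) := by
  classical
  have h1β : 0 < 1 - β := by linarith
  have hXr2 : (2 : ℝ) ≤ X := by exact_mod_cast hX2
  have hXr : (1 : ℝ) ≤ X := by linarith
  have hXpos : (0 : ℝ) < X := by linarith
  have hXPr : (X : ℝ) ≤ P := by exact_mod_cast hXP
  have hPpos : (0 : ℝ) < P := by linarith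
  have hXx1 : 1 < (X : ℝ) ^ x := Real.one_lt_rpow (by linarith) hx0
  have hXx2 : (X : ℝ) ^ x ≤ (X : ℝ) ^ (2 : ℝ) := Real.rpow_le_rpow_of_exponent_le hXr hx2
  have hPX1 : 1 ≤ (P : ℝ) / X := by
    rw [le_div_iff₀ hXpos]
    linarith
  have hR1 : 1 < (P : ℝ) / X * (X : ℝ) ^ x := by nlinarith
  have hRP : (P : ℝ) / X * (X : ℝ) ^ x ≤ (P : ℝ) ^ 2 := by
    calc (P : ℝ) / X * (X : ℝ) ^ x ≤ (P : ℝ) / X * (X : ℝ) ^ (2 : ℝ) :=
          mul_le_mul_of_nonneg_left hXx2 (by positivity)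
      _ = P * X := by
          rw [Real.rpow_two]
          field_simp
      _ ≤ (P : ℝ) ^ 2 := by
          rw [sq]
          exact mul_le_mul_of_nonneg_left hXPr hPpos.le
  obtain ⟨Q0, hQ2, hQle, hQge, hQP, hQR⟩ := q0_choice2 _ P hR1 hRP
  have hQpos : (0 : ℝ) < Q0 := by
    have : 0 < Q0 := by omega
    exact_mod_cast this
  have hQXP : 1 / (Q0 : ℝ) ^ 2 ≤ (X : ℝ) / P := by
    rw [div_le_div_iff₀ (by positivity) hPpos, one_mul]
    have h1 : (P : ℝ) / X ≤ (Q0 : ℝ) ^ 2 := by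
      refine le_trans ?_ hQR
      nlinarith
    rw [div_le_iff₀ hXpos] at h1
    linarith
  have hdir : ∀ z : ℕ × ℕ, ∃ q : ℚ, |(z.1 : ℝ) / z.2 - (q : ℝ)| ≤ 1 / (((Q0 : ℝ) + 1) * q.den) ∧
      q.den ≤ Q0 := fun z =>
    Real.exists_rat_abs_sub_le_and_den_le ((z.1 : ℝ) / z.2) (by omega)
  choose ρ hρ using hdir
  have hcard : ((pairs f k X P).card : ℝ) =
      (((pairs f k X P).filter (fun z => 0 < (ρ z).num)).card : ℝ) +
      ((pairs f k X P).filter (fun z => ¬ 0 < (ρ z).num)).card := by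
    rw [← Finset.card_filter_add_card_filter_not (s := pairs f k X P) (fun z => 0 < (ρ z).num)]
    push_cast
    rfl
  have hb1 : (((pairs f k X P).filter (fun z => 0 < (ρ z).num)).card : ℝ) ≤
      4 * K / (1 - β) * 4 * (X : ℝ) ^ (1 - η) := by
    have h1 := sector_count2 f k β K hK0.le hβ0 hβ1 P Q0 X (by omega) hXP hQ2 hQXP
      (hfib' Q0 hQ2 hQR hQP) ρ hρ
      ((pairs f k X P).filter (fun z => 0 < (ρ z).num)) (fun z hz => by
        rw [mem_filter] at hz; exact hz)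
    refine h1.trans ?_
    have h2 := sector_algebra2 X P Q0 t x β η hXr hPt hQpos hβ0 hβ1 hQle hp1
    calc 4 * K / (1 - β) * ((X : ℝ) / P) * (P : ℝ) ^ β * (Q0 : ℝ) ^ (2 - β)
        = 4 * K / (1 - β) * (((X : ℝ) / P) * (P : ℝ) ^ β * (Q0 : ℝ) ^ (2 - β)) := by ring
      _ ≤ 4 * K / (1 - β) * (4 * (X : ℝ) ^ (1 - η)) := by
          apply mul_le_mul_of_nonneg_left h2
          positivity
      _ = 4 * K / (1 - β) * 4 * (X : ℝ) ^ (1 - η) := by ring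
  have hb0 : (((pairs f k X P).filter (fun z => ¬ 0 < (ρ z).num)).card : ℝ) ≤
      2 * f.natDegree * (X : ℝ) ^ (1 - η) := by
    have hRpos : 0 < ((P : ℝ) / X * (X : ℝ) ^ x) ^ (1 / 2 : ℝ) := by positivity
    have h1 := zero_sector f hirr k hk hd2 X P (by omega) hXP hXA
      (2 * (P / ((P : ℝ) / X * (X : ℝ) ^ x) ^ (1 / 2 : ℝ))) (by positivity)
      ((pairs f k X P).filter (fun z => ¬ 0 < (ρ z).num)) (fun z hz => by
        rw [mem_filter] at hz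
        refine ⟨hz.1, ?_⟩
        have h1 := hz.1
        simp only [pairs, mem_filter, mem_product, mem_Icc, mem_Ioc] at h1
        exact small_of_num_nonpos2 z.1 z.2 P Q0 _ (by omega) hRpos hQge (by omega)
          h1.1.2.2 (ρ z) (hρ z).1 hz.2)
    refine h1.trans ?_
    have h2 := zero_algebra2 X P t x η hXr hPt hp2
    calc 2 * (P / ((P : ℝ) / X * (X : ℝ) ^ x) ^ (1 / 2 : ℝ)) * f.natDegree
        = 2 * f.natDegree * (P / ((P : ℝ) / X * (X : ℝ) ^ x) ^ (1 / 2 : ℝ)) := by ring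
      _ ≤ 2 * f.natDegree * (X : ℝ) ^ (1 - η) := by
          apply mul_le_mul_of_nonneg_left h2
          positivity
  rw [hcard, add_mul]
  exact add_le_add hb1 hb0

/-- The range `P ≥ X^(1+c)` when `P^k ≤ X^d`. -/
theorem pairs_range2_aux (f : ℤ[X]) (hirr : Irreducible (f.map (Int.castRingHom ℚ))) (k : ℕ)
    (hk : 2 ≤ k) (hkd : k < f.natDegree) (c1 : ℝ) (hc1 : 0 < c1)
    (hc : (1 - 1 / (2 * (f.natDegree : ℝ))) * ((1 - c1 * k / ((f.natDegree : ℝ) - k)) *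
      (9 * ((f.natDegree : ℝ) - k) / (4 * (f.natDegree : ℝ))) +
      c1 * k / ((f.natDegree : ℝ) - k) * (9 * ((f.natDegree : ℝ) - k) / (4 * (f.natDegree : ℝ)) *
      (((k : ℝ) + (f.natDegree : ℝ)) / (3 * k)) ^ 2)) + (1 / (2 * (f.natDegree : ℝ))) * (2 + c1) < 1)
    (hc' : (1 - 1 / (2 * (f.natDegree : ℝ))) * (9 * ((f.natDegree : ℝ) - k) /
      (4 * (f.natDegree : ℝ)) * (((k : ℝ) + (f.natDegree : ℝ)) / (3 * k)) ^ 2) +
      (1 / (2 * (f.natDegree : ℝ))) * (2 + ((f.natDegree : ℝ) - k) / k) < 1) :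
    ∃ η K : ℝ, 0 < η ∧ 0 < K ∧ ∃ X0 : ℕ, ∀ X P : ℕ, X0 ≤ X → (X : ℝ) ^ (1 + c1) ≤ P →
      (P : ℝ) ^ k ≤ (X : ℝ) ^ f.natDegree →
      ((pairs f k X P).card : ℝ) ≤ K * (X : ℝ) ^ (1 - η) := by
  classical
  have hkr : (2 : ℝ) ≤ k := by exact_mod_cast hk
  have hkdr : (k : ℝ) < f.natDegree := by exact_mod_cast hkd
  have hd2 : (2 : ℝ) ≤ f.natDegree := by linarith
  have hhpos : 0 < (f.natDegree : ℝ) - k := by linarith
  have hkpos : (0 : ℝ) < k := by linarith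
  obtain ⟨e, η, he0, hη0, hβ1, hpar⟩ := choose_params2 _ _ c1 (by linarith) hkdr hc1 hd2 hc hc'
  obtain ⟨K, X1, hK0, hfib⟩ := fiber_bound2 f hirr k hk hkd
    (9 * ((f.natDegree : ℝ) - k) / (4 * (f.natDegree : ℝ)) + e)
    (9 * ((f.natDegree : ℝ) - k) / (4 * (f.natDegree : ℝ)) *
      (((k : ℝ) + (f.natDegree : ℝ)) / (3 * k)) ^ 2 + e) e (by linarith) (by linarith) he0
  have hXa : 0 < 9 * ((f.natDegree : ℝ) - k) / (4 * (f.natDegree : ℝ)) + e := by positivity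
  have hXb : 0 < 9 * ((f.natDegree : ℝ) - k) / (4 * (f.natDegree : ℝ)) *
      (((k : ℝ) + (f.natDegree : ℝ)) / (3 * k)) ^ 2 + e := by positivity
  generalize 9 * ((f.natDegree : ℝ) - k) / (4 * (f.natDegree : ℝ)) + e = x0 at hpar hfib hXa
  generalize 9 * ((f.natDegree : ℝ) - k) / (4 * (f.natDegree : ℝ)) *
      (((k : ℝ) + (f.natDegree : ℝ)) / (3 * k)) ^ 2 + e = x1 at hpar hfib hXb
  generalize hβ : 1 / (f.natDegree : ℝ) + e = β at hβ1 hpar hfib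
  have hβ0 : 0 ≤ β := by rw [← hβ]; positivity
  have h1β : 0 < 1 - β := by linarith
  refine ⟨η, 4 * K / (1 - β) * 4 + 2 * f.natDegree, hη0, by positivity,
    max (max X1 2) (⌊∑ i ∈ range (f.natDegree + 1), |(f.coeff i : ℝ)|⌋₊ + 1), ?_⟩
  intro X P hX0 hXP1 hPA
  have hX1 : X1 ≤ X := le_trans (le_trans (le_max_left _ _) (le_max_left _ _)) hX0
  have hX2 : 2 ≤ X := le_trans (le_trans (le_max_right _ _) (le_max_left _ _)) hX0
  have hXA : ∑ i ∈ range (f.natDegree + 1), |(f.coeff i : ℝ)| < X := by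
    have h1 := le_trans (le_max_right _ _) hX0
    exact (Nat.floor_lt' (by omega)).mp (Nat.lt_of_succ_le h1)
  have hXr2 : (2 : ℝ) ≤ X := by exact_mod_cast hX2
  have hXr : (1 : ℝ) ≤ X := by linarith
  have hXpos : (0 : ℝ) < X := by linarith
  have hXPr : (X : ℝ) ≤ P := by
    refine le_trans ?_ hXP1
    calc (X : ℝ) = (X : ℝ) ^ (1 : ℝ) := (Real.rpow_one _).symm
      _ ≤ (X : ℝ) ^ (1 + c1) := Real.rpow_le_rpow_of_exponent_le hXr (by linarith)
  have hXP : X ≤ P := by exact_mod_cast hXPr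
  have hPpos : (0 : ℝ) < P := by linarith
  -- the parameter `l`
  have hlogX : 0 < Real.log X := Real.log_pos (by linarith)
  obtain ⟨t, ht⟩ : ∃ t : ℝ, t = Real.log P / Real.log X - 1 := ⟨_, rfl⟩
  have hPt : (P : ℝ) = (X : ℝ) ^ (1 + t) := by
    rw [ht, add_sub_cancel, Real.rpow_def_of_pos hXpos, mul_div_cancel₀ _ hlogX.ne',
      Real.exp_log hPpos]
  have htc : c1 ≤ t := by
    rw [hPt] at hXP1
    have := (Real.rpow_le_rpow_left_iff (x := (X : ℝ)) (by linarith)).mp hXP1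
    linarith
  have htk : t ≤ ((f.natDegree : ℝ) - k) / k := by
    rw [hPt, ← Real.rpow_natCast, ← Real.rpow_natCast, ← Real.rpow_mul hXpos.le] at hPA
    have := (Real.rpow_le_rpow_left_iff (x := (X : ℝ)) (by linarith)).mp hPA
    rw [le_div_iff₀ hkpos]
    linarith
  obtain ⟨l, hl⟩ : ∃ l : ℝ, l = t / (((f.natDegree : ℝ) - k) / k) := ⟨_, rfl⟩
  have hlt : l * (((f.natDegree : ℝ) - k) / k) = t := by
    rw [hl]
    field_simp
  have hl1 : c1 * k / ((f.natDegree : ℝ) - k) ≤ l := by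
    rw [hl, div_div_eq_mul_div]
    apply div_le_div_of_nonneg_right _ hhpos.le
    exact mul_le_mul_of_nonneg_right htc hkpos.le
  have hl0 : 0 ≤ l := le_trans (by positivity) hl1
  have hl2 : l ≤ 1 := by
    rw [hl, div_le_one (by positivity)]
    exact htk
  obtain ⟨hp1, hp2⟩ := hpar l hl1 hl2
  rw [hlt] at hp1 hp2
  have hfib' := hfib X P hX1 hXP l hl0 hl2 (by rw [hlt]; exact hPt)
  have hx0 : 0 < (1 - l) * x0 + l * x1 := by
    rcases eq_or_lt_of_le hl0 with h | h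
    · rw [← h]
      simpa using hXa
    · have h1 : 0 ≤ (1 - l) * x0 := mul_nonneg (by linarith) hXa.le
      have h2 : 0 < l * x1 := mul_pos h hXb
      linarith
  generalize (1 - l) * x0 + l * x1 = x at hp1 hp2 hfib' hx0
  have hx2 : x ≤ 2 := by
    have ht0 : 0 ≤ β * (2 + t) / 2 := by
      have : 0 ≤ 2 + t := by linarith
      positivity
    nlinarith
  exact range2_core f hirr k (by omega) (by omega) K β η x t hK0 hβ0 hβ1 X P hX2 hXP hXA hPt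
    hx0 hx2 hp1 hp2 hfib'

end Vale.Agent.P018
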