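import Mathlib
import Vale.Agent.P018.PairsRange2

/-! The bound for the number of pairs when `P ≥ X^(1 + 2/(5d))` and `9 k = 5 d + 2`. -/

namespace Vale.Agent.P018

open Finset Polynomial

theorem pairs_mono (f : ℤ[X]) (k X X' P : ℕ) (h : X ≤ X') : pairs f k X P ⊆ pairs f k X' P := by
  intro z hz
  simp only [pairs, mem_filter, mem_product, mem_Icc] at hz ⊢
  exact ⟨⟨⟨hz.1.1.1, hz.1.1.2.trans h⟩, hz.1.2⟩, hz.2⟩

theorem pairs_range2_gen (f : ℤ[X]) (hirr : Irreducible (f.map (Int.castRingHom ℚ))) (k : ℕ)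
    (hk : 2 ≤ k) (hkd : k < f.natDegree) (c1 c : ℝ) (hc1 : 0 < c1) (hcc : c1 < c)
    (hc : (1 - 1 / (2 * (f.natDegree : ℝ))) * ((1 - c1 * k / ((f.natDegree : ℝ) - k)) *
      (9 * ((f.natDegree : ℝ) - k) / (4 * (f.natDegree : ℝ))) +
      c1 * k / ((f.natDegree : ℝ) - k) * (9 * ((f.natDegree : ℝ) - k) / (4 * (f.natDegree : ℝ)) *
      (((k : ℝ) + (f.natDegree : ℝ)) / (3 * k)) ^ 2)) + (1 / (2 * (f.natDegree : ℝ))) * (2 + c1) < 1)
    (hc' : (1 - 1 / (2 * (f.natDegree : ℝ))) * (9 * ((f.natDegree : ℝ) - k) /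
      (4 * (f.natDegree : ℝ)) * (((k : ℝ) + (f.natDegree : ℝ)) / (3 * k)) ^ 2) +
      (1 / (2 * (f.natDegree : ℝ))) * (2 + ((f.natDegree : ℝ) - k) / k) < 1)
    (A : ℝ) :
    ∃ η K : ℝ, 0 < η ∧ 0 < K ∧ ∃ X0 : ℕ, ∀ X P : ℕ, X0 ≤ X → (X : ℝ) ^ (1 + c) ≤ P →
      (P : ℝ) ^ k ≤ A * (X : ℝ) ^ f.natDegree →
      ((pairs f k X P).card : ℝ) ≤ K * (X : ℝ) ^ (1 - η) := by
  obtain ⟨η, K, hη, hK, X1, hmain⟩ := pairs_range2_aux f hirr k hk hkd c1 hc1 hc hc'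
  obtain ⟨a, ha⟩ : ∃ a : ℕ, a = ⌈A⌉₊ + 1 := ⟨_, rfl⟩
  have haA : A ≤ a := by
    have := Nat.le_ceil A
    rw [ha]
    push_cast
    linarith
  have ha1 : (1 : ℝ) ≤ a := by
    have : 1 ≤ a := by omega
    exact_mod_cast this
  have hapos : (0 : ℝ) < a := by linarith
  have hlim : Filter.Tendsto (fun X : ℕ => (X : ℝ) ^ (c - c1)) Filter.atTop Filter.atTop :=
    (tendsto_rpow_atTop (by linarith)).comp tendsto_natCast_atTop_atTop
  obtain ⟨X2, hX2⟩ := Filter.eventually_atTop.mp (hlim.eventually_ge_atTop ((a : ℝ) ^ (1 + c1)))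
  refine ⟨η, K * (a : ℝ) ^ (1 - η), hη, by positivity, max (max X1 X2) 1, ?_⟩
  intro X P hX hXP hPA
  have hX1 : X1 ≤ X := le_trans (le_trans (le_max_left _ _) (le_max_left _ _)) hX
  have hX2' : X2 ≤ X := le_trans (le_trans (le_max_right _ _) (le_max_left _ _)) hX
  have hX3 : 1 ≤ X := le_trans (le_max_right _ _) hX
  have hXpos : (0 : ℝ) < X := by exact_mod_cast hX3
  have hXa : X ≤ a * X := Nat.le_mul_of_pos_left _ (by omega)
  have h1 : ((a * X : ℕ) : ℝ) ^ (1 + c1) ≤ P := by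
    refine le_trans ?_ hXP
    push_cast
    rw [Real.mul_rpow hapos.le hXpos.le]
    calc (a : ℝ) ^ (1 + c1) * (X : ℝ) ^ (1 + c1) ≤ (X : ℝ) ^ (c - c1) * (X : ℝ) ^ (1 + c1) :=
          mul_le_mul_of_nonneg_right (hX2 X hX2') (by positivity)
      _ = (X : ℝ) ^ (1 + c) := by
          rw [← Real.rpow_add hXpos]
          congr 1
          ring
  have h2 : (P : ℝ) ^ k ≤ ((a * X : ℕ) : ℝ) ^ f.natDegree := by
    refine hPA.trans ?_
    push_cast
    rw [mul_pow]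
    apply mul_le_mul_of_nonneg_right _ (by positivity)
    exact haA.trans (le_self_pow₀ ha1 (by omega))
  have h3 := hmain (a * X) P (hX1.trans hXa) h1 h2
  have h4 : ((pairs f k X P).card : ℝ) ≤ ((pairs f k (a * X) P).card : ℝ) := by
    exact_mod_cast Finset.card_le_card (pairs_mono f k X (a * X) P hXa)
  refine h4.trans (h3.trans (le_of_eq ?_))
  push_cast
  rw [Real.mul_rpow hapos.le hXpos.le]
  ring

/-- RANGE 2 for `9 k = 5 d + 2`. -/
theorem pairs_range2 (f : ℤ[X]) (hirr : Irreducible (f.map (Int.castRingHom ℚ))) (k : ℕ)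
    (hk : 2 ≤ k) (hkd : k < f.natDegree) (hr : 9 * k = 5 * f.natDegree + 2) (A : ℝ) :
    ∃ η K : ℝ, 0 < η ∧ 0 < K ∧ ∃ X0 : ℕ, ∀ X P : ℕ, X0 ≤ X →
      (X : ℝ) ^ (1 + 2 / (5 * (f.natDegree : ℝ))) ≤ P →
      (P : ℝ) ^ k ≤ A * (X : ℝ) ^ f.natDegree →
      ((pairs f k X P).card : ℝ) ≤ K * (X : ℝ) ^ (1 - η) := by
  have hd5 : 5 ≤ f.natDegree := by omega
  have hkr : (k : ℝ) = (5 * (f.natDegree : ℝ) + 2) / 9 := by
    rw [eq_div_iff (by norm_num)]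
    have : ((9 * k : ℕ) : ℝ) = ((5 * f.natDegree + 2 : ℕ) : ℝ) := by exact_mod_cast hr
    push_cast at this
    linarith
  have hd5r : (5 : ℝ) ≤ f.natDegree := by exact_mod_cast hd5
  refine pairs_range2_gen f hirr k hk hkd (3 / (8 * (f.natDegree : ℝ)))
    (2 / (5 * (f.natDegree : ℝ))) (by positivity) ?_ ?_ ?_ A
  · rw [div_lt_div_iff₀ (by positivity) (by positivity)]
    nlinarith
  · rw [hkr]
    generalize (f.natDegree : ℝ) = d at hd5r
    have hd0 : 0 < d := by linarith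
    have h1 : d - (5 * d + 2) / 9 = (4 * d - 2) / 9 := by ring
    have h2 : 0 < 4 * d - 2 := by linarith
    rw [h1]
    have h3 : (1 - 1 / (2 * d)) * ((1 - 3 / (8 * d) * ((5 * d + 2) / 9) / ((4 * d - 2) / 9)) *
      (9 * ((4 * d - 2) / 9) / (4 * d)) +
      3 / (8 * d) * ((5 * d + 2) / 9) / ((4 * d - 2) / 9) * (9 * ((4 * d - 2) / 9) / (4 * d) *
      (((5 * d + 2) / 9 + d) / (3 * ((5 * d + 2) / 9))) ^ 2)) + (1 / (2 * d)) * (2 + 3 / (8 * d)) =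
      1 - ((2 * d - 1) * (d + 4) * (29 * d + 8) - 84 * d * (5 * d + 2)) /
        (192 * d ^ 3 * (5 * d + 2)) := by
      obtain ⟨y, hy⟩ : ∃ y : ℝ, d = (y + 1) / 2 := ⟨2 * d - 1, by ring⟩
      have hy0 : 0 < y := by linarith
      have hy1 : y ≠ 0 := hy0.ne'
      have hy2 : y + 1 ≠ 0 := by positivity
      have hy3 : 5 * y + 9 ≠ 0 := by positivity
      rw [hy]
      have e1 : 4 * ((y + 1) / 2) - 2 = 2 * y := by ring
      have e2 : 5 * ((y + 1) / 2) + 2 = (5 * y + 9) / 2 := by ring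
      rw [e1, e2]
      field_simp
      ring
    rw [h3]
    have h6 : 0 < (2 * d - 1) * (d + 4) * (29 * d + 8) - 84 * d * (5 * d + 2) := by
      nlinarith [mul_nonneg (sub_nonneg.mpr hd5r) (sub_nonneg.mpr hd5r),
        mul_nonneg (mul_nonneg (sub_nonneg.mpr hd5r) (sub_nonneg.mpr hd5r)) hd0.le]
    have h7 : 0 < ((2 * d - 1) * (d + 4) * (29 * d + 8) - 84 * d * (5 * d + 2)) /
        (192 * d ^ 3 * (5 * d + 2)) := by positivity
    linarith
  · rw [hkr]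
    generalize (f.natDegree : ℝ) = d at hd5r
    have hd0 : 0 < d := by linarith
    have h1 : d - (5 * d + 2) / 9 = (4 * d - 2) / 9 := by ring
    have h2 : 0 < 4 * d - 2 := by linarith
    rw [h1]
    have h3 : (1 - 1 / (2 * d)) * (9 * ((4 * d - 2) / 9) / (4 * d) *
      (((5 * d + 2) / 9 + d) / (3 * ((5 * d + 2) / 9))) ^ 2) +
      (1 / (2 * d)) * (2 + ((4 * d - 2) / 9) / ((5 * d + 2) / 9)) =
      1 - ((2 * d - 1) ^ 2 * (d + 4) * (29 * d + 8) - 9 * (5 * d + 2) ^ 2 -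
        36 * d * (2 * d - 1) * (5 * d + 2)) / (36 * d ^ 2 * (5 * d + 2) ^ 2) := by
      have h5 : (5 * d + 2) ≠ 0 := by positivity
      field_simp
      ring
    rw [h3]
    have h6 : 0 < (2 * d - 1) ^ 2 * (d + 4) * (29 * d + 8) - 9 * (5 * d + 2) ^ 2 -
        36 * d * (2 * d - 1) * (5 * d + 2) := by
      obtain ⟨y, hy⟩ : ∃ y : ℝ, d = 5 + y := ⟨d - 5, by ring⟩
      have hy0 : 0 ≤ y := by linarith
      rw [hy]
      have h8 : (2 * (5 + y) - 1) ^ 2 * (5 + y + 4) * (29 * (5 + y) + 8) -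
        9 * (5 * (5 + y) + 2) ^ 2 - 36 * (5 + y) * (2 * (5 + y) - 1) * (5 * (5 + y) + 2) =
        61236 + 54108 * y + 17172 * y ^ 2 + 2340 * y ^ 3 + 116 * y ^ 4 := by
        ring
      rw [h8]
      positivity
    have h7 : 0 < ((2 * d - 1) ^ 2 * (d + 4) * (29 * d + 8) - 9 * (5 * d + 2) ^ 2 -
        36 * d * (2 * d - 1) * (5 * d + 2)) / (36 * d ^ 2 * (5 * d + 2) ^ 2) := by positivity
    linarith

end Vale.Agent.P018
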