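import Vale.Agent.P018.Defs

/-! # P018, module A: the sieve -/

namespace Vale.Agent.P018

open Polynomial Filter Topology Asymptotics

/-! ### bounded number of roots modulo prime powers -/

theorem sv_normal (a : ℚ[X]) : ∃ (A : ℤ[X]) (b : ℤ), b ≠ 0 ∧
    A.map (Int.castRingHom ℚ) = C (b : ℚ) * a := by
  obtain ⟨b, hb, h⟩ := IsLocalization.integerNormalization_spec (nonZeroDivisors ℤ) a
  refine ⟨IsLocalization.integerNormalization (nonZeroDivisors ℤ) a, b,
    nonZeroDivisors.ne_zero hb, ?_⟩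
  have h1 : (algebraMap ℤ ℚ) = Int.castRingHom ℚ := rfl
  rw [h1] at h
  rw [h, zsmul_eq_mul]
  congr 1

theorem sv_bezout (f : ℤ[X]) (hirr : Irreducible (f.map (Int.castRingHom ℚ))) :
    ∃ (u v : ℤ[X]) (R : ℤ), R ≠ 0 ∧ u * f + v * derivative f = C R := by
  obtain ⟨a, b, hab⟩ := hirr.separable
  obtain ⟨A, s, hs, hA⟩ := sv_normal a
  obtain ⟨B, t, ht, hB⟩ := sv_normal b
  refine ⟨C t * A, C s * B, s * t, mul_ne_zero hs ht, ?_⟩
  have hinj : Function.Injective (Polynomial.map (Int.castRingHom ℚ)) :=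
    Polynomial.map_injective _ (Int.cast_injective)
  apply hinj
  rw [Polynomial.derivative_map] at hab
  simp only [Polynomial.map_add, Polynomial.map_mul, Polynomial.map_C, hA, hB]
  simp only [eq_intCast, Int.cast_mul, C_mul]
  calc _ = C (s : ℚ) * C (t : ℚ) * (a * map (Int.castRingHom ℚ) f
        + b * map (Int.castRingHom ℚ) (derivative f)) := by ring
    _ = _ := by rw [hab, mul_one]

theorem sv_roots_mod_p (f : ℤ[X]) (p : ℕ) (hp : p.Prime) (hlc : ¬ (p : ℤ) ∣ f.leadingCoeff) :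
    rho f p ≤ f.natDegree := by
  have : Fact p.Prime := ⟨hp⟩
  set g : (ZMod p)[X] := f.map (Int.castRingHom (ZMod p)) with hg
  have hlc' : (Int.castRingHom (ZMod p)) f.leadingCoeff ≠ 0 := by
    intro h
    apply hlc
    rw [eq_intCast] at h
    exact (ZMod.intCast_zmod_eq_zero_iff_dvd _ p).mp h
  have hg0 : g ≠ 0 := by
    intro h
    apply hlc'
    have : g.coeff f.natDegree = 0 := by rw [h]; simp
    rw [hg, coeff_map] at this
    exact this
  have hdeg : g.natDegree ≤ f.natDegree := natDegree_map_le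
  have hsub : ((Finset.range p).filter (fun a : ℕ => (p : ℤ) ∣ f.eval (a : ℤ))).image
      (fun a : ℕ => (a : ZMod p)) ⊆ g.roots.toFinset := by
    intro x hx
    obtain ⟨a, ha, rfl⟩ := Finset.mem_image.mp hx
    rw [Multiset.mem_toFinset, mem_roots hg0, IsRoot.def, hg]
    have h1 := (Finset.mem_filter.mp ha).2
    have h2 := (ZMod.intCast_zmod_eq_zero_iff_dvd _ p).mpr h1
    have h3 : eval ((Int.castRingHom (ZMod p)) (a : ℤ)) (map (Int.castRingHom (ZMod p)) f) =
        (Int.castRingHom (ZMod p)) (eval (a : ℤ) f) := eval_map_apply _ _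
    simp only [eq_intCast, Int.cast_natCast] at h3
    rw [h3]
    exact h2
  have hinj : Set.InjOn (fun a : ℕ => (a : ZMod p))
      ((Finset.range p).filter (fun a : ℕ => (p : ℤ) ∣ f.eval (a : ℤ)) : Finset ℕ) := by
    intro a ha b hb hab
    have ha' := Finset.mem_range.mp (Finset.mem_filter.mp (Finset.mem_coe.mp ha)).1
    have hb' := Finset.mem_range.mp (Finset.mem_filter.mp (Finset.mem_coe.mp hb)).1
    have h := (ZMod.natCast_eq_natCast_iff' a b p).mp hab
    rwa [Nat.mod_eq_of_lt ha', Nat.mod_eq_of_lt hb'] at h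
  calc rho f p = (((Finset.range p).filter (fun a : ℕ => (p : ℤ) ∣ f.eval (a : ℤ))).image
      (fun a : ℕ => (a : ZMod p))).card := (Finset.card_image_of_injOn hinj).symm
    _ ≤ g.roots.toFinset.card := Finset.card_le_card hsub
    _ ≤ g.roots.card := Multiset.toFinset_card_le _
    _ ≤ g.natDegree := card_roots' g
    _ ≤ f.natDegree := hdeg

theorem sv_rho_pow_le (f : ℤ[X]) (k p : ℕ) (hp : p.Prime) (hk : 1 ≤ k) (u v : ℤ[X]) (R : ℤ)
    (hR : u * f + v * derivative f = C R) (hpR : ¬ (p : ℤ) ∣ R) : rho f (p ^ k) ≤ rho f p := by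
  unfold rho
  have hp0 : 0 < p := hp.pos
  have hpp : Prime (p : ℤ) := Nat.prime_iff_prime_int.mp hp
  refine Finset.card_le_card_of_injOn (fun a => a % p) ?_ ?_
  · intro a ha
    have ha2 := (Finset.mem_filter.mp (Finset.mem_coe.mp ha)).2
    refine Finset.mem_coe.mpr (Finset.mem_filter.mpr ⟨Finset.mem_range.mpr (Nat.mod_lt _ hp0), ?_⟩)
    have h1 : (p : ℤ) ∣ f.eval (a : ℤ) := by
      refine dvd_trans ?_ ha2
      push_cast
      exact dvd_pow_self _ (by omega)
    have h2 : ((a : ℤ) - ((a % p : ℕ) : ℤ)) ∣ f.eval (a : ℤ) - f.eval ((a % p : ℕ) : ℤ) :=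
      sub_dvd_eval_sub _ _ f
    have h3 : (p : ℤ) ∣ (a : ℤ) - ((a % p : ℕ) : ℤ) := by
      push_cast
      exact Int.dvd_self_sub_emod
    have h4 := h3.trans h2
    have := dvd_sub h1 h4
    simpa using this
  · intro a ha b hb hab
    have ha2 := (Finset.mem_filter.mp (Finset.mem_coe.mp ha)).2
    have hb2 := (Finset.mem_filter.mp (Finset.mem_coe.mp hb)).2
    have ha1 := Finset.mem_range.mp (Finset.mem_filter.mp (Finset.mem_coe.mp ha)).1
    have hb1 := Finset.mem_range.mp (Finset.mem_filter.mp (Finset.mem_coe.mp hb)).1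
    have hab' : a % p = b % p := hab
    -- p divides b - a
    have hpd : (p : ℤ) ∣ (b : ℤ) - a := by
      have : (a : ℤ) ≡ b [ZMOD p] := by exact_mod_cast hab'
      exact this.dvd
    obtain ⟨c, hc⟩ := f.binomExpansion (a : ℤ) ((b : ℤ) - a)
    rw [add_sub_cancel] at hc
    have hfa : (p : ℤ) ∣ f.eval (a : ℤ) := by
      refine dvd_trans ?_ ha2
      push_cast
      exact dvd_pow_self _ (by omega)
    have hder : ¬ (p : ℤ) ∣ (derivative f).eval (a : ℤ) := by
      intro h
      apply hpR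
      have h1 : (u * f + v * derivative f).eval (a : ℤ) = R := by rw [hR]; simp
      rw [← h1, eval_add, eval_mul, eval_mul]
      exact dvd_add (Dvd.dvd.mul_left hfa _) (Dvd.dvd.mul_left h _)
    have hfac : f.eval (b : ℤ) - f.eval (a : ℤ) =
        ((b : ℤ) - a) * ((derivative f).eval (a : ℤ) + c * ((b : ℤ) - a)) := by
      rw [hc]
      ring
    have hnd : ¬ (p : ℤ) ∣ ((derivative f).eval (a : ℤ) + c * ((b : ℤ) - a)) := by
      intro h
      apply hder
      have := dvd_sub h (Dvd.dvd.mul_left hpd c)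
      simpa using this
    have hpk : ((p : ℤ)) ^ k ∣ ((b : ℤ) - a) := by
      have h1 : ((p : ℤ)) ^ k ∣ ((b : ℤ) - a) * ((derivative f).eval (a : ℤ) + c * ((b : ℤ) - a)) := by
        rw [← hfac]
        push_cast at ha2 hb2
        exact dvd_sub hb2 ha2
      exact (IsCoprime.pow_left ((Prime.coprime_iff_not_dvd hpp).mpr hnd)).dvd_of_dvd_mul_right h1
    have h5 : (a : ℤ) ≡ b [ZMOD ((p ^ k : ℕ) : ℤ)] := by
      apply (Int.modEq_iff_dvd).mpr
      push_cast
      exact hpk
    have h6 : a ≡ b [MOD p ^ k] := (Int.natCast_modEq_iff).mp h5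
    have h7 : a % p ^ k = b % p ^ k := h6
    rwa [Nat.mod_eq_of_lt ha1, Nat.mod_eq_of_lt hb1] at h7

theorem sv_rho_bound (f : ℤ[X]) (k : ℕ) (hk : 1 ≤ k)
    (hirr : Irreducible (f.map (Int.castRingHom ℚ))) :
    ∃ D : ℕ, ∀ p : ℕ, p.Prime → rho f (p ^ k) ≤ D := by
  obtain ⟨u, v, R, hR0, hR⟩ := sv_bezout f hirr
  have hf0 : f ≠ 0 := by
    rintro rfl
    simp at hirr
  have hlc0 : f.leadingCoeff ≠ 0 := leadingCoeff_ne_zero.mpr hf0
  set T := max R.natAbs f.leadingCoeff.natAbs with hT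
  refine ⟨f.natDegree + T ^ k, fun p hp => ?_⟩
  by_cases hpT : p ≤ T
  · have h1 : rho f (p ^ k) ≤ p ^ k := by
      unfold rho
      refine (Finset.card_filter_le _ _).trans ?_
      rw [Finset.card_range]
    have h2 : p ^ k ≤ T ^ k := Nat.pow_le_pow_left hpT k
    omega
  · push Not at hpT
    have h1 : ¬ (p : ℤ) ∣ R := by
      intro h
      have h2 : p ∣ R.natAbs := Int.natCast_dvd.mp h
      have h3 := Nat.le_of_dvd (Int.natAbs_pos.mpr hR0) h2
      have := le_max_left R.natAbs f.leadingCoeff.natAbs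
      omega
    have h1' : ¬ (p : ℤ) ∣ f.leadingCoeff := by
      intro h
      have h2 : p ∣ f.leadingCoeff.natAbs := Int.natCast_dvd.mp h
      have h3 := Nat.le_of_dvd (Int.natAbs_pos.mpr hlc0) h2
      have := le_max_right R.natAbs f.leadingCoeff.natAbs
      omega
    have h2 := sv_rho_pow_le f k p hp hk u v R hR h1
    have h3 := sv_roots_mod_p f p hp h1'
    omega

/-! ### the density as a limit -/

/-- the local factor as a function on all naturals -/
noncomputable def svLf (f : ℤ[X]) (k n : ℕ) : ℝ :=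
  if n.Prime then 1 - (rho f (n ^ k) : ℝ) / (n : ℝ) ^ k else 1

theorem svLf_pos (f : ℤ[X]) (k : ℕ) (hloc : ∀ p : ℕ, p.Prime → rho f (p ^ k) < p ^ k) (n : ℕ) :
    0 < svLf f k n := by
  unfold svLf
  split_ifs with h
  · have h1 : (rho f (n ^ k) : ℝ) < (n : ℝ) ^ k := by exact_mod_cast hloc n h
    have h2 : (0 : ℝ) < (n : ℝ) ^ k := by
      have : 0 < n ^ k := pow_pos h.pos k
      exact_mod_cast this
    have : (rho f (n ^ k) : ℝ) / (n : ℝ) ^ k < 1 := (div_lt_one h2).mpr h1
    linarith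
  · exact one_pos

theorem sv_density (f : ℤ[X]) (k : ℕ) (hk : 2 ≤ k) (D : ℕ)
    (hD : ∀ p : ℕ, p.Prime → rho f (p ^ k) ≤ D)
    (hloc : ∀ p : ℕ, p.Prime → rho f (p ^ k) < p ^ k) :
    0 < density f k ∧
      Tendsto (fun z : ℕ => ∏ n ∈ Finset.range z, svLf f k n) atTop (𝓝 (density f k)) := by
  have hpos := svLf_pos f k hloc
  have hsum : Summable (fun n : ℕ => svLf f k n - 1) := by
    have h1 : Summable (fun n : ℕ => (D : ℝ) * (1 / (n : ℝ) ^ 2)) :=
      (Real.summable_one_div_nat_pow.mpr (by norm_num)).mul_left _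
    refine Summable.of_norm_bounded h1 fun n => ?_
    unfold svLf
    split_ifs with h
    · have h2 : (1 : ℝ) ≤ n := by exact_mod_cast h.one_lt.le
      have h3 : (n : ℝ) ^ 2 ≤ (n : ℝ) ^ k := pow_le_pow_right₀ h2 hk
      have h4 : (rho f (n ^ k) : ℝ) ≤ D := by exact_mod_cast hD n h
      have h5 : (0 : ℝ) ≤ (rho f (n ^ k) : ℝ) / (n : ℝ) ^ k := by positivity
      rw [Real.norm_eq_abs, show (1 : ℝ) - (rho f (n ^ k) : ℝ) / (n : ℝ) ^ k - 1 =
        -((rho f (n ^ k) : ℝ) / (n : ℝ) ^ k) by ring, abs_neg, abs_of_nonneg h5, mul_one_div]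
      gcongr
    · simp
      positivity
  have hlog : Summable (fun n : ℕ => Real.log (svLf f k n)) := by
    have := Real.summable_log_one_add_of_summable hsum
    refine this.congr fun n => ?_
    congr 1
    ring
  have hprod := Real.hasProd_of_hasSum_log hpos hlog.hasSum
  have hd : density f k = ∏' n : ℕ, svLf f k n := by
    unfold density
    have h1 := tprod_subtype {p : ℕ | p.Prime}
      (fun p : ℕ => (1 - (rho f (p ^ k) : ℝ) / (p : ℝ) ^ k))
    have h2 : (∏' n : ℕ, svLf f k n) =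
        ∏' n : ℕ, ({p : ℕ | p.Prime}).mulIndicator
          (fun p : ℕ => (1 - (rho f (p ^ k) : ℝ) / (p : ℝ) ^ k)) n := by
      congr 1
      funext n
      unfold svLf
      by_cases h : n.Prime
      · rw [if_pos h, Set.mulIndicator_of_mem (by exact h)]
      · rw [if_neg h, Set.mulIndicator_of_notMem (by exact h)]
    rw [h2, ← h1]
    rfl
  rw [hd, hprod.tprod_eq]
  exact ⟨Real.exp_pos _, hprod.tendsto_prod_nat⟩

/-! ### periodic functions -/

theorem sv_sum_mul (G : ℕ → ℝ) (M : ℕ) (hper : ∀ u, G (u + M) = G u) (q r : ℕ) :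
    ∑ n ∈ Finset.range (M * q + r), G n = q * ∑ n ∈ Finset.range M, G n
      + ∑ n ∈ Finset.range r, G n := by
  induction q with
  | zero => simp
  | succ q ih =>
    have h1 : M * (q + 1) + r = M + (M * q + r) := by ring
    rw [h1, Finset.sum_range_add]
    have h2 : ∀ n ∈ Finset.range (M * q + r), G (M + n) = G n := fun n _ => by
      rw [add_comm, hper]
    rw [Finset.sum_congr rfl h2, ih]
    push_cast
    ring

theorem sv_periodic_bound (G : ℕ → ℝ) (M : ℕ) (hM : 0 < M) (hper : ∀ u, G (u + M) = G u)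
    (h0 : ∀ u, 0 ≤ G u) (h1 : ∀ u, G u ≤ 1) (X : ℕ) :
    |∑ n ∈ Finset.Icc 1 X, G n - X * ((∑ n ∈ Finset.range M, G n) / M)| ≤ M + 2 := by
  set S := ∑ n ∈ Finset.range M, G n with hS
  have hM' : (0 : ℝ) < M := by exact_mod_cast hM
  have hS0 : 0 ≤ S := Finset.sum_nonneg fun _ _ => h0 _
  have hSM : S ≤ M := by
    calc S ≤ ∑ n ∈ Finset.range M, (1 : ℝ) := Finset.sum_le_sum fun _ _ => h1 _
      _ = M := by simp
  have hIcc : ∑ n ∈ Finset.Icc 1 X, G n = ∑ n ∈ Finset.range (X + 1), G n - G 0 := by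
    have h : Finset.range (X + 1) = insert 0 (Finset.Icc 1 X) := by
      ext n
      simp only [Finset.mem_range, Finset.mem_insert, Finset.mem_Icc]
      omega
    rw [h, Finset.sum_insert (by simp)]
    ring
  set q := (X + 1) / M with hq
  set r := (X + 1) % M with hr
  have hqr : X + 1 = M * q + r := (Nat.div_add_mod (X + 1) M).symm
  have hrM : r < M := Nat.mod_lt _ hM
  have hsum : ∑ n ∈ Finset.range (X + 1), G n = q * S + ∑ n ∈ Finset.range r, G n := by
    rw [hqr]
    exact sv_sum_mul G M hper q r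
  set T := ∑ n ∈ Finset.range r, G n with hT
  have hT0 : 0 ≤ T := Finset.sum_nonneg fun _ _ => h0 _
  have hTr : T ≤ r := by
    calc T ≤ ∑ n ∈ Finset.range r, (1 : ℝ) := Finset.sum_le_sum fun _ _ => h1 _
      _ = r := by simp
  have hqr' : (X : ℝ) + 1 = M * q + r := by exact_mod_cast hqr
  have hr' : (r : ℝ) ≤ M := by exact_mod_cast hrM.le
  have hr0 : (0 : ℝ) ≤ r := Nat.cast_nonneg r
  have hX : (X : ℝ) * (S / M) = q * S + (r - 1) * (S / M) := by
    have : (X : ℝ) = M * q + r - 1 := by linarith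
    rw [this]
    field_simp
    ring
  have hSM1 : S / M ≤ 1 := (div_le_one hM').mpr hSM
  have hSM0 : 0 ≤ S / M := by positivity
  rw [hIcc, hsum, hX]
  have h00 := h0 0
  have h01 := h1 0
  rw [abs_le]
  constructor
  · nlinarith
  · nlinarith

theorem sv_periodic_upper (G : ℕ → ℝ) (M : ℕ) (hM : 0 < M) (hper : ∀ u, G (u + M) = G u)
    (h0 : ∀ u, 0 ≤ G u) (X : ℕ) :
    ∑ n ∈ Finset.Icc 1 X, G n ≤ ((X : ℝ) / M + 1) * ∑ n ∈ Finset.range M, G n := by
  have hsub : Finset.Icc 1 X ⊆ Finset.range (M * (X / M + 1) + 0) := by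
    intro n hn
    rw [Finset.mem_Icc] at hn
    rw [Finset.mem_range]
    have := Nat.lt_mul_div_succ X hM
    omega
  have hS0 : 0 ≤ ∑ n ∈ Finset.range M, G n := Finset.sum_nonneg fun _ _ => h0 _
  calc ∑ n ∈ Finset.Icc 1 X, G n ≤ ∑ n ∈ Finset.range (M * (X / M + 1) + 0), G n :=
        Finset.sum_le_sum_of_subset_of_nonneg hsub fun n _ _ => h0 n
    _ = ((X / M + 1 : ℕ) : ℝ) * ∑ n ∈ Finset.range M, G n := by
        rw [sv_sum_mul G M hper]
        simp
    _ ≤ ((X : ℝ) / M + 1) * ∑ n ∈ Finset.range M, G n := by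
        refine mul_le_mul_of_nonneg_right ?_ hS0
        push_cast
        have : ((X / M : ℕ) : ℝ) ≤ (X : ℝ) / M := Nat.cast_div_le
        linarith

/-- two-variable CRT for sums. -/
theorem sv_sum_range_mul_coprime {m n : ℕ} (hm : 0 < m) (hn : 0 < n) (h : Nat.Coprime m n)
    (F : ℕ → ℕ → ℝ) :
    ∑ u ∈ Finset.range (m * n), F (u % m) (u % n) =
      ∑ v ∈ Finset.range m, ∑ w ∈ Finset.range n, F v w := by
  rw [← Finset.sum_product']
  refine Finset.sum_nbij (fun u => (u % m, u % n)) ?_ ?_ ?_ ?_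
  · intro u _
    simp only [Finset.mem_product, Finset.mem_range]
    exact ⟨Nat.mod_lt _ hm, Nat.mod_lt _ hn⟩
  · intro u hu v hv huv
    simp only [Finset.coe_range, Set.mem_Iio] at hu hv
    simp only [Prod.mk.injEq] at huv
    have h1 : u ≡ v [MOD m * n] :=
      (Nat.modEq_and_modEq_iff_modEq_mul h).1 ⟨huv.1, huv.2⟩
    have h2 : u % (m * n) = v % (m * n) := h1
    rwa [Nat.mod_eq_of_lt hu, Nat.mod_eq_of_lt hv] at h2
  · rintro ⟨a, b⟩ hab
    simp only [Finset.coe_product, Finset.coe_range, Set.mem_prod, Set.mem_Iio] at hab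
    refine ⟨(Nat.chineseRemainder h a b : ℕ), ?_, ?_⟩
    · simp only [Finset.coe_range, Set.mem_Iio]
      exact Nat.chineseRemainder_lt_mul h a b hm.ne' hn.ne'
    · have hp := (Nat.chineseRemainder h a b).2
      simp only [Prod.mk.injEq]
      constructor
      · have : (Nat.chineseRemainder h a b : ℕ) % m = a % m := hp.1
        rw [this, Nat.mod_eq_of_lt hab.1]
      · have : (Nat.chineseRemainder h a b : ℕ) % n = b % n := hp.2
        rw [this, Nat.mod_eq_of_lt hab.2]
  · intro u _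
    rfl

theorem sv_dvd_mod (f : ℤ[X]) (q u : ℕ) :
    ((q : ℤ) ∣ f.eval ((u % q : ℕ) : ℤ)) ↔ ((q : ℤ) ∣ f.eval (u : ℤ)) := by
  have h2 : ((u : ℤ) - ((u % q : ℕ) : ℤ)) ∣ f.eval (u : ℤ) - f.eval ((u % q : ℕ) : ℤ) :=
    sub_dvd_eval_sub _ _ f
  have h3 : (q : ℤ) ∣ (u : ℤ) - ((u % q : ℕ) : ℤ) := by
    push_cast
    exact Int.dvd_self_sub_emod
  have h4 := h3.trans h2
  constructor
  · intro h
    have := dvd_add h4 h
    simpa using this
  · intro h
    have := dvd_sub h h4
    simpa using this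

/-- indicator of `q` not dividing `f(n)` -/
noncomputable def svI (f : ℤ[X]) (q n : ℕ) : ℝ := if (q : ℤ) ∣ f.eval (n : ℤ) then 0 else 1

theorem svI_mod (f : ℤ[X]) (q u : ℕ) : svI f q (u % q) = svI f q u := by
  unfold svI
  simp only [sv_dvd_mod]

theorem svI_mod_of_dvd (f : ℤ[X]) {q M : ℕ} (h : q ∣ M) (u : ℕ) : svI f q (u % M) = svI f q u := by
  rw [← svI_mod f q (u % M), Nat.mod_mod_of_dvd _ h, svI_mod]

theorem svI_sum (f : ℤ[X]) (q : ℕ) :
    ∑ u ∈ Finset.range q, svI f q u = (q : ℝ) - rho f q := by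
  have h1 : ∀ u ∈ Finset.range q, svI f q u = 1 - (if (q : ℤ) ∣ f.eval (u : ℤ) then (1 : ℝ) else 0) := by
    intro u _
    unfold svI
    split_ifs <;> simp
  rw [Finset.sum_congr rfl h1, Finset.sum_sub_distrib, Finset.sum_boole]
  simp [rho]

theorem sv_prod_sum (f : ℤ[X]) (k : ℕ) (P : Finset ℕ) (hP : ∀ p ∈ P, p.Prime) :
    ∑ u ∈ Finset.range (∏ p ∈ P, p ^ k), ∏ p ∈ P, svI f (p ^ k) u =
      ∏ p ∈ P, ((p : ℝ) ^ k - rho f (p ^ k)) := by
  induction P using Finset.induction_on with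
  | empty => simp
  | insert p P hp ih =>
    have hpp := hP p (Finset.mem_insert_self p P)
    have hP' : ∀ q ∈ P, q.Prime := fun q hq => hP q (Finset.mem_insert_of_mem hq)
    have ih' := ih hP'
    rw [Finset.prod_insert hp, Finset.prod_insert hp]
    set M := ∏ q ∈ P, q ^ k with hM
    have hMpos : 0 < M := Finset.prod_pos fun q hq => pow_pos (hP' q hq).pos k
    have hcop : Nat.Coprime (p ^ k) M := by
      rw [hM]
      apply Nat.Coprime.prod_right
      intro q hq
      apply Nat.Coprime.pow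
      rw [Nat.coprime_primes hpp (hP' q hq)]
      rintro rfl
      exact hp hq
    have h1 : ∀ u ∈ Finset.range (p ^ k * M), ∏ q ∈ insert p P, svI f (q ^ k) u =
        svI f (p ^ k) (u % (p ^ k)) * ∏ q ∈ P, svI f (q ^ k) (u % M) := by
      intro u _
      rw [Finset.prod_insert hp, svI_mod]
      congr 1
      refine Finset.prod_congr rfl fun q hq => ?_
      rw [svI_mod_of_dvd f (Finset.dvd_prod_of_mem (fun q => q ^ k) hq)]
    rw [Finset.sum_congr rfl h1, sv_sum_range_mul_coprime (pow_pos hpp.pos k) hMpos hcop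
      (fun v w => svI f (p ^ k) v * ∏ q ∈ P, svI f (q ^ k) w), ← Finset.sum_mul_sum, ih', svI_sum]
    push_cast
    rfl

/-! ### the partial sieve -/

/-- indicator that no `k`-th power of a prime below `z` divides `f(n)` -/
noncomputable def svG (f : ℤ[X]) (k z n : ℕ) : ℝ :=
  ∏ p ∈ (Finset.range z).filter Nat.Prime, svI f (p ^ k) n

theorem svI_nonneg (f : ℤ[X]) (q n : ℕ) : 0 ≤ svI f q n := by
  unfold svI
  split_ifs <;> norm_num

theorem svI_le_one (f : ℤ[X]) (q n : ℕ) : svI f q n ≤ 1 := by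
  unfold svI
  split_ifs <;> norm_num

theorem svG_nonneg (f : ℤ[X]) (k z n : ℕ) : 0 ≤ svG f k z n :=
  Finset.prod_nonneg fun _ _ => svI_nonneg f _ n

theorem svG_le_one (f : ℤ[X]) (k z n : ℕ) : svG f k z n ≤ 1 :=
  Finset.prod_le_one (fun _ _ => svI_nonneg f _ n) fun _ _ => svI_le_one f _ n

theorem sv_partial (f : ℤ[X]) (k z : ℕ) :
    Tendsto (fun X : ℕ => (∑ n ∈ Finset.Icc 1 X, svG f k z n) / X) atTop
      (𝓝 (∏ n ∈ Finset.range z, svLf f k n)) := by
  set P := (Finset.range z).filter Nat.Prime with hP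
  have hPp : ∀ p ∈ P, p.Prime := fun p hp => (Finset.mem_filter.mp hp).2
  set M := ∏ p ∈ P, p ^ k with hM
  have hMpos : 0 < M := Finset.prod_pos fun q hq => pow_pos (hPp q hq).pos k
  have hM' : (0 : ℝ) < M := by exact_mod_cast hMpos
  have hper : ∀ u, svG f k z (u + M) = svG f k z u := by
    intro u
    unfold svG
    refine Finset.prod_congr rfl fun p hp => ?_
    have hd : p ^ k ∣ M := Finset.dvd_prod_of_mem (fun q => q ^ k) hp
    rw [← svI_mod_of_dvd f hd (u + M), Nat.add_mod_right, svI_mod_of_dvd f hd]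
  have hlim : (∑ n ∈ Finset.range M, svG f k z n) / M = ∏ n ∈ Finset.range z, svLf f k n := by
    have h1 : ∑ n ∈ Finset.range M, svG f k z n = ∏ p ∈ P, ((p : ℝ) ^ k - rho f (p ^ k)) :=
      sv_prod_sum f k P hPp
    have h2 : (M : ℝ) = ∏ p ∈ P, (p : ℝ) ^ k := by rw [hM]; push_cast; rfl
    rw [h1, h2, ← Finset.prod_div_distrib, hP, Finset.prod_filter]
    refine Finset.prod_congr rfl fun n _ => ?_
    unfold svLf
    split_ifs with h
    · have hn : (n : ℝ) ^ k ≠ 0 := pow_ne_zero _ (by exact_mod_cast h.pos.ne')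
      rw [sub_div, div_self hn]
    · rfl
  rw [← hlim]
  have hb := sv_periodic_bound (svG f k z) M hMpos hper (svG_nonneg f k z) (svG_le_one f k z)
  set A := (∑ n ∈ Finset.range M, svG f k z n) / M with hA
  have h0 : Tendsto (fun X : ℕ => ((M : ℝ) + 2) / X) atTop (𝓝 0) :=
    tendsto_const_div_atTop_nhds_zero_nat _
  rw [tendsto_iff_norm_sub_tendsto_zero]
  refine squeeze_zero' (Eventually.of_forall fun _ => norm_nonneg _) ?_ h0
  filter_upwards [eventually_ge_atTop 1] with X hX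
  have hX0 : (0 : ℝ) < X := by exact_mod_cast hX
  have : (∑ n ∈ Finset.Icc 1 X, svG f k z n) / X - A =
      (∑ n ∈ Finset.Icc 1 X, svG f k z n - X * A) / X := by
    field_simp
  rw [this, Real.norm_eq_abs, abs_div, abs_of_pos hX0]
  exact div_le_div_of_nonneg_right (hb X) hX0.le

theorem sv_count_dvd_le (f : ℤ[X]) (q : ℕ) (hq : 0 < q) (X : ℕ) :
    (((Finset.Icc 1 X).filter (fun n : ℕ => (q : ℤ) ∣ f.eval (n : ℤ))).card : ℝ)
      ≤ ((X : ℝ) / q + 1) * rho f q := by
  set G : ℕ → ℝ := fun n => if (q : ℤ) ∣ f.eval (n : ℤ) then 1 else 0 with hG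
  have hper : ∀ u, G (u + q) = G u := by
    intro u
    have h1 := sv_dvd_mod f q (u + q)
    have h2 := sv_dvd_mod f q u
    rw [Nat.add_mod_right] at h1
    simp only [hG]
    exact if_congr (h1.symm.trans h2) rfl rfl
  have h := sv_periodic_upper G q hq hper (fun u => by simp only [hG]; split_ifs <;> norm_num) X
  rw [hG, Finset.sum_boole, Finset.sum_boole] at h
  exact h

theorem sv_primeCounting : Tendsto (fun X : ℕ => (Nat.primeCounting X : ℝ) / X) atTop (𝓝 0) := by
  have h1 : Tendsto (fun X : ℕ => (Real.log 4 + 1) / Real.log X) atTop (𝓝 0) :=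
    Tendsto.const_div_atTop (Real.tendsto_log_atTop.comp tendsto_natCast_atTop_atTop) _
  refine squeeze_zero' (Eventually.of_forall fun _ => by positivity) ?_ h1
  have h2 := tendsto_natCast_atTop_atTop.eventually
    (Chebyshev.eventually_primeCounting_le (ε := 1) one_pos)
  filter_upwards [h2, eventually_ge_atTop 2] with X hX hX2
  rw [Nat.floor_natCast] at hX
  have hX0 : (0 : ℝ) < X := by positivity
  rw [div_le_iff₀ hX0]
  refine hX.trans (le_of_eq ?_)
  ring

theorem sv_diff (f : ℤ[X]) (k : ℕ) (hk : 2 ≤ k) (D : ℕ)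
    (hD : ∀ p : ℕ, p.Prime → rho f (p ^ k) ≤ D) (z : ℕ) (hz : 1 ≤ z) (X : ℕ) :
    |(countPF f k X : ℝ) - ∑ n ∈ Finset.Icc 1 X, svG f k z n| ≤
      D * (2 / z) * X + D * Nat.primeCounting X + tail f k X := by
  classical
  -- the sum counts the integers surviving the primes below z
  set S := (Finset.Icc 1 X).filter (fun n : ℕ => ∀ p < z, p.Prime → ¬ ((p : ℤ) ^ k ∣ f.eval (n : ℤ)))
    with hS
  have hGS : ∑ n ∈ Finset.Icc 1 X, svG f k z n = (S.card : ℝ) := by
    rw [hS, Finset.card_filter]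
    push_cast
    refine Finset.sum_congr rfl fun n _ => ?_
    unfold svG
    split_ifs with h
    · refine Finset.prod_eq_one fun p hp => ?_
      rw [Finset.mem_filter, Finset.mem_range] at hp
      have := h p hp.1 hp.2
      unfold svI
      push_cast
      rw [if_neg this]
    · push Not at h
      obtain ⟨p, hpz, hpp, hpd⟩ := h
      refine Finset.prod_eq_zero (i := p) ?_ ?_
      · rw [Finset.mem_filter, Finset.mem_range]
        exact ⟨hpz, hpp⟩
      · unfold svI
        push_cast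
        rw [if_pos hpd]
  have hsub : (Finset.Icc 1 X).filter (fun n : ℕ => PowerFree k (f.eval (n : ℤ))) ⊆ S := by
    intro n hn
    rw [Finset.mem_filter] at hn
    rw [hS, Finset.mem_filter]
    exact ⟨hn.1, fun p _ hp => hn.2 p hp⟩
  have hcount : countPF f k X =
      ((Finset.Icc 1 X).filter (fun n : ℕ => PowerFree k (f.eval (n : ℤ)))).card := by
    unfold countPF
    congr
  have hdiff : S \ (Finset.Icc 1 X).filter (fun n : ℕ => PowerFree k (f.eval (n : ℤ))) ⊆
      (((Finset.Ioo (z - 1) (X + 1)).filter Nat.Prime).biUnion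
        (fun p => (Finset.Icc 1 X).filter (fun n : ℕ => ((p ^ k : ℕ) : ℤ) ∣ f.eval (n : ℤ)))) ∪
      ((Finset.Icc 1 X).filter
        (fun n : ℕ => ∃ p : ℕ, p.Prime ∧ X < p ∧ (p : ℤ) ^ k ∣ f.eval (n : ℤ))) := by
    intro n hn
    rw [Finset.mem_sdiff, hS, Finset.mem_filter] at hn
    obtain ⟨⟨hnI, hnz⟩, hnot⟩ := hn
    have h1 : ¬ PowerFree k (f.eval (n : ℤ)) := fun h => hnot (Finset.mem_filter.mpr ⟨hnI, h⟩)
    unfold PowerFree at h1
    push Not at h1
    obtain ⟨p, hpp, hpd⟩ := h1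
    have hzp : z ≤ p := by
      by_contra hlt
      exact hnz p (by omega) hpp hpd
    rw [Finset.mem_union]
    by_cases hpX : p ≤ X
    · left
      rw [Finset.mem_biUnion]
      refine ⟨p, ?_, ?_⟩
      · rw [Finset.mem_filter, Finset.mem_Ioo]
        exact ⟨by omega, hpp⟩
      · rw [Finset.mem_filter]
        refine ⟨hnI, ?_⟩
        push_cast
        exact hpd
    · right
      rw [Finset.mem_filter]
      exact ⟨hnI, p, hpp, by omega, hpd⟩
  have htailc : tail f k X = ((Finset.Icc 1 X).filter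
        (fun n : ℕ => ∃ p : ℕ, p.Prime ∧ X < p ∧ (p : ℤ) ^ k ∣ f.eval (n : ℤ))).card := by
    unfold tail
    congr
  have hcard1 : S.card ≤ countPF f k X +
      (∑ p ∈ (Finset.Ioo (z - 1) (X + 1)).filter Nat.Prime,
        ((Finset.Icc 1 X).filter (fun n : ℕ => ((p ^ k : ℕ) : ℤ) ∣ f.eval (n : ℤ))).card)
      + tail f k X := by
    have h1 := Finset.card_sdiff_add_card_eq_card hsub
    have h2 := (Finset.card_le_card hdiff).trans (Finset.card_union_le _ _)
    have h3 := Finset.card_biUnion_le (s := (Finset.Ioo (z - 1) (X + 1)).filter Nat.Prime)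
      (t := fun p => (Finset.Icc 1 X).filter (fun n : ℕ => ((p ^ k : ℕ) : ℤ) ∣ f.eval (n : ℤ)))
    rw [← htailc] at h2
    rw [← hcount] at h1
    omega
  have hcard2 : countPF f k X ≤ S.card := by
    rw [hcount]
    exact Finset.card_le_card hsub
  have hD0 : (0 : ℝ) ≤ D := Nat.cast_nonneg D
  have hmid : (∑ p ∈ (Finset.Ioo (z - 1) (X + 1)).filter Nat.Prime,
        (((Finset.Icc 1 X).filter (fun n : ℕ => ((p ^ k : ℕ) : ℤ) ∣ f.eval (n : ℤ))).card : ℝ)) ≤
      D * (2 / z) * X + D * Nat.primeCounting X := by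
    have h1 : ∀ p ∈ (Finset.Ioo (z - 1) (X + 1)).filter Nat.Prime,
        (((Finset.Icc 1 X).filter (fun n : ℕ => ((p ^ k : ℕ) : ℤ) ∣ f.eval (n : ℤ))).card : ℝ) ≤
          D * X * ((p : ℝ) ^ 2)⁻¹ + D := by
      intro p hp
      rw [Finset.mem_filter] at hp
      have hpp := hp.2
      have hp1 : (1 : ℝ) ≤ p := by exact_mod_cast hpp.one_lt.le
      have h2 := sv_count_dvd_le f (p ^ k) (pow_pos hpp.pos k) X
      have h3 : (rho f (p ^ k) : ℝ) ≤ D := by exact_mod_cast hD p hpp
      have h4 : (p : ℝ) ^ 2 ≤ (p : ℝ) ^ k := pow_le_pow_right₀ hp1 hk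
      calc _ ≤ ((X : ℝ) / ((p ^ k : ℕ) : ℝ) + 1) * rho f (p ^ k) := h2
        _ ≤ ((X : ℝ) / (p : ℝ) ^ 2 + 1) * D := by
            push_cast
            gcongr
        _ = D * X * ((p : ℝ) ^ 2)⁻¹ + D := by ring
    refine (Finset.sum_le_sum h1).trans ?_
    rw [Finset.sum_add_distrib, ← Finset.mul_sum, Finset.sum_const, nsmul_eq_mul]
    have h5 : ∑ p ∈ (Finset.Ioo (z - 1) (X + 1)).filter Nat.Prime, ((p : ℝ) ^ 2)⁻¹ ≤ 2 / z := by
      have h6 := sum_Ioo_inv_sq_le (α := ℝ) (z - 1) (X + 1)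
      have h7 : (((z - 1 : ℕ) : ℝ) + 1) = z := by
        rw [Nat.cast_sub hz]
        push_cast
        ring
      rw [h7] at h6
      refine le_trans ?_ h6
      exact Finset.sum_le_sum_of_subset_of_nonneg (Finset.filter_subset _ _)
        fun p _ _ => by positivity
    have h8 : (((Finset.Ioo (z - 1) (X + 1)).filter Nat.Prime).card : ℝ) ≤ Nat.primeCounting X := by
      rw [Nat.primeCounting, Nat.primeCounting', Nat.count_eq_card_filter_range]
      have : (Finset.Ioo (z - 1) (X + 1)).filter Nat.Prime ⊆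
          (Finset.range (X + 1)).filter Nat.Prime := by
        intro p hp
        rw [Finset.mem_filter, Finset.mem_Ioo] at hp
        rw [Finset.mem_filter, Finset.mem_range]
        exact ⟨hp.1.2, hp.2⟩
      exact_mod_cast Finset.card_le_card this
    calc _ ≤ D * X * (2 / z) + Nat.primeCounting X * (D : ℝ) := by gcongr
      _ = _ := by ring
  have hcard1' : (S.card : ℝ) ≤ countPF f k X +
      (∑ p ∈ (Finset.Ioo (z - 1) (X + 1)).filter Nat.Prime,
        (((Finset.Icc 1 X).filter (fun n : ℕ => ((p ^ k : ℕ) : ℤ) ∣ f.eval (n : ℤ))).card : ℝ))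
      + tail f k X := by exact_mod_cast hcard1
  have hcard2' : (countPF f k X : ℝ) ≤ S.card := by exact_mod_cast hcard2
  rw [hGS, abs_le]
  have hz0 : (0 : ℝ) < z := by exact_mod_cast hz
  constructor
  · linarith
  · have : 0 ≤ D * (2 / z) * X + D * Nat.primeCounting X + (tail f k X : ℝ) := by positivity
    linarith

/-- Module A: the sieve. -/
theorem sieve_main (f : ℤ[X]) (k : ℕ) (hk : 2 ≤ k)
    (hirr : Irreducible (f.map (Int.castRingHom ℚ)))
    (hloc : ∀ p : ℕ, p.Prime → rho f (p ^ k) < p ^ k)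
    (htail : Tendsto (fun X : ℕ => (tail f k X : ℝ) / X) atTop (𝓝 0)) :
    0 < density f k ∧
    (fun X : ℕ => (countPF f k X : ℝ) - density f k * X) =o[atTop] (fun X : ℕ => (X : ℝ)) := by
  obtain ⟨D, hD⟩ := sv_rho_bound f k (by omega) hirr
  obtain ⟨hpos, hlim⟩ := sv_density f k hk D hD hloc
  refine ⟨hpos, ?_⟩
  rw [isLittleO_iff]
  intro c hc
  -- choose z
  have hz1 : Tendsto (fun z : ℕ => (D : ℝ) * (2 / z)) atTop (𝓝 0) := by
    have := (tendsto_const_div_atTop_nhds_zero_nat (2 : ℝ)).const_mul (D : ℝ)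
    simpa using this
  have hz2 : ∀ᶠ z : ℕ in atTop, (D : ℝ) * (2 / z) < c / 5 := hz1.eventually (gt_mem_nhds (by positivity))
  have hz3 : ∀ᶠ z : ℕ in atTop, |∏ n ∈ Finset.range z, svLf f k n - density f k| < c / 5 := by
    have := (Metric.tendsto_nhds.mp hlim) (c / 5) (by positivity)
    simpa [Real.dist_eq] using this
  obtain ⟨z, hza, hzb, hz⟩ := (hz2.and (hz3.and (eventually_ge_atTop 1))).exists
  have h1 : ∀ᶠ X : ℕ in atTop, |(∑ n ∈ Finset.Icc 1 X, svG f k z n) / X
      - ∏ n ∈ Finset.range z, svLf f k n| < c / 5 := by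
    have := (Metric.tendsto_nhds.mp (sv_partial f k z)) (c / 5) (by positivity)
    simpa [Real.dist_eq] using this
  have h2 : ∀ᶠ X : ℕ in atTop, (D : ℝ) * (Nat.primeCounting X / X) < c / 5 := by
    have := sv_primeCounting.const_mul (D : ℝ)
    rw [mul_zero] at this
    exact this.eventually (gt_mem_nhds (by positivity))
  have h3 : ∀ᶠ X : ℕ in atTop, (tail f k X : ℝ) / X < c / 5 :=
    htail.eventually (gt_mem_nhds (by positivity))
  filter_upwards [h1, h2, h3, eventually_ge_atTop 1] with X hX1 hX2 hX3 hX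
  have hX0 : (0 : ℝ) < X := by exact_mod_cast hX
  have hd := sv_diff f k hk D hD z hz X
  rw [Real.norm_eq_abs, Real.norm_eq_abs, abs_of_pos hX0]
  set s1 := ∑ n ∈ Finset.Icc 1 X, svG f k z n with hs1
  set p1 := ∏ n ∈ Finset.range z, svLf f k n with hp1
  have e1 : |s1 - p1 * X| ≤ c / 5 * X := by
    have : s1 - p1 * X = (s1 / X - p1) * X := by
      field_simp
    rw [this, abs_mul, abs_of_pos hX0]
    exact mul_le_mul_of_nonneg_right hX1.le hX0.le
  have e2 : |p1 * X - density f k * X| ≤ c / 5 * X := by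
    rw [← sub_mul, abs_mul, abs_of_pos hX0]
    exact mul_le_mul_of_nonneg_right hzb.le hX0.le
  have e3 : (D : ℝ) * Nat.primeCounting X ≤ c / 5 * X := by
    have : (D : ℝ) * Nat.primeCounting X = (D : ℝ) * (Nat.primeCounting X / X) * X := by
      field_simp
    rw [this]
    exact mul_le_mul_of_nonneg_right hX2.le hX0.le
  have e4 : (tail f k X : ℝ) ≤ c / 5 * X := ((div_lt_iff₀ hX0).mp hX3).le
  have e5 : D * (2 / z) * X ≤ c / 5 * X := mul_le_mul_of_nonneg_right hza.le hX0.le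
  calc |(countPF f k X : ℝ) - density f k * X|
      = |((countPF f k X : ℝ) - s1) + (s1 - p1 * X) + (p1 * X - density f k * X)| := by
        congr 1
        ring
    _ ≤ |(countPF f k X : ℝ) - s1| + |s1 - p1 * X| + |p1 * X - density f k * X| := abs_add_three _ _ _
    _ ≤ (D * (2 / z) * X + D * Nat.primeCounting X + tail f k X) + c / 5 * X + c / 5 * X := by
        gcongr
    _ ≤ c * X := by linarith

end Vale.Agent.P018
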