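import Mathlib
import Vale.Agent.P018.Sieve
import Vale.Agent.P018.TailLarge
import Vale.Agent.P018.TailOfPairs
import Vale.Agent.P018.Main
import Vale.Agent.P018.PairsRange2b

/-! Assembly for `9 k = 5 d + 2`. -/

namespace Vale.Agent.P018

open Polynomial Filter Topology Asymptotics

theorem pairs_bound_two (f : ℤ[X]) (hirr : Irreducible (f.map (Int.castRingHom ℚ))) (k : ℕ)
    (hk : 2 ≤ k) (hkd : k < f.natDegree) (hr : 9 * k = 5 * f.natDegree + 2)
    (hlines : ∀ (h : ℕ) (_hkh : k + h = f.natDegree) (_hk : h + 1 ≤ k) (_hh : 1 ≤ h) (_hk3 : 3 ≤ k)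
      (θ0 : ℝ) (_hθ0 : 0 ≤ θ0)
      (_hθ : (1 + θ0) * ((f.natDegree : ℝ) - 1 + (2 * h + 1) / (2 * (f.natDegree : ℝ) - 1)) <
        f.natDegree),
      ∃ η K : ℝ, 0 < η ∧ 0 < K ∧ ∃ X0 : ℕ, ∀ X P : ℕ, X0 ≤ X → X ≤ P →
        (P : ℝ) ≤ (X : ℝ) ^ (1 + θ0) →
        ((pairs f k X P).card : ℝ) ≤ K * (X : ℝ) ^ (1 - η)) (A : ℝ) :
    ∃ η K : ℝ, 0 < η ∧ 0 < K ∧ ∃ X0 : ℕ, ∀ X P : ℕ, X0 ≤ X → X ≤ P →
      (P : ℝ) ^ k ≤ A * (X : ℝ) ^ f.natDegree →
      ((pairs f k X P).card : ℝ) ≤ K * (X : ℝ) ^ (1 - η) := by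
  obtain ⟨h, hh⟩ : ∃ h : ℕ, k + h = f.natDegree := ⟨f.natDegree - k, by omega⟩
  have hd5 : 5 ≤ f.natDegree := by omega
  have hd5r : (5 : ℝ) ≤ f.natDegree := by exact_mod_cast hd5
  have hhr : (h : ℝ) = (4 * (f.natDegree : ℝ) - 2) / 9 := by
    rw [eq_div_iff (by norm_num)]
    have : ((9 * h + 2 : ℕ) : ℝ) = ((4 * f.natDegree : ℕ) : ℝ) := by
      congr 1
      omega
    push_cast at this
    linarith
  obtain ⟨η1, K1, hη1, hK1, X1, h1⟩ := hlines h hh (by omega) (by omega) (by omega)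
    (2 / (5 * (f.natDegree : ℝ))) (by positivity) (by
      rw [hhr]
      generalize (f.natDegree : ℝ) = d at hd5r
      have hd1 : 0 < 2 * d - 1 := by linarith
      have e1 : (1 + 2 / (5 * d)) * (d - 1 + (2 * ((4 * d - 2) / 9) + 1) / (2 * d - 1)) =
        (5 * d + 2) * ((9 * d - 9) * (2 * d - 1) + 8 * d + 5) / (45 * d * (2 * d - 1)) := by
        field_simp
        ring
      rw [e1, div_lt_iff₀ (by positivity)]
      nlinarith [mul_nonneg (sub_nonneg.mpr hd5r) (sub_nonneg.mpr hd5r)])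
  obtain ⟨η2, K2, hη2, hK2, X2, h2⟩ := pairs_range2 f hirr k hk hkd hr A
  refine ⟨min η1 η2, max K1 K2, lt_min hη1 hη2, lt_max_of_lt_left hK1, max (max X1 X2) 1, ?_⟩
  intro X P hX hXP hPA
  have hX1 : X1 ≤ X := le_trans (le_trans (le_max_left _ _) (le_max_left _ _)) hX
  have hX2 : X2 ≤ X := le_trans (le_trans (le_max_right _ _) (le_max_left _ _)) hX
  have hX3 : 1 ≤ X := le_trans (le_max_right _ _) hX
  have hXr : (1 : ℝ) ≤ X := by exact_mod_cast hX3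
  rcases le_total (P : ℝ) ((X : ℝ) ^ (1 + 2 / (5 * (f.natDegree : ℝ)))) with hP | hP
  · refine (h1 X P hX1 hXP hP).trans ?_
    exact mul_le_mul (le_max_left _ _)
      (Real.rpow_le_rpow_of_exponent_le hXr (by linarith [min_le_left η1 η2]))
      (by positivity) (by positivity)
  · refine (h2 X P hX2 hP hPA).trans ?_
    exact mul_le_mul (le_max_right _ _)
      (Real.rpow_le_rpow_of_exponent_le hXr (by linarith [min_le_right η1 η2]))
      (by positivity) (by positivity)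

end Vale.Agent.P018
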