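import Vale.Agent.P018.LDefs
import Vale.Agent.P018.Sieve

/-! # P018, module M1: small elements of `ℤ[θ]` dividing `n - θ`. -/

namespace Vale.Agent.P018

open Polynomial

/-! ### evaluation at `θ` -/

theorem lf_evT_C (f : ℤ[X]) (c : ℤ) : evT f (C c) = (c : EE f) := by
  unfold evT
  rw [coe_eval₂RingHom, eval₂_C, eq_intCast]

theorem lf_evT_X (f : ℤ[X]) : evT f X = th f := by
  unfold evT
  rw [coe_eval₂RingHom, eval₂_X]

theorem lf_evT_self (f : ℤ[X]) : evT f f = 0 := by
  unfold evT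
  have h := AdjoinRoot.eval₂_root (f.map (Int.castRingHom ℚ))
  rw [eval₂_map] at h
  rw [coe_eval₂RingHom]
  have h2 : (AdjoinRoot.of (f.map (Int.castRingHom ℚ))).comp (Int.castRingHom ℚ) =
      Int.castRingHom (EE f) := RingHom.ext_int _ _
  rw [h2] at h
  exact h

theorem lf_evT_mod (f : ℤ[X]) (g : ℤ[X]) : evT f (g %ₘ f) = evT f g := by
  conv_rhs => rw [← modByMonic_add_div g f]
  rw [map_add, map_mul, lf_evT_self, zero_mul, add_zero]

theorem lf_evT_sum (f : ℤ[X]) (g : ℤ[X]) (hg : g.natDegree < f.natDegree) :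
    evT f g = ∑ i : Fin f.natDegree, (g.coeff i : EE f) * th f ^ (i : ℕ) := by
  conv_lhs => rw [g.as_sum_range_C_mul_X_pow' hg]
  rw [map_sum, Finset.sum_range]
  apply Finset.sum_congr rfl
  intro i _
  rw [map_mul, map_pow, lf_evT_C, lf_evT_X]

/-! ### the matrix of a multiplication -/

/-- matrix of multiplication by `b(θ)` -/
noncomputable def lfMat (f b : ℤ[X]) : Matrix (Fin f.natDegree) (Fin f.natDegree) ℤ :=
  Matrix.of fun i j => ((b * X ^ (j : ℕ)) %ₘ f).coeff i

theorem lf_mod_lt (f : ℤ[X]) (hm : f.Monic) (hd : 1 ≤ f.natDegree) (g : ℤ[X]) :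
    (g %ₘ f).natDegree < f.natDegree := by
  apply natDegree_modByMonic_lt g hm
  intro h
  rw [h, natDegree_one] at hd
  omega

theorem lf_mul_pow (f : ℤ[X]) (hm : f.Monic) (hd : 1 ≤ f.natDegree) (b : ℤ[X])
    (j : Fin f.natDegree) :
    evT f b * th f ^ (j : ℕ) =
      ∑ i : Fin f.natDegree, ((lfMat f b i j : ℤ) : EE f) * th f ^ (i : ℕ) := by
  have h1 : evT f b * th f ^ (j : ℕ) = evT f ((b * X ^ (j : ℕ)) %ₘ f) := by
    rw [lf_evT_mod, map_mul, map_pow, lf_evT_X]
  rw [h1, lf_evT_sum f _ (lf_mod_lt f hm hd _)]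
  rfl

/-- the basis of powers of `θ` -/
noncomputable def lfBasis (f : ℤ[X]) (hm : f.Monic) : Module.Basis (Fin f.natDegree) ℚ (EE f) :=
  (AdjoinRoot.powerBasisAux' (hm.map (Int.castRingHom ℚ))).reindex
    (finCongr (hm.natDegree_map (Int.castRingHom ℚ)))

theorem lfBasis_apply (f : ℤ[X]) (hm : f.Monic) (i : Fin f.natDegree) :
    lfBasis f hm i = th f ^ (i : ℕ) := by
  unfold lfBasis
  rw [Module.Basis.reindex_apply]
  exact (AdjoinRoot.powerBasis' (hm.map (Int.castRingHom ℚ))).basis_eq_pow _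

theorem lf_intCast_smul (f : ℤ[X]) (c : ℤ) (x : EE f) : (c : EE f) * x = (c : ℚ) • x := by
  rw [Algebra.smul_def]
  congr 1

theorem lf_leftMul (f : ℤ[X]) (hm : f.Monic) (hd : 1 ≤ f.natDegree) (b : ℤ[X]) :
    Algebra.leftMulMatrix (lfBasis f hm) (evT f b) = (lfMat f b).map (Int.castRingHom ℚ) := by
  ext i j
  rw [Algebra.leftMulMatrix_eq_repr_mul, lfBasis_apply, lf_mul_pow f hm hd b j]
  have h1 : (∑ i : Fin f.natDegree, ((lfMat f b i j : ℤ) : EE f) * th f ^ (i : ℕ)) =
      ∑ i : Fin f.natDegree, ((lfMat f b i j : ℤ) : ℚ) • lfBasis f hm i := by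
    apply Finset.sum_congr rfl
    intro i _
    rw [lfBasis_apply, lf_intCast_smul]
  rw [h1, Module.Basis.repr_sum_self]
  rfl

theorem lf_norm (f : ℤ[X]) (hm : f.Monic) (hd : 1 ≤ f.natDegree) (b : ℤ[X]) :
    Algebra.norm ℚ (evT f b) = (((lfMat f b).det : ℤ) : ℚ) := by
  rw [Algebra.norm_eq_matrix_det (lfBasis f hm), lf_leftMul f hm hd b]
  have := RingHom.map_det (Int.castRingHom ℚ) (lfMat f b)
  rw [eq_intCast] at this
  rw [this]
  rfl

theorem lf_evT_ne_zero (f : ℤ[X]) (hm : f.Monic) (b : ℤ[X]) (hb : b.natDegree < f.natDegree)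
    (hb0 : b ≠ 0) : evT f b ≠ 0 := by
  intro h
  rw [lf_evT_sum f b hb] at h
  have h1 : (∑ i : Fin f.natDegree, ((b.coeff i : ℤ) : ℚ) • lfBasis f hm i) = 0 := by
    rw [← h]
    apply Finset.sum_congr rfl
    intro i _
    rw [lfBasis_apply, lf_intCast_smul]
  have h2 := Fintype.linearIndependent_iff.mp (lfBasis f hm).linearIndependent _ h1
  apply hb0
  ext i
  rw [coeff_zero]
  rcases lt_or_ge i f.natDegree with hi | hi
  · have := h2 ⟨i, hi⟩
    exact_mod_cast this
  · exact coeff_eq_zero_of_natDegree_lt (by omega)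

/-! ### the lattice of elements vanishing at `n` modulo `p` -/

/-- basis matrix of the lattice -/
def lfU (d : ℕ) (p : ℤ) (n : ℤ) : Matrix (Fin d) (Fin d) ℤ :=
  Matrix.of fun i j => if (i : ℕ) = 0 then (if (j : ℕ) = 0 then p else - n ^ (j : ℕ)) else
    (if i = j then 1 else 0)

theorem lfU_det (d : ℕ) (hd : 1 ≤ d) (p n : ℤ) : (lfU d p n).det = p := by
  have ht : (lfU d p n).BlockTriangular id := by
    intro i j hij
    have hij' : (j : ℕ) < (i : ℕ) := hij
    have h1 : (i : ℕ) ≠ 0 := by omega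
    have h2 : i ≠ j := by
      intro h
      rw [h] at hij'
      omega
    simp only [lfU, Matrix.of_apply, if_neg h1, if_neg h2]
  rw [Matrix.det_of_upperTriangular ht]
  rw [Finset.prod_eq_single (⟨0, hd⟩ : Fin d)]
  · simp [lfU]
  · intro i _ hi
    have h1 : (i : ℕ) ≠ 0 := by
      intro h
      apply hi
      ext
      exact h
    simp only [lfU, Matrix.of_apply, if_neg h1, if_true]
  · intro h
    exact absurd (Finset.mem_univ _) h

/-- the coordinates with respect to the lattice basis -/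
noncomputable def lfW (f b : ℤ[X]) (p n : ℤ) : Matrix (Fin f.natDegree) (Fin f.natDegree) ℤ :=
  Matrix.of fun i j => if (i : ℕ) = 0 then ((b * X ^ (j : ℕ)) %ₘ f).eval n / p else
    ((b * X ^ (j : ℕ)) %ₘ f).coeff i

theorem lf_UW (f b : ℤ[X]) (hm : f.Monic) (hd : 1 ≤ f.natDegree) (p n : ℤ)
    (hf : p ∣ f.eval n) (hb : p ∣ b.eval n) :
    lfMat f b = lfU f.natDegree p n * lfW f b p n := by
  ext i j
  rw [Matrix.mul_apply]
  set g := (b * X ^ (j : ℕ)) %ₘ f with hg
  have hM : lfMat f b i j = g.coeff i := rfl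
  rw [hM]
  have hW : ∀ l : Fin f.natDegree, lfW f b p n l j =
      if (l : ℕ) = 0 then g.eval n / p else g.coeff l := fun l => rfl
  by_cases hi : (i : ℕ) = 0
  · have hU : ∀ l : Fin f.natDegree, lfU f.natDegree p n i l =
        if (l : ℕ) = 0 then p else - n ^ (l : ℕ) := by
      intro l
      simp only [lfU, Matrix.of_apply, if_pos hi]
    have hdvd : p ∣ g.eval n := by
      have h1 : g = b * X ^ (j : ℕ) - f * ((b * X ^ (j : ℕ)) /ₘ f) := by
        rw [hg, modByMonic_eq_sub_mul_div]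
      rw [h1, eval_sub, eval_mul, eval_mul]
      exact dvd_sub (hb.mul_right _) (hf.mul_right _)
    have hev : g.eval n = ∑ l : Fin f.natDegree, g.coeff l * n ^ (l : ℕ) := by
      rw [eval_eq_sum_range' (lf_mod_lt f hm hd _) n, Finset.sum_range]
    have h2 : ∀ l : Fin f.natDegree, lfU f.natDegree p n i l * lfW f b p n l j =
        (if (l : ℕ) = 0 then g.eval n + g.coeff l else 0) - g.coeff l * n ^ (l : ℕ) := by
      intro l
      rw [hU, hW]
      by_cases hl : (l : ℕ) = 0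
      · rw [if_pos hl, if_pos hl, if_pos hl, hl, pow_zero, mul_one, Int.mul_ediv_cancel' hdvd]
        ring
      · rw [if_neg hl, if_neg hl, if_neg hl]
        ring
    rw [Finset.sum_congr rfl (fun l _ => h2 l), Finset.sum_sub_distrib, ← hev,
      Finset.sum_eq_single i]
    · rw [if_pos hi]
      ring
    · intro l _ hl
      rw [if_neg]
      intro h
      apply hl
      ext
      omega
    · intro h
      exact absurd (Finset.mem_univ _) h
  · rw [Finset.sum_eq_single i]
    · rw [hW, if_neg hi]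
      simp only [lfU, Matrix.of_apply, if_neg hi, if_true, one_mul]
    · intro l _ hl
      have h1 : lfU f.natDegree p n i l = 0 := by
        simp only [lfU, Matrix.of_apply, if_neg hi, if_neg (Ne.symm hl)]
      rw [h1, zero_mul]
    · intro h
      exact absurd (Finset.mem_univ _) h

/-- The key relations. -/
theorem lf_key (f b : ℤ[X]) (hm : f.Monic) (hd : 2 ≤ f.natDegree) (p n : ℤ)
    (hf : p ∣ f.eval n) (hb : p ∣ b.eval n) :
    ∃ (c : ℤ) (u v : ℤ[X]), (lfMat f b).det = c * p ∧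
      (c : EE f) * (p : EE f) = evT f b * evT f u ∧
      (c : EE f) * (th f - (n : EE f)) = evT f b * evT f v := by
  have hd1 : 1 ≤ f.natDegree := by omega
  have hUW := lf_UW f b hm hd1 p n hf hb
  set W := lfW f b p n with hW
  set V := W.adjugate with hV
  have hMV : lfMat f b * V = W.det • lfU f.natDegree p n := by
    rw [hUW, Matrix.mul_assoc, hV, Matrix.mul_adjugate, Matrix.mul_smul, Matrix.mul_one]
  have key : ∀ l : Fin f.natDegree,
      evT f b * evT f (∑ j : Fin f.natDegree, C (V j l) * X ^ (j : ℕ)) =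
        (W.det : EE f) * ∑ i : Fin f.natDegree,
          ((lfU f.natDegree p n i l : ℤ) : EE f) * th f ^ (i : ℕ) := by
    intro l
    have h1 : evT f (∑ j : Fin f.natDegree, C (V j l) * X ^ (j : ℕ)) =
        ∑ j : Fin f.natDegree, (V j l : EE f) * th f ^ (j : ℕ) := by
      rw [map_sum]
      apply Finset.sum_congr rfl
      intro j _
      rw [map_mul, map_pow, lf_evT_C, lf_evT_X]
    rw [h1, Finset.mul_sum]
    have h2 : ∀ j : Fin f.natDegree, evT f b * ((V j l : EE f) * th f ^ (j : ℕ)) =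
        ∑ i : Fin f.natDegree, ((lfMat f b i j * V j l : ℤ) : EE f) * th f ^ (i : ℕ) := by
      intro j
      calc evT f b * ((V j l : EE f) * th f ^ (j : ℕ))
          = (V j l : EE f) * (evT f b * th f ^ (j : ℕ)) := by ring
        _ = _ := by
          rw [lf_mul_pow f hm hd1 b j, Finset.mul_sum]
          apply Finset.sum_congr rfl
          intro i _
          push_cast
          ring
    rw [Finset.sum_congr rfl (fun j _ => h2 j), Finset.sum_comm, Finset.mul_sum]
    apply Finset.sum_congr rfl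
    intro i _
    rw [← Finset.sum_mul]
    have h3 := congrFun (congrFun hMV i) l
    rw [Matrix.mul_apply, Matrix.smul_apply, smul_eq_mul] at h3
    rw [← Int.cast_sum, h3]
    push_cast
    ring
  refine ⟨W.det, ∑ j : Fin f.natDegree, C (V j ⟨0, by omega⟩) * X ^ (j : ℕ),
    ∑ j : Fin f.natDegree, C (V j ⟨1, by omega⟩) * X ^ (j : ℕ), ?_, ?_, ?_⟩
  · rw [hUW, Matrix.det_mul, lfU_det _ hd1, mul_comm]
  · rw [key]
    congr 1
    rw [Finset.sum_eq_single (⟨0, by omega⟩ : Fin f.natDegree)]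
    · simp [lfU]
    · intro i _ hi
      have h1 : (i : ℕ) ≠ 0 := by
        intro h
        apply hi
        ext
        exact h
      simp only [lfU, Matrix.of_apply, if_neg h1, if_neg hi, Int.cast_zero, zero_mul]
    · intro h
      exact absurd (Finset.mem_univ _) h
  · rw [key]
    congr 1
    rw [Finset.sum_eq_add (⟨1, by omega⟩ : Fin f.natDegree) (⟨0, by omega⟩ : Fin f.natDegree)]
    · simp [lfU, sub_eq_add_neg]
    · intro h
      have := congrArg Fin.val h
      simp at this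
    · intro i _ hi
      have h1 : (i : ℕ) ≠ 0 := by
        intro h
        apply hi.2
        ext
        exact h
      simp only [lfU, Matrix.of_apply, if_neg h1, if_neg hi.1, Int.cast_zero, zero_mul]
    · intro h
      exact absurd (Finset.mem_univ _) h
    · intro h
      exact absurd (Finset.mem_univ _) h

/-! ### sizes -/

theorem lf_entry_le (f : ℤ[X]) (hm : f.Monic) :
    ∃ K : ℕ, ∀ (b : ℤ[X]) (T : ℕ), b.natDegree < f.natDegree → (∀ i, |b.coeff i| ≤ T) →
      ∀ i j, |lfMat f b i j| ≤ K * T := by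
  set d := f.natDegree with hd
  obtain ⟨K, hK⟩ : ∃ K : ℕ, ∀ m < 2 * d, ∀ i < d, |((X ^ m : ℤ[X]) %ₘ f).coeff i| ≤ (K : ℤ) := by
    refine ⟨∑ m ∈ Finset.range (2 * d), ∑ i ∈ Finset.range d,
      (((X ^ m : ℤ[X]) %ₘ f).coeff i).natAbs, ?_⟩
    intro m hm i hi
    rw [Int.abs_eq_natAbs]
    norm_cast
    calc (((X ^ m : ℤ[X]) %ₘ f).coeff i).natAbs
        ≤ ∑ i ∈ Finset.range d, (((X ^ m : ℤ[X]) %ₘ f).coeff i).natAbs :=
          Finset.single_le_sum (f := fun i => (((X ^ m : ℤ[X]) %ₘ f).coeff i).natAbs)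
            (fun _ _ => Nat.zero_le _) (Finset.mem_range.mpr hi)
      _ ≤ _ := Finset.single_le_sum
            (f := fun m => ∑ i ∈ Finset.range d, (((X ^ m : ℤ[X]) %ₘ f).coeff i).natAbs)
            (fun _ _ => Nat.zero_le _) (Finset.mem_range.mpr hm)
  refine ⟨d * K, ?_⟩
  intro b T hb hbT i j
  have h1 : lfMat f b i j = ∑ l ∈ Finset.range d, b.coeff l * ((X ^ (l + j) : ℤ[X]) %ₘ f).coeff i := by
    have h2 : b * X ^ (j : ℕ) = ∑ l ∈ Finset.range d, b.coeff l • (X ^ (l + j) : ℤ[X]) := by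
      conv_lhs => rw [b.as_sum_range_C_mul_X_pow' hb]
      rw [Finset.sum_mul]
      apply Finset.sum_congr rfl
      intro l _
      rw [smul_eq_C_mul, pow_add, mul_assoc]
    have h3 : (b * X ^ (j : ℕ)) %ₘ f = modByMonicHom f (b * X ^ (j : ℕ)) := rfl
    change ((b * X ^ (j : ℕ)) %ₘ f).coeff i = _
    rw [h3, h2, map_sum, finsetSum_coeff]
    apply Finset.sum_congr rfl
    intro l _
    rw [map_smul, coeff_smul, smul_eq_mul]
    rfl
  rw [h1]
  calc |∑ l ∈ Finset.range d, b.coeff l * ((X ^ (l + j) : ℤ[X]) %ₘ f).coeff i|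
      ≤ ∑ l ∈ Finset.range d, |b.coeff l * ((X ^ (l + j) : ℤ[X]) %ₘ f).coeff i| :=
        Finset.abs_sum_le_sum_abs _ _
    _ ≤ ∑ l ∈ Finset.range d, (T : ℤ) * K := by
        apply Finset.sum_le_sum
        intro l hl
        rw [abs_mul]
        have h4 := Finset.mem_range.mp hl
        have h5 := j.isLt
        exact mul_le_mul (hbT l) (hK _ (by omega) _ i.isLt) (abs_nonneg _) (by positivity)
    _ = _ := by
        rw [Finset.sum_const, Finset.card_range]
        push_cast
        ring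

theorem lf_det_le (f : ℤ[X]) (hm : f.Monic) :
    ∃ K : ℕ, ∀ (b : ℤ[X]) (T : ℕ), b.natDegree < f.natDegree → (∀ i, |b.coeff i| ≤ T) →
      |(lfMat f b).det| ≤ K * (T : ℤ) ^ f.natDegree := by
  obtain ⟨K, hK⟩ := lf_entry_le f hm
  refine ⟨(f.natDegree).factorial * K ^ f.natDegree, ?_⟩
  intro b T hb hbT
  have h := Matrix.det_le (A := lfMat f b) (abv := AbsoluteValue.abs) (x := (K : ℤ) * T)
    (fun i j => hK b T hb hbT i j)
  rw [Fintype.card_fin] at h
  calc |(lfMat f b).det| ≤ _ := h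
    _ = _ := by
      rw [nsmul_eq_mul, mul_pow]
      push_cast
      ring

/-! ### powers -/

theorem lf_power (f : ℤ[X]) (k : ℕ) (hk : 1 ≤ k) (p n c m s t : ℤ) (b u v : ℤ[X])
    (hfn : f.eval n = p ^ k * m) (hst : s * (derivative f).eval n + t * p = 1)
    (hu : (c : EE f) * (p : EE f) = evT f b * evT f u)
    (hv : (c : EE f) * (th f - (n : EE f)) = evT f b * evT f v) :
    ∃ a : ℤ[X], (c : EE f) ^ k * ((n : EE f) - th f) = evT f b ^ k * evT f a := by
  obtain ⟨g, hg⟩ : ∃ g : ℤ[X], f = (X - C n) * g + C (f.eval n) := by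
    refine ⟨f /ₘ (X - C n), ?_⟩
    have := modByMonic_add_div f (X - C n)
    rw [modByMonic_X_sub_C_eq_C_eval] at this
    rw [add_comm]
    exact this.symm
  obtain ⟨g2, hg2⟩ : ∃ g2 : ℤ[X], g = (X - C n) * g2 + C (g.eval n) := by
    refine ⟨g /ₘ (X - C n), ?_⟩
    have := modByMonic_add_div g (X - C n)
    rw [modByMonic_X_sub_C_eq_C_eval] at this
    rw [add_comm]
    exact this.symm
  have hder : (derivative f).eval n = g.eval n := by
    rw [hg]
    simp
  set z : EE f := th f - (n : EE f) with hz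
  have hzE : evT f (X - C n) = z := by rw [map_sub, lf_evT_X, lf_evT_C]
  have e1 : z * evT f g + (f.eval n : ℤ) = 0 := by
    have h1 := congrArg (evT f) hg
    rw [lf_evT_self, map_add, map_mul, hzE, lf_evT_C] at h1
    exact h1.symm
  have e2 : evT f g = z * evT f g2 + (g.eval n : ℤ) := by
    have h1 := congrArg (evT f) hg2
    rw [map_add, map_mul, hzE, lf_evT_C] at h1
    exact h1
  -- z = A p^k + z y
  set y : EE f := (t : EE f) * p - (s : EE f) * z * evT f g2 with hy
  have e3 : z = -((s : EE f) * m) * (p : EE f) ^ k + z * y := by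
    have h1 : ((s * (derivative f).eval n + t * p : ℤ) : EE f) = 1 := by
      rw [hst, Int.cast_one]
    rw [hder] at h1
    push_cast at h1
    have h2 : ((f.eval n : ℤ) : EE f) = (p : EE f) ^ k * m := by
      rw [hfn]
      push_cast
      ring
    rw [h2] at e1
    rw [e2] at e1
    have h3 : z * ((g.eval n : ℤ) : EE f) = -((p : EE f) ^ k * m) - z * (z * evT f g2) := by
      linear_combination e1
    calc z = ((s : EE f) * (g.eval n : ℤ) + t * p) * z := by rw [h1, one_mul]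
      _ = (s : EE f) * (z * (g.eval n : ℤ)) + t * p * z := by ring
      _ = _ := by
        rw [h3, hy]
        ring
  have hzy : z * (1 - y) = -((s : EE f) * m) * (p : EE f) ^ k := by
    linear_combination e3
  have hcy : (c : EE f) * y = evT f b * evT f (C t * u - C s * g2 * v) := by
    rw [map_sub, map_mul, map_mul, map_mul, lf_evT_C, lf_evT_C, hy]
    linear_combination (t : EE f) * hu - (s : EE f) * evT f g2 * hv
  obtain ⟨j, rfl⟩ : ∃ j, k = j + 1 := ⟨k - 1, by omega⟩
  have e4 : z = -((s : EE f) * m) * (p : EE f) ^ (j + 1) * ∑ i ∈ Finset.range j, y ^ i + z * y ^ j := by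
    have h1 := mul_neg_geom_sum y j
    calc z = z * ((1 - y) * ∑ i ∈ Finset.range j, y ^ i) + z * y ^ j := by
          rw [h1]
          ring
      _ = _ := by
          rw [← mul_assoc, hzy]
  have hyE : y = evT f (C t * C p - C s * (X - C n) * g2) := by
    rw [map_sub, map_mul, map_mul, map_mul, lf_evT_C, lf_evT_C, lf_evT_C, hzE, hy]
  refine ⟨-(-(C s * C m) * u ^ (j + 1) *
    (∑ i ∈ Finset.range j, (C t * C p - C s * (X - C n) * g2) ^ i) +
      v * (C t * u - C s * g2 * v) ^ j), ?_⟩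
  have e5 : evT f (-(-(C s * C m) * u ^ (j + 1) *
    (∑ i ∈ Finset.range j, (C t * C p - C s * (X - C n) * g2) ^ i) +
      v * (C t * u - C s * g2 * v) ^ j)) =
      -(-((s : EE f) * m) * evT f u ^ (j + 1) * (∑ i ∈ Finset.range j, y ^ i) +
        evT f v * evT f (C t * u - C s * g2 * v) ^ j) := by
    rw [map_neg, map_add, map_mul, map_mul, map_neg, map_mul, map_pow, map_mul, map_pow, map_sum,
      lf_evT_C, lf_evT_C]
    congr 5
    funext i
    rw [map_pow, hyE]
  rw [e5]
  have e6 : (n : EE f) - th f = -z := by rw [hz]; ring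
  rw [e6]
  have e7 : (c : EE f) ^ (j + 1) * z = evT f b ^ (j + 1) *
      (-((s : EE f) * m) * evT f u ^ (j + 1) * (∑ i ∈ Finset.range j, y ^ i) +
        evT f v * evT f (C t * u - C s * g2 * v) ^ j) := by
    calc (c : EE f) ^ (j + 1) * z
        = (c : EE f) ^ (j + 1) * (-((s : EE f) * m) * (p : EE f) ^ (j + 1) *
            ∑ i ∈ Finset.range j, y ^ i + z * y ^ j) := by rw [← e4]
      _ = -((s : EE f) * m) * ((c : EE f) * p) ^ (j + 1) * (∑ i ∈ Finset.range j, y ^ i) +
            ((c : EE f) * z) * ((c : EE f) * y) ^ j := by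
          rw [mul_pow, mul_pow, pow_succ (c : EE f) j]
          ring
      _ = _ := by
          rw [hu, hv, hcy, mul_pow, mul_pow]
          ring
  linear_combination -e7

theorem lf_norm_ne_zero (f : ℤ[X]) (hm : f.Monic)
    (hirr : Irreducible (f.map (Int.castRingHom ℚ))) (x : EE f) (hx : x ≠ 0) :
    Algebra.norm ℚ x ≠ 0 := by
  have : Fact (Irreducible (f.map (Int.castRingHom ℚ))) := ⟨hirr⟩
  have : FiniteDimensional ℚ (EE f) := (lfBasis f hm).finiteDimensional_of_finite
  exact Algebra.norm_ne_zero_iff.mpr hx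

/-! ### the degree of `β` -/

theorem lf_isIntegral (f : ℤ[X]) (hm : f.Monic) (b : ℤ[X]) : IsIntegral ℤ (evT f b) := by
  have hth : IsIntegral ℤ (th f) := by
    refine ⟨f, hm, ?_⟩
    have := lf_evT_self f
    unfold evT at this
    rw [coe_eval₂RingHom] at this
    exact this
  induction b using Polynomial.induction_on' with
  | add p q hp hq =>
    rw [map_add]
    exact hp.add hq
  | monomial n a =>
    rw [← C_mul_X_pow_eq_monomial, map_mul, map_pow, lf_evT_C, lf_evT_X]
    have ha : IsIntegral ℤ ((a : ℤ) : EE f) := isIntegral_intCast _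
    exact ha.mul (hth.pow n)

theorem lf_degree (f : ℤ[X]) (hm : f.Monic) (hirr : Irreducible (f.map (Int.castRingHom ℚ)))
    (b : ℤ[X]) (c : ℤ) (p : ℕ) (hp : p.Prime) (hc : ¬ (p : ℤ) ∣ c)
    (hnorm : Algebra.norm ℚ (evT f b) = (c : ℚ) * p) :
    (minpoly ℚ (evT f b)).natDegree = f.natDegree := by
  have : Fact (Irreducible (f.map (Int.castRingHom ℚ))) := ⟨hirr⟩
  have : FiniteDimensional ℚ (EE f) := (lfBasis f hm).finiteDimensional_of_finite
  have hfin : Module.finrank ℚ (EE f) = f.natDegree := by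
    rw [Module.finrank_eq_card_basis (lfBasis f hm), Fintype.card_fin]
  have hint : IsIntegral ℤ (evT f b) := lf_isIntegral f hm b
  have hintQ : IsIntegral ℚ (evT f b) := IsIntegral.of_finite ℚ _
  set x : EE f := evT f b with hx
  have h1 := Algebra.norm_eq_norm_adjoin (K := ℚ) x
  have h2 : Module.finrank ℚ (IntermediateField.adjoin ℚ {x}) = (minpoly ℚ x).natDegree :=
    IntermediateField.adjoin.finrank hintQ
  have h3 := Module.finrank_mul_finrank ℚ (IntermediateField.adjoin ℚ {x}) (EE f)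
  rw [hfin, h2] at h3
  set e := Module.finrank (IntermediateField.adjoin ℚ {x}) (EE f) with he
  have hgen : IsIntegral ℤ (IntermediateField.AdjoinSimple.gen ℚ x) := by
    have h4 : IsIntegral ℤ (algebraMap (IntermediateField.adjoin ℚ {x}) (EE f)
        (IntermediateField.AdjoinSimple.gen ℚ x)) := by
      rw [IntermediateField.AdjoinSimple.algebraMap_gen]
      exact hint
    exact (isIntegral_algebraMap_iff
      (algebraMap (IntermediateField.adjoin ℚ {x}) (EE f)).injective).mp h4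
  have hint2 : IsIntegral ℤ (Algebra.norm ℚ (IntermediateField.AdjoinSimple.gen ℚ x)) :=
    Algebra.isIntegral_norm ℚ hgen
  obtain ⟨m, hm'⟩ := IsIntegrallyClosed.isIntegral_iff.mp hint2
  have hB : ((m : ℤ) : ℚ) = Algebra.norm ℚ (IntermediateField.AdjoinSimple.gen ℚ x) := hm'
  have h1' : (c : ℚ) * p = ((m : ℤ) : ℚ) ^ e :=
    (hnorm.symm.trans h1).trans (congrArg (fun w : ℚ => w ^ e) hB.symm)
  have h5 : c * (p : ℤ) = m ^ e := by exact_mod_cast h1'
  by_cases he1 : e = 1
  · rw [he1, mul_one] at h3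
    exact h3
  · exfalso
    have he0 : 0 < e := Module.finrank_pos
    have hpP : Prime (p : ℤ) := Nat.prime_iff_prime_int.mp hp
    have h6 : (p : ℤ) ∣ m := hpP.dvd_of_dvd_pow (n := e) (by rw [← h5]; exact dvd_mul_left _ _)
    have h7 : (p : ℤ) ^ 2 ∣ m ^ e :=
      (pow_dvd_pow_of_dvd h6 2).trans (pow_dvd_pow m (by omega))
    rw [← h5, pow_two] at h7
    exact hc (Int.dvd_of_mul_dvd_mul_right hpP.ne_zero h7)

/-! ### pigeonhole -/

theorem lf_pigeon (d : ℕ) (hd : 1 ≤ d) (p T : ℕ) (hp : 0 < p) (hpT : p < (T + 1) ^ d) (n : ℤ) :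
    ∃ b : ℤ[X], b ≠ 0 ∧ b.natDegree < d ∧ (∀ i, |b.coeff i| ≤ T) ∧ (p : ℤ) ∣ b.eval n := by
  have : NeZero p := ⟨hp.ne'⟩
  let F : (Fin d → Fin (T + 1)) → ZMod p := fun x => ∑ i : Fin d, ((x i : ℕ) : ZMod p) * (n : ZMod p) ^ (i : ℕ)
  obtain ⟨x, y, hxy, hF⟩ := Fintype.exists_ne_map_eq_of_card_lt F (by
    rw [ZMod.card, Fintype.card_fun, Fintype.card_fin, Fintype.card_fin]
    exact hpT)
  set b : ℤ[X] := ∑ i : Fin d, C (((x i : ℕ) : ℤ) - ((y i : ℕ) : ℤ)) * X ^ (i : ℕ) with hb
  have hcoeff : ∀ i, b.coeff i = if h : i < d then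
      (((x ⟨i, h⟩ : ℕ) : ℤ) - ((y ⟨i, h⟩ : ℕ) : ℤ)) else 0 := by
    intro i
    rw [hb, finsetSum_coeff]
    split_ifs with h
    · rw [Finset.sum_eq_single (⟨i, h⟩ : Fin d)]
      · rw [coeff_C_mul, coeff_X_pow, if_pos rfl, mul_one]
      · intro j _ hj
        rw [coeff_C_mul, coeff_X_pow, if_neg, mul_zero]
        intro h'
        apply hj
        ext
        exact h'.symm
      · intro h'
        exact absurd (Finset.mem_univ _) h'
    · apply Finset.sum_eq_zero
      intro j _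
      rw [coeff_C_mul, coeff_X_pow, if_neg, mul_zero]
      intro h'
      apply h
      rw [h']
      exact j.isLt
  refine ⟨b, ?_, ?_, ?_, ?_⟩
  · intro h0
    apply hxy
    funext i
    have h1 := hcoeff i
    rw [h0, coeff_zero, dif_pos i.isLt] at h1
    ext
    have h2 : (x ⟨(i : ℕ), i.isLt⟩ : ℕ) = (y ⟨(i : ℕ), i.isLt⟩ : ℕ) := by omega
    exact h2
  · have h1 : b.natDegree ≤ d - 1 := by
      rw [natDegree_le_iff_coeff_eq_zero]
      intro i hi
      rw [hcoeff, dif_neg (by omega)]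
    omega
  · intro i
    rw [hcoeff]
    split_ifs with h
    · have h1 := (x ⟨i, h⟩).isLt
      have h2 := (y ⟨i, h⟩).isLt
      rw [abs_le]
      constructor <;> omega
    · rw [abs_zero]
      positivity
  · rw [← ZMod.intCast_zmod_eq_zero_iff_dvd]
    have h1 : F x - F y = 0 := by rw [hF, sub_self]
    rw [← h1, hb, eval_finsetSum]
    push_cast
    rw [← Finset.sum_sub_distrib]
    apply Finset.sum_congr rfl
    intro i _
    simp
    ring

/-- M1. For `f` monic and `p^k ∣ f(n)`: a small element `β = b(θ)` of norm `c p`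
with `c^k (n - θ) = β^k α`. -/
theorem line_factor (f : ℤ[X]) (hm : f.Monic) (hirr : Irreducible (f.map (Int.castRingHom ℚ)))
    (hd : 2 ≤ f.natDegree) (k : ℕ) (hk : 1 ≤ k) :
    ∃ C P0 : ℕ, ∀ p T : ℕ, p.Prime → P0 ≤ p → p < (T + 1) ^ f.natDegree →
      T ^ f.natDegree ≤ 4 * p → ∀ n : ℤ, (p : ℤ) ^ k ∣ f.eval n →
      ∃ (b a : ℤ[X]) (c : ℤ), b.natDegree < f.natDegree ∧ (∀ i, |b.coeff i| ≤ T) ∧
        a.natDegree < f.natDegree ∧ c ≠ 0 ∧ |c| ≤ C ∧
        Algebra.norm ℚ (evT f b) = (c : ℚ) * p ∧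
        (c : EE f) ^ k * ((n : EE f) - th f) = evT f b ^ k * evT f a ∧
        (minpoly ℚ (evT f b)).natDegree = f.natDegree := by
  have hd1 : 1 ≤ f.natDegree := by omega
  obtain ⟨K, hK⟩ := lf_det_le f hm
  obtain ⟨U, V, R, hR, hUV⟩ := sv_bezout f hirr
  refine ⟨4 * K, 4 * K + R.natAbs + 1, ?_⟩
  intro p T hp hpP hpT hTp n hdvd
  have hp0 : (0 : ℤ) < p := by exact_mod_cast hp.pos
  have hpf : (p : ℤ) ∣ f.eval n := (dvd_pow_self _ (by omega)).trans hdvd
  obtain ⟨b, hb0, hbd, hbT, hbn⟩ := lf_pigeon f.natDegree hd1 p T hp.pos hpT n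
  obtain ⟨c, u, v, hdet, hu, hv⟩ := lf_key f b hm hd p n hpf hbn
  have hnorm : Algebra.norm ℚ (evT f b) = (c : ℚ) * p := by
    rw [lf_norm f hm hd1 b, hdet]
    push_cast
    ring
  have hne : Algebra.norm ℚ (evT f b) ≠ 0 :=
    lf_norm_ne_zero f hm hirr _ (lf_evT_ne_zero f hm b hbd hb0)
  have hc0 : c ≠ 0 := by
    intro h
    apply hne
    rw [hnorm, h]
    simp
  have hcC : |c| ≤ ((4 * K : ℕ) : ℤ) := by
    have h1 := hK b T hbd hbT
    rw [hdet, abs_mul, abs_of_pos hp0] at h1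
    have h2 : (T : ℤ) ^ f.natDegree ≤ 4 * p := by exact_mod_cast hTp
    have h3 : (K : ℤ) * (T : ℤ) ^ f.natDegree ≤ (K : ℤ) * (4 * p) :=
      mul_le_mul_of_nonneg_left h2 (by positivity)
    have h4 : |c| * (p : ℤ) ≤ ((4 * K : ℕ) : ℤ) * p := by
      push_cast
      linarith
    exact le_of_mul_le_mul_right h4 hp0
  have hcp : ¬ (p : ℤ) ∣ c := by
    intro h
    have h1 : (p : ℤ) ≤ |c| := Int.le_of_dvd (abs_pos.mpr hc0) ((dvd_abs _ _).mpr h)
    have h2 : ((4 * K + R.natAbs + 1 : ℕ) : ℤ) ≤ p := by exact_mod_cast hpP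
    push_cast at h2 hcC
    have h3 : (0 : ℤ) ≤ |R| := abs_nonneg R
    linarith
  have hder : ¬ (p : ℤ) ∣ (derivative f).eval n := by
    intro h
    have h1 : (p : ℤ) ∣ R := by
      have h2 := congrArg (eval n) hUV
      rw [eval_add, eval_mul, eval_mul, eval_C] at h2
      rw [← h2]
      exact dvd_add (hpf.mul_left _) (h.mul_left _)
    have h3 : p ∣ R.natAbs := Int.natCast_dvd.mp h1
    have h4 := Nat.le_of_dvd (Int.natAbs_pos.mpr hR) h3
    omega
  obtain ⟨s, t, hst⟩ : ∃ s t : ℤ, s * (derivative f).eval n + t * p = 1 := by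
    have hcop : IsCoprime ((derivative f).eval n) (p : ℤ) :=
      ((Nat.prime_iff_prime_int.mp hp).coprime_iff_not_dvd.mpr hder).symm
    obtain ⟨s, t, h⟩ := hcop
    exact ⟨s, t, h⟩
  obtain ⟨m, hm'⟩ := hdvd
  obtain ⟨a, ha⟩ := lf_power f k hk p n c m s t b u v hm' hst hu hv
  refine ⟨b, a %ₘ f, c, hbd, hbT, lf_mod_lt f hm hd1 a, hc0, hcC, hnorm, ?_,
    lf_degree f hm hirr b c p hp hcp hnorm⟩
  rw [lf_evT_mod]
  exact ha

end Vale.Agent.P018
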