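import Vale.Agent.P018.PolyNrm

/-! # P018, M6: the polynomial case of the argument with lines. -/

namespace Vale.Agent.P018

open Polynomial Finset

/-- Integral version of Lagrange interpolation with control of the sizes. -/
theorem interp_int (D0 : ℕ) (q : ℚ[X]) (hq : q.natDegree ≤ D0) (s : Finset (ℤ × ℤ))
    (hs : s.card = D0 + 1) (hinj : Set.InjOn Prod.fst (s : Set (ℤ × ℤ))) (B : ℤ) (hB : 1 ≤ B)
    (h : ∀ z ∈ s, |z.1| ≤ B ∧ |z.2| ≤ B ∧ (z.2 : ℚ) = q.eval (z.1 : ℚ)) :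
    ∃ (a : ℤ) (Q : ℤ[X]), a ≠ 0 ∧ |a| ≤ (2 * B) ^ (D0 * (D0 + 1)) ∧
      Q.map (Int.castRingHom ℚ) = C (a : ℚ) * q ∧ Q.natDegree ≤ D0 ∧
      nrm1 Q ≤ (D0 + 1) * (2 * B) ^ (1 + D0 * D0 + D0) := by
  classical
  have h2B : 1 ≤ 2 * B := by linarith
  have hne : ∀ z ∈ s, ∀ w ∈ s.erase z, z.1 - w.1 ≠ 0 := by
    intro z hz w hw h0
    rw [mem_erase] at hw
    exact hw.1 (hinj hw.2 hz (by linarith))
  have hle : ∀ z ∈ s, ∀ w ∈ s.erase z, |z.1 - w.1| ≤ 2 * B := by
    intro z hz w hw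
    have h1 := (h z hz).1
    have h2 := (h w (mem_of_mem_erase hw)).1
    exact (abs_sub _ _).trans (by linarith)
  have hcard : ∀ z ∈ s, (s.erase z).card = D0 := by
    intro z hz
    rw [card_erase_of_mem hz, hs, Nat.add_sub_cancel]
  set a : ℤ := ∏ z ∈ s, ∏ w ∈ s.erase z, (z.1 - w.1) with ha
  set Q : ℤ[X] := ∑ z ∈ s, C (z.2 * ∏ y ∈ s.erase z, ∏ w ∈ s.erase y, (y.1 - w.1)) *
    ∏ w ∈ s.erase z, (X - C w.1) with hQ
  have hprod : ∀ z ∈ s, |∏ w ∈ s.erase z, (z.1 - w.1)| ≤ (2 * B) ^ D0 := by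
    intro z hz
    rw [abs_prod, ← hcard z hz, ← prod_const]
    exact prod_le_prod (fun _ _ => abs_nonneg _) (hle z hz)
  refine ⟨a, Q, ?_, ?_, ?_, ?_, ?_⟩
  · rw [ha]
    exact prod_ne_zero_iff.2 fun z hz => prod_ne_zero_iff.2 (hne z hz)
  · rw [ha, abs_prod, pow_mul, ← hs, ← prod_const]
    exact prod_le_prod (fun _ _ => abs_nonneg _) hprod
  · have hinjQ : Set.InjOn (fun z : ℤ × ℤ => (z.1 : ℚ)) (s : Set (ℤ × ℤ)) := by
      intro z hz w hw hzw
      have hzw' : (z.1 : ℚ) = (w.1 : ℚ) := hzw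
      exact hinj hz hw (by exact_mod_cast hzw')
    have hdeg : q.degree < (s.card : WithBot ℕ) := by
      rw [hs]
      exact lt_of_le_of_lt degree_le_natDegree (by exact_mod_cast Nat.lt_succ_of_le hq)
    rw [Lagrange.eq_interpolate (v := fun z : ℤ × ℤ => (z.1 : ℚ)) hinjQ hdeg]
    rw [Lagrange.interpolate_apply, mul_sum, hQ, Polynomial.map_sum]
    refine sum_congr rfl fun z hz => ?_
    have h1 : a = (∏ w ∈ s.erase z, (z.1 - w.1)) *
        ∏ y ∈ s.erase z, ∏ w ∈ s.erase y, (y.1 - w.1) := by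
      rw [ha, ← mul_prod_erase s _ hz]
    have h2 : C (((∏ w ∈ s.erase z, (z.1 - w.1) : ℤ)) : ℚ) *
        Lagrange.basis s (fun z : ℤ × ℤ => (z.1 : ℚ)) z =
        ∏ w ∈ s.erase z, (X - C (w.1 : ℚ)) := by
      unfold Lagrange.basis Lagrange.basisDivisor
      push_cast
      rw [map_prod, ← prod_mul_distrib]
      refine prod_congr rfl fun w hw => ?_
      rw [← mul_assoc, ← C_mul, mul_inv_cancel₀, C_1, one_mul]
      have := hne z hz w hw
      exact_mod_cast this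
    rw [← (h z hz).2.2, Polynomial.map_mul, map_C, Polynomial.map_prod, h1]
    simp only [Polynomial.map_sub, map_X, map_C]
    rw [← show ∏ w ∈ s.erase z, (X - C (w.1 : ℚ)) =
      ∏ w ∈ s.erase z, (X - C ((Int.castRingHom ℚ) w.1)) from rfl, ← h2]
    simp only [map_mul, Int.cast_mul, eq_intCast]
    ring
  · rw [hQ]
    refine natDegree_sum_le_of_forall_le _ _ fun z hz => ?_
    refine (natDegree_C_mul_le _ _).trans ?_
    refine (natDegree_prod_le _ _).trans ?_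
    rw [← hcard z hz, card_eq_sum_ones]
    refine sum_le_sum fun w _ => ?_
    rw [natDegree_X_sub_C]
  · rw [hQ]
    refine (nrm1_sum_le _ _).trans ?_
    have h1 : ∀ z ∈ s, nrm1 (C (z.2 * ∏ y ∈ s.erase z, ∏ w ∈ s.erase y, (y.1 - w.1)) *
        ∏ w ∈ s.erase z, (X - C w.1)) ≤ (2 * B) ^ (1 + D0 * D0 + D0) := by
      intro z hz
      rw [nrm1_C_mul, abs_mul, pow_add, pow_add, pow_one]
      refine mul_le_mul (mul_le_mul ?_ ?_ (abs_nonneg _) (by positivity)) ?_ (nrm1_nonneg _)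
        (by positivity)
      · exact (h z hz).2.1.trans (by linarith)
      · rw [abs_prod, pow_mul]
        rw [← hcard z hz, ← prod_const]
        refine prod_le_prod (fun _ _ => abs_nonneg _) fun y hy => ?_
        rw [hcard z hz]
        exact hprod y (mem_of_mem_erase hy)
      · refine (nrm1_prod_le _ _).trans ?_
        rw [← hcard z hz, ← prod_const]
        refine prod_le_prod (fun _ _ => nrm1_nonneg _) fun w hw => ?_
        refine (nrm1_X_sub_C_le _).trans ?_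
        have := (h w (mem_of_mem_erase hw)).1
        linarith
    refine (sum_le_sum h1).trans ?_
    rw [sum_const, hs, nsmul_eq_mul]
    push_cast
    exact le_rfl

/-- the polynomial `a^d f(Q/a)`. -/
noncomputable def homog (f : ℤ[X]) (a : ℤ) (Q : ℤ[X]) : ℤ[X] :=
  ∑ i ∈ range (f.natDegree + 1), C (f.coeff i * a ^ (f.natDegree - i)) * Q ^ i

theorem homog_map (f : ℤ[X]) (a : ℤ) (Q : ℤ[X]) (q : ℚ[X])
    (hQ : Q.map (Int.castRingHom ℚ) = C (a : ℚ) * q) :
    (homog f a Q).map (Int.castRingHom ℚ) =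
      C ((a : ℚ) ^ f.natDegree) * (f.map (Int.castRingHom ℚ)).comp q := by
  unfold homog
  rw [Polynomial.map_sum, comp, eval₂_eq_sum_range' _ (n := f.natDegree + 1) (by
    have := natDegree_map_le (p := f) (f := Int.castRingHom ℚ)
    omega), mul_sum]
  refine sum_congr rfl fun i hi => ?_
  rw [mem_range] at hi
  rw [Polynomial.map_mul, map_C, Polynomial.map_pow, hQ, coeff_map, mul_pow, ← C_pow]
  have h1 : (a : ℚ) ^ f.natDegree = (a : ℚ) ^ (f.natDegree - i) * (a : ℚ) ^ i := by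
    rw [← pow_add]
    congr 1
    omega
  rw [h1]
  simp only [map_mul, map_pow, eq_intCast]
  ring

theorem homog_eval (f : ℤ[X]) (a : ℤ) (Q : ℤ[X]) (t n : ℤ) (h : Q.eval t = a * n) :
    (homog f a Q).eval t = a ^ f.natDegree * f.eval n := by
  unfold homog
  rw [eval_finsetSum, eval_eq_sum_range, mul_sum]
  refine sum_congr rfl fun i hi => ?_
  rw [mem_range] at hi
  rw [eval_mul, eval_C, eval_pow, h, mul_pow]
  have h1 : a ^ f.natDegree = a ^ (f.natDegree - i) * a ^ i := by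
    rw [← pow_add]
    congr 1
    omega
  rw [h1]
  ring

theorem homog_natDegree_le (f : ℤ[X]) (a : ℤ) (Q : ℤ[X]) (D : ℕ) (hQ : Q.natDegree ≤ D) :
    (homog f a Q).natDegree ≤ f.natDegree * D := by
  unfold homog
  refine natDegree_sum_le_of_forall_le _ _ fun i hi => ?_
  rw [mem_range] at hi
  refine (natDegree_C_mul_le _ _).trans ?_
  refine natDegree_pow_le.trans ?_
  exact Nat.mul_le_mul (by omega) hQ

theorem homog_nrm1_le (f : ℤ[X]) (a : ℤ) (Q : ℤ[X]) (M : ℤ) (ha : |a| ≤ M)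
    (hQ : nrm1 Q ≤ M) : nrm1 (homog f a Q) ≤ nrm1 f * M ^ f.natDegree := by
  have hM : 0 ≤ M := (abs_nonneg a).trans ha
  unfold homog
  refine (nrm1_sum_le _ _).trans ?_
  conv_rhs => rw [nrm1, sum_mul]
  refine sum_le_sum fun i hi => ?_
  rw [mem_range] at hi
  rw [nrm1_C_mul, abs_mul, mul_assoc]
  refine mul_le_mul_of_nonneg_left ?_ (abs_nonneg _)
  have h1 : M ^ f.natDegree = M ^ (f.natDegree - i) * M ^ i := by
    rw [← pow_add]
    congr 1
    omega
  rw [h1, abs_pow]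
  refine mul_le_mul (pow_le_pow_left₀ (abs_nonneg _) ha _) ?_ (nrm1_nonneg _) (by positivity)
  exact (nrm1_pow_le _ _).trans (pow_le_pow_left₀ (nrm1_nonneg _) hQ _)

/-- Counting: all the primes divide one nonzero integer of polynomial size. -/
theorem count_of_dvd (d C2 K1 T : ℕ) (hT : 2 ≤ T) (N : ℤ[X])
    (hNd : N.natDegree = d) (hd : 1 ≤ d) (S : Finset (ℤ × ℤ))
    (hinj : Set.InjOn Prod.fst (S : Set (ℤ × ℤ))) (p : ℤ × ℤ → ℕ) (c : ℤ × ℤ → ℤ) (R : ℤ)
    (hR0 : R ≠ 0) (hR : |R| ≤ (T : ℤ) ^ K1)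
    (h : ∀ z ∈ S, (p z).Prime ∧ T ≤ p z ∧ |c z| ≤ C2 ∧ N.eval z.1 = c z * p z ∧ (p z : ℤ) ∣ R) :
    S.card ≤ d * (K1 * (2 * C2 + 1)) := by
  classical
  set SP := S.image p with hSP
  have hRle' : R.natAbs ≤ T ^ K1 := by
    rw [Int.abs_eq_natAbs] at hR
    exact_mod_cast hR
  have hRpos : 0 < R.natAbs := Int.natAbs_pos.2 hR0
  have hSprime : ∀ r ∈ SP, r.Prime := by
    intro r hr
    obtain ⟨z, hz, rfl⟩ := mem_image.1 hr
    exact (h z hz).1
  have hSdvd : ∏ r ∈ SP, r ∣ R.natAbs := by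
    refine Finset.prod_primes_dvd _ (fun r hr => (hSprime r hr).prime) ?_
    intro r hr
    obtain ⟨z, hz, rfl⟩ := mem_image.1 hr
    exact Int.natCast_dvd.1 (h z hz).2.2.2.2
  have hScard : SP.card ≤ K1 := by
    have h1 : T ^ SP.card ≤ ∏ r ∈ SP, r := by
      rw [← prod_const]
      refine prod_le_prod' fun r hr => ?_
      obtain ⟨z, hz, rfl⟩ := mem_image.1 hr
      exact (h z hz).2.1
    have h2 := (h1.trans (Nat.le_of_dvd hRpos hSdvd)).trans hRle'
    exact (Nat.pow_le_pow_iff_right (by omega)).1 h2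
  set I := S.image (fun z => (p z, c z)) with hI
  have hIcard : I.card ≤ K1 * (2 * C2 + 1) := by
    have h1 : I ⊆ SP ×ˢ Icc (-(C2 : ℤ)) C2 := by
      intro x hx
      obtain ⟨z, hz, rfl⟩ := mem_image.1 hx
      rw [mem_product, mem_Icc]
      exact ⟨mem_image_of_mem p hz, abs_le.1 (h z hz).2.2.1⟩
    refine (card_le_card h1).trans ?_
    rw [card_product, Int.card_Icc]
    refine Nat.mul_le_mul hScard ?_
    omega
  have hfib : ∀ b ∈ I, (S.filter fun z => (p z, c z) = b).card ≤ d := by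
    rintro ⟨r, e⟩ hb
    set g : ℤ[X] := N - C (e * r) with hg
    have hg0 : g ≠ 0 := by
      intro h0
      have h1 : N = C (e * r) := by rw [← sub_eq_zero]; exact h0
      rw [h1, natDegree_C] at hNd
      omega
    have hgd : g.natDegree ≤ d := by
      rw [hg, natDegree_sub_C, hNd]
    have hinj' : Set.InjOn Prod.fst ((S.filter fun z => (p z, c z) = (r, e) : Finset (ℤ × ℤ)) :
        Set (ℤ × ℤ)) := hinj.mono (by
          intro z hz
          exact mem_coe.2 (mem_filter.1 (mem_coe.1 hz)).1)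
    rw [← card_image_of_injOn hinj']
    calc _ ≤ g.roots.toFinset.card := by
          refine card_le_card fun t ht => ?_
          obtain ⟨z, hz, rfl⟩ := mem_image.1 ht
          rw [mem_filter, Prod.mk.injEq] at hz
          rw [Multiset.mem_toFinset, mem_roots hg0, IsRoot.def, hg, eval_sub, eval_C,
            (h z hz.1).2.2.2.1, hz.2.1, hz.2.2, sub_self]
      _ ≤ Multiset.card g.roots := g.roots.toFinset_card_le
      _ ≤ g.natDegree := card_roots' g
      _ ≤ d := hgd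
  calc S.card ≤ d * I.card := card_le_mul_card_image S d hfib
    _ ≤ d * (K1 * (2 * C2 + 1)) := Nat.mul_le_mul_left _ hIcard

/-- the multiplicity of `N` in `f ∘ q` is less than `k`. -/
theorem not_pow_dvd_comp (f q N : ℚ[X]) (hf : Irreducible f)
    (k : ℕ) (hk : 2 ≤ k) (hq0 : 1 ≤ q.natDegree) (hq : q.natDegree ≤ (k - 1) * N.natDegree) :
    ¬ N ^ k ∣ f.comp q := by
  intro hdvd
  have h1 : N ^ (k - 1) ∣ derivative (f.comp q) := pow_sub_one_dvd_derivative_of_pow_dvd hdvd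
  rw [derivative_comp] at h1
  have h2 : IsCoprime f (derivative f) := hf.separable
  have h3 : IsCoprime (f.comp q) ((derivative f).comp q) := h2.map (compRingHom q)
  have h4 : IsCoprime N ((derivative f).comp q) :=
    h3.of_isCoprime_of_dvd_left ((dvd_pow_self N (by omega)).trans hdvd)
  have h5 : N ^ (k - 1) ∣ derivative q := (h4.pow_left (m := k - 1)).dvd_of_dvd_mul_right h1
  have h6 : derivative q ≠ 0 := by
    intro h0
    have := derivative_eq_zero.1 h0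
    omega
  have h7 := natDegree_le_of_dvd h5 h6
  rw [natDegree_pow] at h7
  have h8 := natDegree_derivative_lt (p := q) (by omega)
  omega

/-- M6. Polynomial case: few integer points `(t, n)` with `n = q(t)`, `N(t) = c p`,
`p^k ∣ f(n)`, if `deg q ≤ (k-1) deg N`. -/
theorem polynomial_case (f : ℤ[X]) (hirr : Irreducible (f.map (Int.castRingHom ℚ)))
    (hd : 2 ≤ f.natDegree) (k : ℕ) (hk : 2 ≤ k) (C1 C2 : ℕ) :
    ∃ K T0 : ℕ, ∀ T : ℕ, T0 ≤ T → ∀ N : ℤ[X], N.Monic → N.natDegree = f.natDegree →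
      Irreducible (N.map (Int.castRingHom ℚ)) → (∀ i, |N.coeff i| ≤ (T : ℤ) ^ C1) →
      ∀ q : ℚ[X], q.natDegree ≤ (k - 1) * f.natDegree → ∀ S : Finset (ℤ × ℤ),
      Set.InjOn Prod.fst (S : Set (ℤ × ℤ)) →
      (∀ z ∈ S, |z.1| ≤ T ∧ |z.2| ≤ (T : ℤ) ^ C1 ∧ (z.2 : ℚ) = q.eval (z.1 : ℚ) ∧
        ∃ (p : ℕ) (c : ℤ), p.Prime ∧ T ≤ p ∧ c ≠ 0 ∧ |c| ≤ C2 ∧ N.eval z.1 = c * p ∧
          (p : ℤ) ^ k ∣ f.eval z.2) →
      S.card ≤ K := by
  classical
  have hinjQ : Function.Injective (Int.castRingHom ℚ) := Int.cast_injective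
  obtain ⟨d, hddef⟩ : ∃ n, n = f.natDegree := ⟨_, rfl⟩
  rw [← hddef] at hd ⊢
  obtain ⟨D0, hD0⟩ : ∃ n, n = (k - 1) * d := ⟨_, rfl⟩
  obtain ⟨E1, hE1⟩ : ∃ n, n = 1 + (C1 + 2) * (1 + D0 * D0 + D0) := ⟨_, rfl⟩
  obtain ⟨E2, hE2⟩ : ∃ n, n = 1 + E1 * d := ⟨_, rfl⟩
  obtain ⟨E3, hE3⟩ : ∃ n, n = d * D0 + E2 := ⟨_, rfl⟩
  obtain ⟨KB, hKB⟩ : ∃ n, n = 1 + E3 * (d + d * D0) := ⟨_, rfl⟩
  obtain ⟨KA, hKA⟩ : ∃ n, n = 1 + (C1 + 1) * d := ⟨_, rfl⟩
  rw [← hD0]
  refine ⟨max (D0 + 1) (max (d * (KA * (2 * C2 + 1))) (d * (KB * (2 * C2 + 1)))),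
    max (max 2 (nrm1 f).natAbs) (max (max (C2 + 1) (D0 + 1)) (d + d * D0).factorial),
    fun T hT N hNm hNd hNirr hNc q hq S hinj h => ?_⟩
  have hT2 : 2 ≤ T := by omega
  have hTf : (nrm1 f).natAbs ≤ T := by omega
  have hTC : C2 + 1 ≤ T := by omega
  have hTD : D0 + 1 ≤ T := by omega
  have hTfac : (d + d * D0).factorial ≤ T := by omega
  clear hT
  have hT1' : (1 : ℤ) ≤ T := by exact_mod_cast (by omega : 1 ≤ T)
  have hT2' : (2 : ℤ) ≤ T := by exact_mod_cast hT2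
  have hTf' : nrm1 f ≤ T := by
    have h1 : ((nrm1 f).natAbs : ℤ) ≤ T := by exact_mod_cast hTf
    rwa [Int.natAbs_of_nonneg (nrm1_nonneg f)] at h1
  choose! p c hp using fun z hz => (h z hz).2.2.2
  by_cases hcard : S.card ≤ D0 + 1
  · exact le_max_of_le_left hcard
  refine le_max_of_le_right ?_
  by_cases hq0 : q.natDegree = 0
  · -- constant case
    refine le_max_of_le_left ?_
    obtain ⟨q0, hq0'⟩ : ∃ q0, q = C q0 := ⟨_, eq_C_of_natDegree_eq_zero hq0⟩
    obtain ⟨z0, hz0⟩ : S.Nonempty := by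
      rw [← card_pos]
      omega
    have hn : ∀ z ∈ S, z.2 = z0.2 := by
      intro z hz
      have h1 := (h z hz).2.2.1
      have h2 := (h z0 hz0).2.2.1
      rw [hq0', eval_C] at h1 h2
      exact_mod_cast h1.trans h2.symm
    have hR0 : f.eval z0.2 ≠ 0 := by
      intro h0
      have h1 : (f.map (Int.castRingHom ℚ)).IsRoot (z0.2 : ℚ) := by
        rw [IsRoot.def, show (z0.2 : ℚ) = Int.castRingHom ℚ z0.2 from rfl, eval_map,
          eval₂_at_apply, h0, map_zero]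
      have h2 : (f.map (Int.castRingHom ℚ)).natDegree = 1 :=
        natDegree_eq_of_degree_eq_some (degree_eq_one_of_irreducible_of_root hirr h1)
      rw [natDegree_map_eq_of_injective hinjQ, ← hddef] at h2
      omega
    have hR : |f.eval z0.2| ≤ (T : ℤ) ^ KA := by
      have h1 := abs_eval_le_nrm1 f z0.2 ((T : ℤ) ^ (C1 + 1)) (one_le_pow₀ hT1')
        ((h z0 hz0).2.1.trans (pow_le_pow_right₀ hT1' (by omega))) (d := d) hddef.ge
      refine h1.trans ?_
      have h2 : (T : ℤ) ^ KA = T * ((T : ℤ) ^ (C1 + 1)) ^ d := by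
        rw [hKA, pow_add, pow_one, ← pow_mul]
      rw [h2]
      exact mul_le_mul_of_nonneg_right hTf' (by positivity)
    refine count_of_dvd d C2 KA T hT2 N hNd (by omega) S hinj p c (f.eval z0.2) hR0 hR ?_
    intro z hz
    obtain ⟨h1, h2, -, h4, h5, h6⟩ := hp z hz
    refine ⟨h1, h2, h4, h5, ?_⟩
    rw [hn z hz] at h6
    exact (dvd_pow_self _ (by omega)).trans h6
  -- nonconstant case
  refine le_max_of_le_right ?_
  obtain ⟨s, hsS, hs⟩ := exists_subset_card_eq (s := S) (n := D0 + 1) (by omega)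
  obtain ⟨B, hB⟩ : ∃ x : ℤ, x = (T : ℤ) ^ (C1 + 1) := ⟨_, rfl⟩
  have hB1 : 1 ≤ B := by
    rw [hB]
    exact one_le_pow₀ hT1'
  have h2B : 2 * B ≤ (T : ℤ) ^ (C1 + 2) := by
    rw [hB, pow_succ (T : ℤ) (C1 + 1), mul_comm]
    exact mul_le_mul_of_nonneg_left hT2' (by positivity)
  obtain ⟨a, Q, ha0, haB, hQ, hQd, hQn⟩ := interp_int D0 q hq s hs (hinj.mono (by exact_mod_cast hsS))
    B hB1 (by
      intro z hz
      obtain ⟨h1, h2, h3, -⟩ := h z (hsS hz)
      rw [hB]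
      exact ⟨h1.trans (le_self_pow₀ hT1' (by omega)),
        h2.trans (pow_le_pow_right₀ hT1' (by omega)), h3⟩)
  have haT : |a| ≤ (T : ℤ) ^ E1 := by
    refine haB.trans ((pow_le_pow_left₀ (by linarith) h2B _).trans ?_)
    rw [← pow_mul]
    refine pow_le_pow_right₀ hT1' ?_
    have h3 : D0 * (D0 + 1) ≤ 1 + D0 * D0 + D0 := by
      rw [mul_add, mul_one]
      omega
    have h4 := Nat.mul_le_mul_left (C1 + 2) h3
    omega
  have hQT : nrm1 Q ≤ (T : ℤ) ^ E1 := by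
    refine hQn.trans ?_
    have h2 : (T : ℤ) ^ E1 = T * ((T : ℤ) ^ (C1 + 2)) ^ (1 + D0 * D0 + D0) := by
      rw [hE1, pow_add, pow_one, ← pow_mul]
    rw [h2]
    refine mul_le_mul (by exact_mod_cast hTD) (pow_le_pow_left₀ (by linarith) h2B _)
      (by positivity) (by positivity)
  obtain ⟨F, hF⟩ : ∃ x, x = homog f a Q := ⟨_, rfl⟩
  have hFmap := homog_map f a Q q hQ
  rw [← hF, ← hddef] at hFmap
  have hFd : F.natDegree ≤ d * D0 := by
    rw [hF, hddef]
    exact homog_natDegree_le f a Q D0 hQd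
  have hFn : nrm1 F ≤ (T : ℤ) ^ E2 := by
    rw [hF]
    refine (homog_nrm1_le f a Q _ haT hQT).trans ?_
    have h2 : (T : ℤ) ^ E2 = T * ((T : ℤ) ^ E1) ^ d := by
      rw [hE2, pow_add, pow_one, ← pow_mul]
    rw [h2, ← hddef]
    exact mul_le_mul_of_nonneg_right hTf' (by positivity)
  have haQ : (a : ℚ) ^ d ≠ 0 := pow_ne_zero _ (by exact_mod_cast ha0)
  have hcomp0 : (f.map (Int.castRingHom ℚ)).comp q ≠ 0 := by
    intro h0
    rw [comp_eq_zero_iff] at h0
    rcases h0 with h0 | h0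
    · exact hirr.ne_zero h0
    · apply hq0
      rw [h0.2, natDegree_C]
  have hF0 : F ≠ 0 := by
    intro h0
    rw [h0, Polynomial.map_zero] at hFmap
    exact mul_ne_zero (by rwa [Ne, C_eq_zero]) hcomp0 hFmap.symm
  have hNdeg : 0 < N.degree := natDegree_pos_iff_degree_pos.1 (by omega)
  have hfm : FiniteMultiplicity N F := finiteMultiplicity_of_degree_pos_of_monic hNdeg hNm hF0
  obtain ⟨H, hFH, hNH⟩ := hfm.exists_eq_pow_mul_and_not_dvd
  generalize multiplicity N F = e at hFH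
  have hek : e < k := by
    by_contra hle
    rw [not_lt] at hle
    have h1 : N ^ k ∣ F := (pow_dvd_pow N hle).trans (Dvd.intro _ hFH.symm)
    have h2 : (N.map (Int.castRingHom ℚ)) ^ k ∣ F.map (Int.castRingHom ℚ) := by
      rw [← Polynomial.map_pow]
      exact Polynomial.map_dvd _ h1
    rw [hFmap] at h2
    have hu : IsUnit (C ((a : ℚ) ^ d)) := isUnit_C.2 (isUnit_iff_ne_zero.2 haQ)
    rw [hu.dvd_mul_left] at h2
    refine not_pow_dvd_comp _ q _ hirr k hk (by omega) ?_ h2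
    rw [natDegree_map_eq_of_injective hinjQ, hNd, ← hD0]
    exact hq
  have hH0 : H ≠ 0 := by
    rintro rfl
    exact hNH (dvd_zero _)
  have hHd : H.natDegree ≤ d * D0 := by
    refine le_trans ?_ hFd
    rw [hFH, (hNm.pow e).natDegree_mul' hH0]
    omega
  have hHc : ∀ i, |H.coeff i| ≤ (T : ℤ) ^ E3 := by
    intro i
    refine (coeff_factor_le H (N ^ e) (hNm.pow e).ne_zero (d * D0) hHd i).trans ?_
    rw [mul_comm H, ← hFH, hE3, pow_add]
    exact mul_le_mul (pow_le_pow_left₀ (by norm_num) hT2' _) hFn (nrm1_nonneg _) (by positivity)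
  have hNc' : ∀ i, |N.coeff i| ≤ (T : ℤ) ^ E3 := by
    intro i
    refine (hNc i).trans (pow_le_pow_right₀ hT1' ?_)
    have h1 : C1 + 2 ≤ E1 := by
      have h3 : 1 ≤ 1 + D0 * D0 + D0 := by omega
      have h4 := Nat.mul_le_mul_left (C1 + 2) h3
      omega
    have h2 : E1 ≤ E1 * d := Nat.le_mul_of_pos_right _ (by omega)
    omega
  have hcop : IsCoprime (N.map (Int.castRingHom ℚ)) (H.map (Int.castRingHom ℚ)) := by
    rcases EuclideanDomain.dvd_or_coprime (N.map (Int.castRingHom ℚ)) (H.map (Int.castRingHom ℚ))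
      hNirr with h1 | h1
    · exfalso
      exact hNH ((Polynomial.map_dvd_map _ hinjQ hNm).1 h1)
    · exact h1
  have hRne : resultant N H N.natDegree H.natDegree ≠ 0 := by
    have h1 := resultant_ne_zero _ _ hcop
    rw [natDegree_map_eq_of_injective hinjQ, natDegree_map_eq_of_injective hinjQ,
      resultant_map_map] at h1
    exact fun h0 => h1 (by rw [h0, map_zero])
  obtain ⟨u, v, -, -, huv⟩ := exists_mul_add_mul_eq_C_resultant N H le_rfl le_rfl
    (Or.inl (by omega))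
  obtain ⟨R, hR⟩ : ∃ x, x = resultant N H N.natDegree H.natDegree := ⟨_, rfl⟩
  rw [← hR] at hRne huv
  have hRle : |R| ≤ (T : ℤ) ^ KB := by
    have h1 := resultant_abs_le N H ((T : ℤ) ^ E3) (by positivity) hNc' hHc N.natDegree H.natDegree
    rw [← hR] at h1
    refine h1.trans ?_
    have h2 : (T : ℤ) ^ KB = T * ((T : ℤ) ^ E3) ^ (d + d * D0) := by
      rw [hKB, pow_add, pow_one, ← pow_mul]
    rw [hNd, h2]
    refine mul_le_mul ?_ (pow_le_pow_right₀ (one_le_pow₀ hT1') (by omega)) (by positivity)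
      (by positivity)
    have h3 : (d + H.natDegree).factorial ≤ (d + d * D0).factorial :=
      Nat.factorial_le (by omega)
    exact_mod_cast h3.trans hTfac
  refine count_of_dvd d C2 KB T hT2 N hNd (by omega) S hinj p c R hRne hRle ?_
  intro z hz
  obtain ⟨h1, h2, h3, h4, h5, h6⟩ := hp z hz
  refine ⟨h1, h2, h4, h5, ?_⟩
  have hpN : (p z : ℤ) ∣ N.eval z.1 := by
    rw [h5]
    exact dvd_mul_left _ _
  have hQz : Q.eval z.1 = a * z.2 := by
    have h7 : ((Q.eval z.1 : ℤ) : ℚ) = ((a * z.2 : ℤ) : ℚ) := by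
      have h8 : ((Q.eval z.1 : ℤ) : ℚ) = (Q.map (Int.castRingHom ℚ)).eval (z.1 : ℚ) := by
        rw [show (z.1 : ℚ) = Int.castRingHom ℚ z.1 from rfl, eval_map, eval₂_at_apply]
        rfl
      rw [h8, hQ, eval_mul, eval_C, ← (h z hz).2.2.1]
      push_cast
      rfl
    exact_mod_cast h7
  have hFz : (p z : ℤ) ^ k ∣ F.eval z.1 := by
    rw [hF, homog_eval f a Q z.1 z.2 hQz]
    exact h6.mul_left _
  have hpp : Prime (p z : ℤ) := Nat.prime_iff_prime_int.1 h1
  have hpc : ¬ (p z : ℤ) ∣ c z := by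
    intro h7
    have h8 := Int.le_of_dvd (abs_pos.2 h3) ((dvd_abs _ _).2 h7)
    have h9 : (T : ℤ) ≤ p z := by exact_mod_cast h2
    have h10 : (C2 : ℤ) + 1 ≤ T := by exact_mod_cast hTC
    linarith
  have hpH : (p z : ℤ) ∣ H.eval z.1 := by
    rw [hFH, eval_mul, eval_pow, h5, mul_pow, mul_comm (c z ^ e), mul_assoc] at hFz
    have h7 : (p z : ℤ) ^ k = (p z : ℤ) ^ e * (p z : ℤ) ^ (k - e) := by
      rw [← pow_add]
      congr 1
      omega
    rw [h7] at hFz
    have h8 := (mul_dvd_mul_iff_left (pow_ne_zero e hpp.ne_zero)).1 hFz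
    have h9 : (p z : ℤ) ∣ c z ^ e * H.eval z.1 := (dvd_pow_self _ (by omega)).trans h8
    rcases hpp.dvd_or_dvd h9 with h10 | h10
    · exact absurd (hpp.dvd_of_dvd_pow h10) hpc
    · exact h10
  have h7 := congrArg (fun g => g.eval z.1) huv
  simp only [eval_add, eval_mul, eval_C] at h7
  rw [← h7]
  exact dvd_add (hpN.mul_right _) (hpH.mul_right _)

end Vale.Agent.P018
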