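import Vale.Agent.P018.SmallCurve

/-! # P018, Module M5: few integer points on `A(t) n = B(t)` with `A` not constant. -/

namespace Vale.Agent.P018

open Polynomial Finset

/-- The divisor bound. -/
theorem divisor_bound (ε : ℝ) (hε : 0 < ε) :
    ∃ C : ℝ, 1 ≤ C ∧ ∀ n : ℕ, n ≠ 0 → (n.divisors.card : ℝ) ≤ C * (n : ℝ) ^ ε := by
  have hlog2 : 0 < Real.log 2 := Real.log_pos (by norm_num)
  set K : ℝ := 1 + 1 / (ε * Real.log 2) with hK
  have hK1 : 1 ≤ K := by
    have : 0 ≤ 1 / (ε * Real.log 2) := by positivity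
    linarith
  set P0 : ℕ := ⌈(2 : ℝ) ^ (1 / ε)⌉₊ with hP0
  refine ⟨K ^ P0, one_le_pow₀ hK1, ?_⟩
  intro n hn
  rw [Nat.card_divisors hn]
  have hn' : (n : ℝ) ^ ε = ∏ p ∈ n.primeFactors, ((p : ℝ) ^ ε) ^ (n.factorization p) := by
    conv_lhs => rw [← Nat.prod_factorization_pow_eq_self hn]
    rw [Nat.prod_factorization_eq_prod_primeFactors]
    push_cast
    rw [← Real.finsetProd_rpow _ _ (fun p _ => by positivity)]
    refine prod_congr rfl fun p _ => ?_
    rw [← Real.rpow_natCast, ← Real.rpow_natCast, ← Real.rpow_mul (by positivity),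
      ← Real.rpow_mul (by positivity), mul_comm]
  have hfac : ∀ p ∈ n.primeFactors, ((n.factorization p : ℝ) + 1) ≤
      (if p < P0 then K else 1) * ((p : ℝ) ^ ε) ^ (n.factorization p) := by
    intro p hp
    have hpp : p.Prime := Nat.prime_of_mem_primeFactors hp
    set a := n.factorization p with ha
    have hp2 : (2 : ℝ) ≤ p := by exact_mod_cast hpp.two_le
    split_ifs with h
    · have h1 : 1 + ε * Real.log 2 * a ≤ ((p : ℝ) ^ ε) ^ a := by
        have h2 : ((2 : ℝ) ^ ε) ^ a ≤ ((p : ℝ) ^ ε) ^ a :=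
          pow_le_pow_left₀ (by positivity) (Real.rpow_le_rpow (by norm_num) hp2 hε.le) _
        refine le_trans ?_ h2
        rw [Real.rpow_def_of_pos (by norm_num : (0 : ℝ) < 2), ← Real.exp_nat_mul]
        have := Real.add_one_le_exp ((a : ℝ) * (Real.log 2 * ε))
        linarith
      have h3 : K * (1 + ε * Real.log 2 * a) = K + K * (ε * Real.log 2) * a := by ring
      have h4 : K * (ε * Real.log 2) = ε * Real.log 2 + 1 := by
        rw [hK]; field_simp
      calc (a : ℝ) + 1 ≤ K * (1 + ε * Real.log 2 * a) := by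
            rw [h3, h4]
            have : 0 ≤ ε * Real.log 2 * (a : ℝ) := by positivity
            nlinarith
        _ ≤ K * ((p : ℝ) ^ ε) ^ a := mul_le_mul_of_nonneg_left h1 (by linarith)
    · rw [one_mul]
      have h1 : (2 : ℝ) ≤ (p : ℝ) ^ ε := by
        have h2 : (2 : ℝ) ^ (1 / ε) ≤ p := by
          refine (Nat.le_ceil _).trans ?_
          exact_mod_cast not_lt.1 h
        calc (2 : ℝ) = ((2 : ℝ) ^ (1 / ε)) ^ ε := by
              rw [← Real.rpow_mul (by norm_num), one_div, inv_mul_cancel₀ hε.ne', Real.rpow_one]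
          _ ≤ (p : ℝ) ^ ε := Real.rpow_le_rpow (by positivity) h2 hε.le
      have h3 : a + 1 ≤ 2 ^ a := Nat.lt_two_pow_self
      calc (a : ℝ) + 1 ≤ (2 : ℝ) ^ a := by exact_mod_cast h3
        _ ≤ _ := pow_le_pow_left₀ (by norm_num) h1 _
  push_cast
  calc ∏ p ∈ n.primeFactors, ((n.factorization p : ℝ) + 1)
      ≤ ∏ p ∈ n.primeFactors, ((if p < P0 then K else 1) * ((p : ℝ) ^ ε) ^ (n.factorization p)) :=
        prod_le_prod (fun p _ => by positivity) hfac
    _ = (∏ p ∈ n.primeFactors, (if p < P0 then K else 1)) * (n : ℝ) ^ ε := by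
        rw [prod_mul_distrib, ← hn']
    _ ≤ K ^ P0 * (n : ℝ) ^ ε := by
        refine mul_le_mul_of_nonneg_right ?_ (by positivity)
        rw [prod_ite, prod_const, prod_const_one, mul_one]
        refine pow_le_pow_right₀ hK1 ?_
        calc (n.primeFactors.filter fun p => p < P0).card ≤ (range P0).card := by
              refine card_le_card fun p hp => ?_
              exact mem_range.2 (mem_filter.1 hp).2
          _ = P0 := card_range _

/-- polynomial with given coefficients -/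
noncomputable def polyFin {m : ℕ} (t : Fin m → ℤ) : ℤ[X] := ∑ i : Fin m, monomial (i : ℕ) (t i)

theorem polyFin_coeff {m : ℕ} (t : Fin m → ℤ) (j : ℕ) :
    (polyFin t).coeff j = if h : j < m then t ⟨j, h⟩ else 0 := by
  unfold polyFin
  rw [finsetSum_coeff]
  simp only [coeff_monomial]
  split_ifs with h
  · rw [Finset.sum_eq_single (⟨j, h⟩ : Fin m)]
    · simp
    · intro b _ hb
      rw [if_neg]
      intro hbj
      exact hb (Fin.ext hbj)
    · simp
  · apply Finset.sum_eq_zero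
    intro b _
    rw [if_neg]
    intro hbj
    exact h (hbj ▸ b.2)

theorem polyFin_natDegree {m : ℕ} (t : Fin (m + 1) → ℤ) : (polyFin t).natDegree ≤ m := by
  rw [natDegree_le_iff_coeff_eq_zero]
  intro j hj
  rw [polyFin_coeff, dif_neg (by omega)]

theorem polyFin_eval {m : ℕ} (t : Fin m → ℤ) (x : ℤ) :
    (polyFin t).eval x = ∑ i : Fin m, t i * x ^ (i : ℕ) := by
  unfold polyFin
  rw [eval_finsetSum]
  simp [eval_monomial]

open Matrix in
attribute [local instance] Matrix.seminormedAddCommGroup in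
/-- Siegel's lemma for the curve `n A'(t) = B'(t)`. -/
theorem siegel_rational (a b T C : ℕ) (hT : 2 ≤ T) (Z : Finset (ℤ × ℤ)) (hZ : Z.card = a + b + 1)
    (hbox : ∀ z ∈ Z, |z.1| ≤ T ∧ |z.2| ≤ (T : ℤ) ^ C) :
    ∃ (t : Fin (a + 1) → ℤ) (s : Fin (b + 1) → ℤ), (t ≠ 0 ∨ s ≠ 0) ∧
      (∀ z ∈ Z, z.2 * (polyFin t).eval z.1 = (polyFin s).eval z.1) ∧
      (∀ i, |t i| ≤ (T : ℤ) ^ ((a + b + 2 + (C + a + b)) * (a + b + 1))) ∧
      (∀ i, |s i| ≤ (T : ℤ) ^ ((a + b + 2 + (C + a + b)) * (a + b + 1))) := by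
  classical
  let A : Matrix Z (Fin (a + 1) ⊕ Fin (b + 1)) ℤ := fun z m =>
    Sum.elim (fun i : Fin (a + 1) => z.1.2 * z.1.1 ^ (i : ℕ))
      (fun j : Fin (b + 1) => - z.1.1 ^ (j : ℕ)) m
  have hcardZ : Fintype.card Z = a + b + 1 := (Fintype.card_coe Z).trans hZ
  have hcardI : Fintype.card (Fin (a + 1) ⊕ Fin (b + 1)) = a + b + 2 := by
    simp
    ring
  obtain ⟨t, ht0, htA, htn⟩ := Int.Matrix.exists_ne_zero_int_vec_norm_le A
    (by rw [hcardZ, hcardI]; omega) (by rw [hcardZ]; omega)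
  have hT1 : (1 : ℝ) ≤ T := by exact_mod_cast (by omega : 1 ≤ T)
  have hT1' : (1 : ℤ) ≤ T := by exact_mod_cast (by omega : 1 ≤ T)
  have hAnorm : ‖A‖ ≤ (T : ℝ) ^ (C + a + b) := by
    rw [Matrix.norm_le_iff (by positivity)]
    intro z m
    rw [Int.norm_eq_abs]
    have hb := hbox z.1 z.2
    have h1 : |A z m| ≤ (T : ℤ) ^ (C + a + b) := by
      rcases m with i | j
      · show |z.1.2 * z.1.1 ^ (i : ℕ)| ≤ _
        rw [abs_mul, abs_pow]
        calc |z.1.2| * |z.1.1| ^ (i : ℕ) ≤ (T : ℤ) ^ C * (T : ℤ) ^ (i : ℕ) := by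
              gcongr
              · exact hb.2
              · exact hb.1
          _ = (T : ℤ) ^ (C + i) := by rw [pow_add]
          _ ≤ (T : ℤ) ^ (C + a + b) := pow_le_pow_right₀ hT1' (by omega)
      · show |- z.1.1 ^ (j : ℕ)| ≤ _
        rw [abs_neg, abs_pow]
        calc |z.1.1| ^ (j : ℕ) ≤ (T : ℤ) ^ (j : ℕ) := by
              gcongr
              exact hb.1
          _ ≤ (T : ℤ) ^ (C + a + b) := pow_le_pow_right₀ hT1' (by omega)
    exact_mod_cast h1
  have hmax : max 1 ‖A‖ ≤ (T : ℝ) ^ (C + a + b) := max_le (one_le_pow₀ hT1) hAnorm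
  have hNX : ((a + b + 2 : ℕ) : ℝ) ≤ (T : ℝ) ^ (a + b + 2) := by
    have h1 : a + b + 2 ≤ 2 ^ (a + b + 2) := (Nat.lt_two_pow_self).le
    have h2 : 2 ^ (a + b + 2) ≤ T ^ (a + b + 2) := Nat.pow_le_pow_left hT _
    exact_mod_cast h1.trans h2
  have hbase : ((a + b + 2 : ℕ) : ℝ) * max 1 ‖A‖ ≤ (T : ℝ) ^ (a + b + 2 + (C + a + b)) := by
    rw [pow_add]
    exact mul_le_mul hNX hmax (le_trans zero_le_one (le_max_left _ _)) (by positivity)
  have hfinal : ‖t‖ ≤ (T : ℝ) ^ ((a + b + 2 + (C + a + b)) * (a + b + 1)) := by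
    rw [hcardZ, hcardI] at htn
    refine htn.trans ?_
    have hexp : ((a + b + 1 : ℕ) : ℝ) / (((a + b + 2 : ℕ) : ℝ) - ((a + b + 1 : ℕ) : ℝ)) =
        ((a + b + 1 : ℕ) : ℝ) := by
      push_cast
      rw [show ((a : ℝ) + b + 2 - (a + b + 1)) = 1 by ring, div_one]
    rw [hexp, Real.rpow_natCast, pow_mul]
    exact pow_le_pow_left₀ (by positivity) hbase _
  have hcoord : ∀ m, |t m| ≤ (T : ℤ) ^ ((a + b + 2 + (C + a + b)) * (a + b + 1)) := by
    intro m
    have h3 := (norm_le_pi_norm t m).trans hfinal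
    rw [Int.norm_eq_abs] at h3
    exact_mod_cast h3
  refine ⟨fun i => t (Sum.inl i), fun j => t (Sum.inr j), ?_, ?_, fun i => hcoord _,
    fun i => hcoord _⟩
  · by_contra hcon
    push Not at hcon
    apply ht0
    funext m
    rcases m with i | j
    · exact congrFun hcon.1 i
    · exact congrFun hcon.2 j
  · intro z hz
    have h1 : (A *ᵥ t) ⟨z, hz⟩ = 0 := by rw [htA]; rfl
    have h2 : (A *ᵥ t) ⟨z, hz⟩ = ∑ i : Fin (a + 1), z.2 * z.1 ^ (i : ℕ) * t (Sum.inl i) +
        ∑ j : Fin (b + 1), (- z.1 ^ (j : ℕ)) * t (Sum.inr j) := by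
      show ∑ m, A ⟨z, hz⟩ m * t m = _
      rw [Fintype.sum_sum_type]
      rfl
    rw [h2] at h1
    rw [polyFin_eval, polyFin_eval, mul_sum]
    have h3 : ∑ j : Fin (b + 1), (- z.1 ^ (j : ℕ)) * t (Sum.inr j) =
        - ∑ j : Fin (b + 1), t (Sum.inr j) * z.1 ^ (j : ℕ) := by
      rw [← sum_neg_distrib]
      exact sum_congr rfl fun j _ => by ring
    have h4 : ∑ i : Fin (a + 1), z.2 * z.1 ^ (i : ℕ) * t (Sum.inl i) =
        ∑ i : Fin (a + 1), z.2 * (t (Sum.inl i) * z.1 ^ (i : ℕ)) :=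
      sum_congr rfl fun j _ => by ring
    rw [h3, h4] at h1
    linarith


theorem polyFin_coeff_abs_le {m : ℕ} (t : Fin m → ℤ) (H : ℤ) (hH : 0 ≤ H) (ht : ∀ i, |t i| ≤ H)
    (j : ℕ) : |(polyFin t).coeff j| ≤ H := by
  rw [polyFin_coeff]
  split_ifs with h
  · exact ht _
  · simpa using hH

theorem polyFin_ne_zero {m : ℕ} (t : Fin m → ℤ) (ht : t ≠ 0) : polyFin t ≠ 0 := by
  intro h
  apply ht
  funext i
  have h1 := polyFin_coeff t i
  rw [h, coeff_zero, dif_pos i.2] at h1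
  exact h1.symm

/-- the curve `A(t) n = B(t)` is defined by integer polynomials of small height. -/
theorem rational_height (T C1 : ℕ) (hT : 2 ≤ T) (A B : ℚ[X]) (hAB : IsCoprime A B)
    (hA : 1 ≤ A.natDegree) (Z : Finset (ℤ × ℤ)) (hinj : Set.InjOn Prod.fst (Z : Set (ℤ × ℤ)))
    (hZ : ∀ z ∈ Z, |z.1| ≤ T ∧ |z.2| ≤ (T : ℤ) ^ C1 ∧
        (z.2 : ℚ) * A.eval (z.1 : ℚ) = B.eval (z.1 : ℚ))
    (hcard : Z.card = A.natDegree + B.natDegree + 1) :
    ∃ (A' B' : ℤ[X]) (c : ℚ), c ≠ 0 ∧ A'.map (Int.castRingHom ℚ) = C c * A ∧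
      B'.map (Int.castRingHom ℚ) = C c * B ∧
      ∀ i, |A'.coeff i| ≤ (T : ℤ) ^ ((A.natDegree + B.natDegree + 2 +
        (C1 + A.natDegree + B.natDegree)) * (A.natDegree + B.natDegree + 1)) ∧
        |B'.coeff i| ≤ (T : ℤ) ^ ((A.natDegree + B.natDegree + 2 +
        (C1 + A.natDegree + B.natDegree)) * (A.natDegree + B.natDegree + 1)) := by
  classical
  obtain ⟨t, s, hts, hz, ht, hs⟩ := siegel_rational A.natDegree B.natDegree T C1 hT Z hcard
    (fun z hz => ⟨(hZ z hz).1, (hZ z hz).2.1⟩)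
  have hinjZ : Function.Injective (Int.castRingHom ℚ) := Int.cast_injective
  have hA0 : A ≠ 0 := by
    rintro rfl
    simp at hA
  have hdA : ((polyFin t).map (Int.castRingHom ℚ)).natDegree ≤ A.natDegree :=
    natDegree_map_le.trans (polyFin_natDegree t)
  have hdB : ((polyFin s).map (Int.castRingHom ℚ)).natDegree ≤ B.natDegree :=
    natDegree_map_le.trans (polyFin_natDegree s)
  have hzero : (polyFin t).map (Int.castRingHom ℚ) * B - A * (polyFin s).map (Int.castRingHom ℚ)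
      = 0 := by
    apply eq_zero_of_natDegree_lt_card_of_eval_eq_zero' _ (Z.image fun z => (z.1 : ℚ))
    · intro i hi
      obtain ⟨z, hzZ, rfl⟩ := mem_image.1 hi
      have h1 := hz z hzZ
      have h2 := (hZ z hzZ).2.2
      rw [eval_sub, eval_mul, eval_mul, eval_intCast_map, eval_intCast_map, Int.cast_id, ← h1,
        ← h2]
      simp only [eq_intCast]
      push_cast
      ring
    · have h1 : (Z.image fun z => (z.1 : ℚ)).card = Z.card := by
        apply card_image_of_injOn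
        intro z hz w hw hzw
        exact hinj hz hw (Int.cast_injective (α := ℚ) hzw)
      rw [h1, hcard]
      refine lt_of_le_of_lt (natDegree_sub_le _ _) ?_
      refine lt_of_le_of_lt (max_le (natDegree_mul_le.trans (Nat.add_le_add_right hdA _))
        (natDegree_mul_le.trans (Nat.add_le_add_left hdB _))) (Nat.lt_succ_self _)
  have heq := sub_eq_zero.1 hzero
  have hdvd : A ∣ (polyFin t).map (Int.castRingHom ℚ) :=
    hAB.dvd_of_dvd_mul_right (Dvd.intro _ heq.symm)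
  obtain ⟨u, hu⟩ := hdvd
  have hBu : (polyFin s).map (Int.castRingHom ℚ) = u * B := by
    rw [hu, mul_assoc] at heq
    exact (mul_left_cancel₀ hA0 heq).symm
  have hu0 : u ≠ 0 := by
    rintro rfl
    rw [mul_zero] at hu
    rw [zero_mul] at hBu
    have h1 : polyFin t = 0 := (Polynomial.map_eq_zero_iff hinjZ).1 hu
    have h2 : polyFin s = 0 := (Polynomial.map_eq_zero_iff hinjZ).1 hBu
    rcases hts with h | h
    · exact polyFin_ne_zero t h h1
    · exact polyFin_ne_zero s h h2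
  have hud : u.natDegree = 0 := by
    have h1 := natDegree_mul hA0 hu0
    rw [← hu] at h1
    omega
  obtain ⟨c, rfl⟩ := natDegree_eq_zero.1 hud
  have hT0 : (0 : ℤ) ≤ T := by positivity
  refine ⟨polyFin t, polyFin s, c, ?_, ?_, hBu, fun i => ⟨?_, ?_⟩⟩
  · rintro rfl
    exact hu0 (by simp)
  · rw [hu, mul_comm]
  · exact polyFin_coeff_abs_le t _ (by positivity) ht i
  · exact polyFin_coeff_abs_le s _ (by positivity) hs i

/-- the number of `t` for which `|A(t)|` is given. -/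
theorem card_fiber_le (A : ℤ[X]) (hA : A.natDegree ≠ 0) (Z : Finset ℤ) (m : ℕ)
    (hZ : ∀ t ∈ Z, (A.eval t).natAbs = m) : Z.card ≤ 2 * A.natDegree := by
  have hdeg : (A ^ 2 - C ((m : ℤ) ^ 2)).natDegree = 2 * A.natDegree := by
    rw [natDegree_sub_C, natDegree_pow]
  have hne : A ^ 2 - C ((m : ℤ) ^ 2) ≠ 0 := by
    intro h
    rw [h, natDegree_zero] at hdeg
    omega
  calc Z.card ≤ (A ^ 2 - C ((m : ℤ) ^ 2)).roots.toFinset.card := by
        refine card_le_card fun t ht => ?_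
        rw [Multiset.mem_toFinset, mem_roots hne, IsRoot.def]
        have h1 := hZ t ht
        have h2 : (A.eval t) ^ 2 = (m : ℤ) ^ 2 := by
          rw [← h1, Int.natCast_natAbs, sq_abs]
        simp [h2]
    _ ≤ Multiset.card (A ^ 2 - C ((m : ℤ) ^ 2)).roots := Multiset.toFinset_card_le _
    _ ≤ (A ^ 2 - C ((m : ℤ) ^ 2)).natDegree := card_roots' _
    _ = 2 * A.natDegree := hdeg

/-- Module M5. Few integer points on `A(t) n = B(t)` with `A` not constant. -/
theorem rational_case (D0 C1 : ℕ) (ε : ℝ) (hε : 0 < ε) :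
    ∃ K : ℝ, 0 < K ∧ ∀ T : ℕ, 2 ≤ T → ∀ A B : ℚ[X], IsCoprime A B → A.natDegree ≤ D0 →
      B.natDegree ≤ D0 → 1 ≤ A.natDegree → ∀ S : Finset (ℤ × ℤ),
      Set.InjOn Prod.fst (S : Set (ℤ × ℤ)) →
      (∀ z ∈ S, |z.1| ≤ T ∧ |z.2| ≤ (T : ℤ) ^ C1 ∧
        (z.2 : ℚ) * A.eval (z.1 : ℚ) = B.eval (z.1 : ℚ)) →
      (S.card : ℝ) ≤ K * (T : ℝ) ^ ε := by
  classical
  set E0 : ℕ := (D0 + D0 + 2 + (C1 + D0 + D0)) * (D0 + D0 + 1) with hE0
  set K1 : ℕ := E0 * (D0 + D0) with hK1
  obtain ⟨Cd, hCd1, hCd⟩ := divisor_bound (ε / (K1 + 1)) (by positivity)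
  set F : ℝ := (((D0 + D0).factorial : ℕ) : ℝ) ^ (ε / (K1 + 1)) with hF
  have hF0 : 0 ≤ F := by positivity
  refine ⟨(2 * D0 + 1) + 2 * D0 * (Cd * F), by positivity, ?_⟩
  intro T hT A B hAB hAD hBD hA1 S hinj hS
  have hT1 : (1 : ℝ) ≤ T := by exact_mod_cast (by omega : 1 ≤ T)
  have hT1' : (1 : ℤ) ≤ T := by exact_mod_cast (by omega : 1 ≤ T)
  have hTe : 1 ≤ (T : ℝ) ^ ε := Real.one_le_rpow hT1 hε.le
  by_cases hcard : S.card ≤ 2 * D0 + 1
  · calc (S.card : ℝ) ≤ (2 * D0 + 1 : ℝ) := by exact_mod_cast hcard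
      _ ≤ (2 * D0 + 1) + 2 * D0 * (Cd * F) := by
          have : 0 ≤ 2 * (D0 : ℝ) * (Cd * F) := by positivity
          linarith
      _ ≤ ((2 * D0 + 1) + 2 * D0 * (Cd * F)) * (T : ℝ) ^ ε :=
          le_mul_of_one_le_right (by positivity) hTe
  obtain ⟨Z, hZS, hZcard⟩ := exists_subset_card_eq
    (by omega : A.natDegree + B.natDegree + 1 ≤ S.card)
  obtain ⟨A', B', c, hc0, hA', hB', hcoef⟩ := rational_height T C1 hT A B hAB hA1 Z
    (hinj.mono (by exact_mod_cast hZS)) (fun z hz => hS z (hZS hz)) hZcard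
  have hinjZ : Function.Injective (Int.castRingHom ℚ) := Int.cast_injective
  have hdegA : A'.natDegree = A.natDegree := by
    rw [← natDegree_map_eq_of_injective hinjZ, hA', natDegree_C_mul hc0]
  have hdegB : B'.natDegree = B.natDegree := by
    rw [← natDegree_map_eq_of_injective hinjZ, hB', natDegree_C_mul hc0]
  have hcop : IsCoprime (A'.map (Int.castRingHom ℚ)) (B'.map (Int.castRingHom ℚ)) := by
    have hu : IsUnit (C c : ℚ[X]) := isUnit_C.2 (isUnit_iff_ne_zero.2 hc0)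
    rw [hA', hB', isCoprime_mul_unit_left hu]
    exact hAB
  have hRne : resultant A' B' A'.natDegree B'.natDegree ≠ 0 := by
    have h := resultant_ne_zero _ _ hcop
    rw [natDegree_map_eq_of_injective hinjZ, natDegree_map_eq_of_injective hinjZ,
      resultant_map_map] at h
    exact fun h0 => h (by rw [h0, map_zero])
  obtain ⟨u, v, -, -, huv⟩ := exists_mul_add_mul_eq_C_resultant A' B' le_rfl le_rfl
    (Or.inl (by omega))
  set R := resultant A' B' A'.natDegree B'.natDegree with hR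
  have hcurve : ∀ z ∈ S, z.2 * A'.eval z.1 = B'.eval z.1 := by
    intro z hz
    have h1 := (hS z hz).2.2
    have h2 : ((A'.eval z.1 : ℤ) : ℚ) = c * A.eval (z.1 : ℚ) := by
      have h := eval_intCast_map (Int.castRingHom ℚ) A' z.1
      rw [hA', eval_mul, eval_C] at h
      exact h.symm
    have h3 : ((B'.eval z.1 : ℤ) : ℚ) = c * B.eval (z.1 : ℚ) := by
      have h := eval_intCast_map (Int.castRingHom ℚ) B' z.1
      rw [hB', eval_mul, eval_C] at h
      exact h.symm
    have h4 : ((z.2 * A'.eval z.1 : ℤ) : ℚ) = ((B'.eval z.1 : ℤ) : ℚ) := by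
      push_cast
      rw [h2, h3, ← h1]
      ring
    exact_mod_cast h4
  have hdvd : ∀ z ∈ S, A'.eval z.1 ∣ R := by
    intro z hz
    have h8 := congrArg (fun g => g.eval z.1) huv
    simp only [eval_add, eval_mul, eval_C] at h8
    rw [← h8, ← hcurve z hz]
    exact dvd_add (Dvd.intro _ rfl) (Dvd.intro_left (z.2 * v.eval z.1) (by ring))
  -- size of `R`
  have hEle : (A.natDegree + B.natDegree + 2 + (C1 + A.natDegree + B.natDegree)) *
      (A.natDegree + B.natDegree + 1) ≤ E0 := Nat.mul_le_mul (by omega) (by omega)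
  have hTE : (T : ℤ) ^ ((A.natDegree + B.natDegree + 2 + (C1 + A.natDegree + B.natDegree)) *
      (A.natDegree + B.natDegree + 1)) ≤ (T : ℤ) ^ E0 := pow_le_pow_right₀ hT1' hEle
  have hRle : |R| ≤ ((D0 + D0).factorial : ℤ) * (T : ℤ) ^ K1 := by
    have h1 := resultant_abs_le A' B' ((T : ℤ) ^ E0) (by positivity)
      (fun i => (hcoef i).1.trans hTE) (fun i => (hcoef i).2.trans hTE) A'.natDegree B'.natDegree
    refine h1.trans ?_
    have h2 : ((A'.natDegree + B'.natDegree).factorial : ℤ) ≤ ((D0 + D0).factorial : ℤ) := by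
      exact_mod_cast Nat.factorial_le (by omega)
    refine mul_le_mul h2 ?_ (by positivity) (by positivity)
    rw [← pow_mul]
    exact pow_le_pow_right₀ hT1' (Nat.mul_le_mul_left _ (by omega))
  have hRn : R.natAbs ≠ 0 := by
    rwa [Ne, Int.natAbs_eq_zero]
  have hRreal : (R.natAbs : ℝ) ≤ ((D0 + D0).factorial : ℝ) * (T : ℝ) ^ K1 := by
    rw [Int.abs_eq_natAbs] at hRle
    exact_mod_cast hRle
  have hdivle : (R.natAbs.divisors.card : ℝ) ≤ Cd * F * (T : ℝ) ^ ε := by
    refine (hCd _ hRn).trans ?_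
    rw [mul_assoc]
    refine mul_le_mul_of_nonneg_left ?_ (by linarith)
    calc (R.natAbs : ℝ) ^ (ε / (K1 + 1))
        ≤ (((D0 + D0).factorial : ℝ) * (T : ℝ) ^ K1) ^ (ε / (K1 + 1)) :=
          Real.rpow_le_rpow (by positivity) hRreal (by positivity)
      _ = F * ((T : ℝ) ^ K1) ^ (ε / (K1 + 1)) := by
          rw [Real.mul_rpow (by positivity) (by positivity)]
      _ ≤ F * (T : ℝ) ^ ε := by
          refine mul_le_mul_of_nonneg_left ?_ hF0
          rw [← Real.rpow_natCast, ← Real.rpow_mul (by positivity)]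
          refine Real.rpow_le_rpow_of_exponent_le hT1 ?_
          rw [mul_div_assoc', div_le_iff₀ (by positivity)]
          nlinarith
  have himg : S.image (fun z => (A'.eval z.1).natAbs) ⊆ R.natAbs.divisors := by
    intro m hm
    obtain ⟨z, hz, rfl⟩ := mem_image.1 hm
    exact Nat.mem_divisors.2 ⟨Int.natAbs_dvd_natAbs.2 (hdvd z hz), hRn⟩
  have hfib : ∀ b ∈ S.image (fun z => (A'.eval z.1).natAbs),
      (S.filter fun z => (A'.eval z.1).natAbs = b).card ≤ 2 * D0 := by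
    intro b _
    have hinj' : Set.InjOn Prod.fst
        ((S.filter fun z => (A'.eval z.1).natAbs = b : Finset (ℤ × ℤ)) : Set (ℤ × ℤ)) :=
      hinj.mono (by
        intro z hz
        simp only [coe_filter, Set.mem_ofPred_eq] at hz
        exact hz.1)
    rw [← card_image_of_injOn hinj']
    refine (card_fiber_le A' (by omega) _ b ?_).trans (by omega)
    intro t ht
    obtain ⟨z, hz, rfl⟩ := mem_image.1 ht
    exact (mem_filter.1 hz).2
  have hfinal : S.card ≤ 2 * D0 * R.natAbs.divisors.card :=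
    (card_le_mul_card_image S (2 * D0) hfib).trans (Nat.mul_le_mul_left _ (card_le_card himg))
  calc (S.card : ℝ) ≤ 2 * D0 * (R.natAbs.divisors.card : ℝ) := by exact_mod_cast hfinal
    _ ≤ 2 * D0 * (Cd * F * (T : ℝ) ^ ε) := mul_le_mul_of_nonneg_left hdivle (by positivity)
    _ = 2 * D0 * (Cd * F) * (T : ℝ) ^ ε := by ring
    _ ≤ ((2 * D0 + 1) + 2 * D0 * (Cd * F)) * (T : ℝ) ^ ε := by
        refine mul_le_mul_of_nonneg_right ?_ (by positivity)
        have : (0 : ℝ) ≤ 2 * D0 + 1 := by positivity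
        linarith

end Vale.Agent.P018
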