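import Vale.Agent.P018.LineInt3
import Vale.Agent.P018.RationalCase
import Vale.Agent.P018.PolynomialCase

/-! # P018, Module M7: solutions on a short interval of a line. -/

namespace Vale.Agent.P018

open Polynomial Finset

attribute [-instance] DivisionRing.toRatAlgebra

/-- removing the common factor. -/
theorem coprime_split (A1 B1 : ℚ[X]) (hA : A1 ≠ 0) :
    ∃ g A2 B2 : ℚ[X], g ≠ 0 ∧ IsCoprime A2 B2 ∧ A1 = g * A2 ∧ B1 = g * B2 := by
  have h1 : EuclideanDomain.gcd A1 B1 ≠ 0 := by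
    intro h
    exact hA (EuclideanDomain.gcd_eq_zero_iff.1 h).1
  obtain ⟨A2, hA2⟩ := EuclideanDomain.gcd_dvd_left A1 B1
  obtain ⟨B2, hB2⟩ := EuclideanDomain.gcd_dvd_right A1 B1
  refine ⟨EuclideanDomain.gcd A1 B1, A2, B2, h1, ?_, hA2, hB2⟩
  have h2 := EuclideanDomain.gcd_eq_gcd_ab A1 B1
  refine ⟨EuclideanDomain.gcdA A1 B1, EuclideanDomain.gcdB A1 B1, ?_⟩
  apply mul_left_cancel₀ h1
  rw [mul_one]
  calc EuclideanDomain.gcd A1 B1 * (EuclideanDomain.gcdA A1 B1 * A2 +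
        EuclideanDomain.gcdB A1 B1 * B2)
      = (EuclideanDomain.gcd A1 B1 * A2) * EuclideanDomain.gcdA A1 B1 +
        (EuclideanDomain.gcd A1 B1 * B2) * EuclideanDomain.gcdB A1 B1 := by ring
    _ = A1 * EuclideanDomain.gcdA A1 B1 + B1 * EuclideanDomain.gcdB A1 B1 := by
        rw [← hA2, ← hB2]
    _ = EuclideanDomain.gcd A1 B1 := h2.symm

/-- the prime is determined by `t`. -/
theorem prime_unique (C0 T d : ℕ) (hT : C0 < T) (hd : 2 ≤ d) (N : ℤ[X]) (t t' : ℤ) (p p' : ℕ)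
    (c c' : ℤ) (hp : p.Prime) (hp' : p'.Prime) (h : T ^ d ≤ C0 * p) (hc' : c' ≠ 0)
    (hcC' : |c'| ≤ C0) (hN : N.eval t = c * p) (hN' : N.eval t' = c' * p') (ht : t = t') :
    p = p' := by
  have hlt : C0 < p := by
    by_contra hcon
    have h5 : C0 * p ≤ C0 * C0 := Nat.mul_le_mul_left _ (not_lt.1 hcon)
    have h6 : T ^ 2 ≤ T ^ d := Nat.pow_le_pow_right (by omega) hd
    nlinarith
  have h4 : (p : ℤ) ∣ c' * p' := by
    rw [← hN', ← ht, hN]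
    exact Dvd.intro_left _ rfl
  have hpz : Prime (p : ℤ) := Nat.prime_iff_prime_int.1 hp
  rcases hpz.dvd_or_dvd h4 with h5 | h5
  · exfalso
    have h6 := Int.le_of_dvd (abs_pos.2 hc') ((dvd_abs _ _).2 h5)
    have h7 : (C0 : ℤ) < p := by exact_mod_cast hlt
    linarith
  · exact (Nat.prime_dvd_prime_iff_eq hp hp').1 (by exact_mod_cast h5)

/-- the points with `t` in a finite set. -/
theorem card_fixed_t (f : ℤ[X]) (hm : f.Monic) (k : ℕ) (hk : 1 ≤ k) (C0 T : ℕ) (hT : C0 < T)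
    (N : ℤ[X]) (g : ℚ[X]) (hg : g ≠ 0) (S : Finset (ℤ × ℤ × ℕ)) (hd : 2 ≤ f.natDegree)
    (hgS : ∀ z ∈ S, g.eval (z.1 : ℚ) = 0)
    (hS : ∀ z ∈ S, |z.2.1| ≤ C0 * (T : ℤ) ^ f.natDegree ∧ z.2.2.Prime ∧
      T ^ f.natDegree ≤ C0 * z.2.2 ∧ (z.2.2 : ℤ) ^ k ∣ f.eval z.2.1 ∧
      ∃ c : ℤ, c ≠ 0 ∧ |c| ≤ C0 ∧ N.eval z.1 = c * z.2.2) :
    S.card ≤ (f.natDegree * (2 * (C0 * C0) + 1)) * g.natDegree := by
  classical
  have hp : ∀ z ∈ S, ∀ w ∈ S, z.1 = w.1 → z.2.2 = w.2.2 := by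
    intro z hz w hw hzw
    obtain ⟨-, h2, h3, -, c, hc, hcC, hcN⟩ := hS z hz
    obtain ⟨-, h2', h3', -, c', hc', hcC', hcN'⟩ := hS w hw
    exact prime_unique C0 T f.natDegree hT hd N z.1 w.1 z.2.2 w.2.2 c c' h2 h2' h3 hc' hcC' hcN
      hcN' hzw
  have hfib : ∀ b ∈ S.image Prod.fst, (S.filter fun z => z.1 = b).card ≤
      f.natDegree * (2 * (C0 * C0) + 1) := by
    intro b hb
    obtain ⟨w, hw, rfl⟩ := mem_image.1 hb
    have hinj : Set.InjOn (fun z : ℤ × ℤ × ℕ => z.2.1)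
        ((S.filter fun z => z.1 = w.1 : Finset (ℤ × ℤ × ℕ)) : Set (ℤ × ℤ × ℕ)) := by
      intro x hx y hy hxy
      simp only [coe_filter, Set.mem_ofPred_eq] at hx hy
      have h1 : x.1 = y.1 := hx.2.trans hy.2.symm
      exact Prod.ext h1 (Prod.ext hxy (hp x hx.1 y hy.1 h1))
    rw [← card_image_of_injOn hinj]
    obtain ⟨-, h2, h3, -⟩ := hS w hw
    refine card_roots_box f hm h2 (C0 * C0) _ ?_
    intro n hn
    obtain ⟨z, hz, rfl⟩ := mem_image.1 hn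
    rw [mem_filter] at hz
    obtain ⟨g1, g2, g3, g4, -⟩ := hS z hz.1
    have e := hp z hz.1 w hw hz.2
    rw [e] at g4
    refine ⟨?_, (dvd_pow_self _ (by omega)).trans g4⟩
    refine g1.trans ?_
    have h5 : (T : ℤ) ^ f.natDegree ≤ C0 * w.2.2 := by exact_mod_cast h3
    calc (C0 : ℤ) * (T : ℤ) ^ f.natDegree ≤ C0 * (C0 * w.2.2) :=
          mul_le_mul_of_nonneg_left h5 (by positivity)
      _ = ((C0 * C0 : ℕ) : ℤ) * w.2.2 := by push_cast; ring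
  have himg : (S.image Prod.fst).card ≤ g.natDegree := by
    calc (S.image Prod.fst).card = ((S.image Prod.fst).image fun t : ℤ => (t : ℚ)).card :=
          (card_image_of_injective _ Int.cast_injective).symm
      _ ≤ g.roots.toFinset.card := by
          refine card_le_card fun x hx => ?_
          obtain ⟨t, ht, rfl⟩ := mem_image.1 hx
          obtain ⟨z, hz, rfl⟩ := mem_image.1 ht
          rw [Multiset.mem_toFinset, mem_roots hg]
          exact hgS z hz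
      _ ≤ Multiset.card g.roots := Multiset.toFinset_card_le _
      _ ≤ g.natDegree := card_roots' _
  exact (card_le_mul_card_image S _ hfib).trans (Nat.mul_le_mul_left _ himg)

/-- the points with `g(t) ≠ 0` give integer points on the reduced curve. -/
theorem reduce_points (k d : ℕ) (f : ℤ[X]) (C0 T : ℕ) (hT : C0 < T) (hd : 2 ≤ d)
    (N : ℤ[X]) (g A2 B2 : ℚ[X]) (hcop : IsCoprime A2 B2) (S1 : Finset (ℤ × ℤ × ℕ))
    (hg : ∀ z ∈ S1, g.eval (z.1 : ℚ) ≠ 0)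
    (hS : ∀ z ∈ S1, |z.1| ≤ T ∧ |z.2.1| ≤ C0 * (T : ℤ) ^ d ∧ z.2.2.Prime ∧
      T ^ d ≤ C0 * z.2.2 ∧ (z.2.2 : ℤ) ^ k ∣ f.eval z.2.1 ∧
      (z.2.1 : ℚ) * (g * A2).eval (z.1 : ℚ) = (g * B2).eval (z.1 : ℚ) ∧
      ∃ c : ℤ, c ≠ 0 ∧ |c| ≤ C0 ∧ N.eval z.1 = c * z.2.2) :
    ∃ S2 : Finset (ℤ × ℤ), S1.card = S2.card ∧ Set.InjOn Prod.fst (S2 : Set (ℤ × ℤ)) ∧
      ∀ z ∈ S2, |z.1| ≤ T ∧ |z.2| ≤ (T : ℤ) ^ (d + 1) ∧
        (z.2 : ℚ) * A2.eval (z.1 : ℚ) = B2.eval (z.1 : ℚ) ∧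
        ∃ (p : ℕ) (c : ℤ), p.Prime ∧ T ≤ p ∧ c ≠ 0 ∧ |c| ≤ C0 ∧ N.eval z.1 = c * p ∧
          (p : ℤ) ^ k ∣ f.eval z.2 := by
  classical
  have hcurve : ∀ z ∈ S1, (z.2.1 : ℚ) * A2.eval (z.1 : ℚ) = B2.eval (z.1 : ℚ) := by
    intro z hz'
    obtain ⟨-, -, -, -, -, h7, -⟩ := hS z hz'
    rw [eval_mul, eval_mul] at h7
    apply mul_left_cancel₀ (hg z hz')
    linarith
  have hA2ne : ∀ z ∈ S1, A2.eval (z.1 : ℚ) ≠ 0 := by
    intro z hz' h7
    have h8 := hcurve z hz'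
    rw [h7, mul_zero] at h8
    obtain ⟨u, v, huv⟩ := hcop
    have h9 := congrArg (fun q => q.eval (z.1 : ℚ)) huv
    simp only [eval_add, eval_mul, eval_one] at h9
    rw [h7, ← h8] at h9
    simp at h9
  refine ⟨S1.image fun z => (z.1, z.2.1), ?_, ?_, ?_⟩
  · refine (card_image_of_injOn ?_).symm
    intro z hz w hw hzw
    simp only [Prod.mk.injEq] at hzw
    obtain ⟨-, -, h2, h3, -, -, c, hc, hcC, hcN⟩ := hS z hz
    obtain ⟨-, -, h2', h3', -, -, c', hc', hcC', hcN'⟩ := hS w hw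
    exact Prod.ext hzw.1 (Prod.ext hzw.2 (prime_unique C0 T d hT hd N z.1 w.1 z.2.2 w.2.2 c c'
      h2 h2' h3 hc' hcC' hcN hcN' hzw.1))
  · intro x hx y hy hxy
    rw [mem_coe, mem_image] at hx hy
    obtain ⟨z, hz', rfl⟩ := hx
    obtain ⟨w, hw', rfl⟩ := hy
    simp only at hxy
    have h8 := hcurve z hz'
    have h9 := hcurve w hw'
    have h10 := hA2ne w hw'
    rw [hxy] at h8
    have h11 : (z.2.1 : ℚ) = (w.2.1 : ℚ) := by
      apply mul_right_cancel₀ h10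
      rw [h8, h9]
    exact Prod.ext hxy (by exact_mod_cast h11)
  · intro x hx
    rw [mem_image] at hx
    obtain ⟨z, hz', rfl⟩ := hx
    obtain ⟨g1, g3, g4, g5, g6, -, c, hc0, hcC, hcN⟩ := hS z hz'
    refine ⟨g1, ?_, hcurve z hz', z.2.2, c, g4, ?_, hc0, hcC, hcN, g6⟩
    · refine g3.trans ?_
      rw [pow_succ, mul_comm]
      exact mul_le_mul_of_nonneg_left (by exact_mod_cast hT.le) (by positivity)
    · by_contra hcon
      have h7 : C0 * z.2.2 ≤ C0 * T := Nat.mul_le_mul_left _ (not_le.1 hcon).le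
      have h8 : T ^ 2 ≤ T ^ d := Nat.pow_le_pow_right (by omega) hd
      have h9 : C0 * T < T * T := Nat.mul_lt_mul_of_pos_right hT (by omega)
      nlinarith

theorem natDegree_count (k d g b2 : ℕ) (hk : 2 ≤ k) (hd : 1 ≤ d) (hg : d - 1 ≤ g)
    (hb : b2 ≤ k * (d - 1) + 1 - g) : b2 ≤ (k - 1) * d := by
  have h8 : k * (d - 1) + 1 - g ≤ k * (d - 1) + 1 - (d - 1) := by omega
  refine hb.trans (h8.trans ?_)
  obtain ⟨k', rfl⟩ : ∃ k', k = k' + 1 := ⟨k - 1, by omega⟩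
  obtain ⟨d', rfl⟩ : ∃ d', d = d' + 1 := ⟨d - 1, by omega⟩
  simp only [Nat.add_sub_cancel]
  have : (k' + 1) * d' + 1 - d' = k' * d' + 1 := by
    rw [add_mul, one_mul]
    omega
  rw [this, mul_add, mul_one]
  omega

/-- counting the points on a curve `n A(t) = B(t)`. -/
theorem li_curve_count (f : ℤ[X]) (hm : f.Monic) (hirr : Irreducible (f.map (Int.castRingHom ℚ)))
    (k : ℕ) (hk : 2 ≤ k) (hd2 : 2 ≤ f.natDegree) (C0 : ℕ) (ε : ℝ) (hε : 0 < ε) :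
    ∃ (K : ℝ) (T0 : ℕ), 0 < K ∧ ∀ T : ℕ, T0 ≤ T → ∀ (N : ℤ[X]) (A1 B1 : ℚ[X]), N.Monic →
      N.natDegree = f.natDegree → Irreducible (N.map (Int.castRingHom ℚ)) →
      (∀ i, |N.coeff i| ≤ (T : ℤ) ^ (f.natDegree + 1)) →
      A1 ≠ 0 → f.natDegree - 1 ≤ A1.natDegree → A1.natDegree ≤ k * (f.natDegree - 1) + 1 →
      B1.natDegree ≤ k * (f.natDegree - 1) + 1 → ∀ S : Finset (ℤ × ℤ × ℕ),
      (∀ z ∈ S, |z.1| ≤ T ∧ |z.2.1| ≤ C0 * (T : ℤ) ^ f.natDegree ∧ z.2.2.Prime ∧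
        T ^ f.natDegree ≤ C0 * z.2.2 ∧ (z.2.2 : ℤ) ^ k ∣ f.eval z.2.1 ∧
        (z.2.1 : ℚ) * A1.eval (z.1 : ℚ) = B1.eval (z.1 : ℚ) ∧
        ∃ c : ℤ, c ≠ 0 ∧ |c| ≤ C0 ∧ N.eval z.1 = c * z.2.2) →
      (S.card : ℝ) ≤ K * (T : ℝ) ^ ε := by
  classical
  obtain ⟨K5, hK5, h5⟩ := rational_case (k * (f.natDegree - 1) + 1) (f.natDegree + 1) ε hε
  obtain ⟨K6, T6, h6⟩ := polynomial_case f hirr hd2 k (by omega) (f.natDegree + 1) C0
  obtain ⟨M, hM⟩ : ∃ M : ℕ, M = (f.natDegree * (2 * (C0 * C0) + 1)) *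
    (k * (f.natDegree - 1) + 1) := ⟨_, rfl⟩
  refine ⟨K5 + K6 + M + 1, max 2 (max T6 (C0 + 1)), by positivity, ?_⟩
  intro T hT N A1 B1 hNm hNd hNi hNc hA0 hAd hAd' hBd S hS
  have hT2 : 2 ≤ T := (le_max_left _ _).trans hT
  have hT6 : T6 ≤ T := ((le_max_left _ _).trans (le_max_right _ _)).trans hT
  have hTC0 : C0 < T := ((le_max_right _ _).trans (le_max_right _ _)).trans hT
  have hT1r : (1 : ℝ) ≤ T := by exact_mod_cast (by omega : 1 ≤ T)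
  have hTe : 1 ≤ (T : ℝ) ^ ε := Real.one_le_rpow hT1r hε.le
  obtain ⟨g, A2, B2, hg0, hcop, hA2, hB2⟩ := coprime_split A1 B1 hA0
  have hA20 : A2 ≠ 0 := by
    rintro rfl
    exact hA0 (by rw [hA2, mul_zero])
  have hdA : A1.natDegree = g.natDegree + A2.natDegree := by
    rw [hA2, natDegree_mul hg0 hA20]
  have hB2d : B2.natDegree ≤ k * (f.natDegree - 1) + 1 - g.natDegree := by
    by_cases hB20 : B2 = 0
    · rw [hB20, natDegree_zero]
      exact Nat.zero_le _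
    · have h7 : B1.natDegree = g.natDegree + B2.natDegree := by
        rw [hB2, natDegree_mul hg0 hB20]
      omega
  -- the part with `g(t) = 0`
  have h0 : (S.filter fun z => g.eval (z.1 : ℚ) = 0).card ≤ M := by
    refine (card_fixed_t f hm k (by omega) C0 T hTC0 N g hg0 _ hd2 ?_ ?_).trans ?_
    · intro z hz'
      exact (mem_filter.1 hz').2
    · intro z hz'
      obtain ⟨-, g3, g4, g5, g6, -, g7⟩ := hS z (mem_filter.1 hz').1
      exact ⟨g3, g4, g5, g6, g7⟩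
    · rw [hM]
      exact Nat.mul_le_mul_left _ (by omega)
  -- the part with `g(t) ≠ 0`
  obtain ⟨S2, hS12, hinj2, hbox⟩ := reduce_points k f.natDegree f C0 T hTC0 hd2 N g A2 B2 hcop
    (S.filter fun z => ¬ g.eval (z.1 : ℚ) = 0) (fun z hz' => (mem_filter.1 hz').2)
    (fun z hz' => by rw [← hA2, ← hB2]; exact hS z (mem_filter.1 hz').1)
  have h1 : ((S.filter fun z => ¬ g.eval (z.1 : ℚ) = 0).card : ℝ) ≤
      (K5 + K6) * (T : ℝ) ^ ε := by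
    rw [hS12]
    by_cases hA2d : 1 ≤ A2.natDegree
    · have h7 := h5 T hT2 A2 B2 hcop (by omega) (by omega) hA2d S2 hinj2
        (fun z hz' => ⟨(hbox z hz').1, (hbox z hz').2.1, (hbox z hz').2.2.1⟩)
      refine h7.trans ?_
      refine mul_le_mul_of_nonneg_right ?_ (by positivity)
      have : (0 : ℝ) ≤ (K6 : ℝ) := by positivity
      linarith
    · have hA2d0 : A2.natDegree = 0 := by omega
      obtain ⟨a2, ha2⟩ := natDegree_eq_zero.1 hA2d0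
      have ha20 : a2 ≠ 0 := by
        rintro rfl
        exact hA20 (by rw [← ha2, C_0])
      have hqd : (C a2⁻¹ * B2).natDegree ≤ (k - 1) * f.natDegree :=
        (natDegree_C_mul_le _ _).trans (natDegree_count k f.natDegree g.natDegree _ (by omega)
          (by omega) (by omega) hB2d)
      have h7 := h6 T hT6 N hNm hNd hNi hNc (C a2⁻¹ * B2) hqd S2 hinj2 (by
        intro z hz'
        obtain ⟨g1, g2, g3, g4⟩ := hbox z hz'
        refine ⟨g1, g2, ?_, g4⟩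
        rw [eval_mul, eval_C, ← g3, ← ha2, eval_C]
        field_simp)
      have h8 : (S2.card : ℝ) ≤ K6 := by exact_mod_cast h7
      calc (S2.card : ℝ) ≤ K6 := h8
        _ ≤ (K5 + K6) * 1 := by linarith
        _ ≤ (K5 + K6) * (T : ℝ) ^ ε :=
            mul_le_mul_of_nonneg_left hTe (by positivity)
  have hsplit : (S.card : ℝ) = ((S.filter fun z => g.eval (z.1 : ℚ) = 0).card : ℝ) +
      (S.filter fun z => ¬ g.eval (z.1 : ℚ) = 0).card := by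
    exact_mod_cast (card_filter_add_card_filter_not (s := S)
      (fun z => g.eval (z.1 : ℚ) = 0)).symm
  rw [hsplit]
  have h0' : ((S.filter fun z => g.eval (z.1 : ℚ) = 0).card : ℝ) ≤ M := by exact_mod_cast h0
  calc ((S.filter fun z => g.eval (z.1 : ℚ) = 0).card : ℝ) +
        (S.filter fun z => ¬ g.eval (z.1 : ℚ) = 0).card
      ≤ M + (K5 + K6) * (T : ℝ) ^ ε := add_le_add h0' h1
    _ ≤ M * (T : ℝ) ^ ε + (K5 + K6) * (T : ℝ) ^ ε := by
        have : (M : ℝ) * 1 ≤ M * (T : ℝ) ^ ε := mul_le_mul_of_nonneg_left hTe (by positivity)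
        linarith
    _ ≤ (K5 + K6 + M + 1) * (T : ℝ) ^ ε := by nlinarith

/-- M7. Solutions on a short interval of a line. -/
theorem line_interval (f : ℤ[X]) (hm : f.Monic) (hirr : Irreducible (f.map (Int.castRingHom ℚ)))
    (k h : ℕ) (hkh : k + h = f.natDegree) (hk : h + 1 ≤ k) (hh : 1 ≤ h) (hk3 : 3 ≤ k)
    (C0 : ℕ) (δ ε : ℝ) (hδ : 0 < δ) (hε : 0 < ε) :
    ∃ (K : ℝ) (T0 : ℕ), 0 < K ∧ ∀ T : ℕ, T0 ≤ T → ∀ b : ℤ[X], b.natDegree < f.natDegree →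
      (∀ i, |b.coeff i| ≤ T) → ∀ t0 : ℤ, |t0| ≤ T → ∀ S : Finset (ℤ × ℤ × ℕ),
      (∀ z ∈ S, |z.1| ≤ T ∧
        |((z.1 - t0 : ℤ) : ℝ)| ≤ (T : ℝ) ^ (1 - (2 * h + 1 + δ) / (2 * (f.natDegree : ℝ) - 1)) ∧
        |z.2.1| ≤ C0 * (T : ℤ) ^ f.natDegree ∧ z.2.2.Prime ∧ T ^ f.natDegree ≤ C0 * z.2.2 ∧
        (z.2.2 : ℤ) ^ k ∣ f.eval z.2.1 ∧
        ∃ (a : ℤ[X]) (c : ℤ), a.natDegree < f.natDegree ∧ c ≠ 0 ∧ |c| ≤ C0 ∧
          Algebra.norm ℚ (evT f (b + C z.1)) = (c : ℚ) * z.2.2 ∧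
          (c : EE f) ^ k * ((z.2.1 : EE f) - th f) = evT f (b + C z.1) ^ k * evT f a ∧
          (minpoly ℚ (evT f (b + C z.1))).natDegree = f.natDegree) →
      (S.card : ℝ) ≤ K * (T : ℝ) ^ ε := by
  obtain ⟨Tc, hc⟩ := exists_curve f hm hirr k h hkh hk hh hk3 C0 δ hδ
  obtain ⟨K, TK, hK, hKT⟩ := li_curve_count f hm hirr k (by omega) (by omega) C0 ε hε
  refine ⟨K, max Tc TK, hK, ?_⟩
  intro T hT b hb hbT t0 ht0 S hS
  rcases S.eq_empty_or_nonempty with rfl | hne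
  · simp only [card_empty, Nat.cast_zero]
    positivity
  obtain ⟨N, A1, B1, hNm, hNd, hNi, hNc, hA0, hAd, hAd', hBd, hz⟩ :=
    hc T ((le_max_left _ _).trans hT) b hb hbT t0 ht0 S hne hS
  refine hKT T ((le_max_right _ _).trans hT) N A1 B1 hNm hNd hNi hNc hA0 hAd hAd' hBd S ?_
  intro z hzS
  obtain ⟨g1, -, g3, g4, g5, g6, -⟩ := hS z hzS
  exact ⟨g1, g3, g4, g5, g6, (hz z hzS).1, (hz z hzS).2⟩

end Vale.Agent.P018
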