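import Vale.Agent.P018.PairsAux
import Vale.Agent.P018.PairsDef
import Vale.Agent.P018.LineFactor
import Vale.Agent.P018.LineInterval

/-! # P018, module M8: the bound for the number of pairs with `X ≤ P ≤ X^(1+θ)`. -/

namespace Vale.Agent.P018

open Polynomial

/-- reduction to a monic polynomial. -/
theorem exists_monic_model (f : ℤ[X]) (hirr : Irreducible (f.map (Int.castRingHom ℚ))) :
    ∃ g : ℤ[X], g.Monic ∧ Irreducible (g.map (Int.castRingHom ℚ)) ∧ g.natDegree = f.natDegree ∧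
      ∀ n : ℤ, f.eval n ∣ g.eval (f.leadingCoeff * n) := by
  have hf0 : f ≠ 0 := by
    intro h
    rw [h, Polynomial.map_zero] at hirr
    exact not_irreducible_zero hirr
  have hd1 : 1 ≤ f.natDegree := by
    have h1 := hirr.natDegree_pos
    rw [natDegree_map_eq_of_injective (RingHom.injective_int _)] at h1
    exact h1
  have hlc : (f.leadingCoeff : ℚ) ≠ 0 := by
    exact_mod_cast leadingCoeff_ne_zero.mpr hf0
  refine ⟨f.integralNormalization, monic_integralNormalization hf0, ?_,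
    natDegree_integralNormalization, ?_⟩
  · -- the identity `g(a X) = a^(d-1) f(X)`.
    have h1 := integralNormalization_eval₂_leadingCoeff_mul hd1 (C : ℤ →+* ℤ[X]) X
    rw [eval₂_C_X, ← C_pow] at h1
    change (f.integralNormalization).comp (C f.leadingCoeff * X) = _ at h1
    have h2 := congrArg (Polynomial.map (Int.castRingHom ℚ)) h1
    rw [Polynomial.map_comp, Polynomial.map_mul, Polynomial.map_mul, map_C, map_C, map_X] at h2
    let _ : Invertible ((Int.castRingHom ℚ) f.leadingCoeff) := invertibleOfNonzero (by simpa using hlc)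
    have h3 : algEquivCMulXAddC ((Int.castRingHom ℚ) f.leadingCoeff) 0
        (f.integralNormalization.map (Int.castRingHom ℚ)) =
        C ((Int.castRingHom ℚ) (f.leadingCoeff ^ (f.natDegree - 1))) *
          f.map (Int.castRingHom ℚ) := by
      rw [← h2, algEquivCMulXAddC_apply, C_0, add_zero, aeval_def]
      rfl
    rw [← MulEquiv.irreducible_iff (algEquivCMulXAddC ((Int.castRingHom ℚ) f.leadingCoeff) 0), h3,
      irreducible_isUnit_mul]
    · exact hirr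
    · rw [isUnit_C, isUnit_iff_ne_zero]
      simpa using pow_ne_zero _ hlc
  · intro n
    have h1 := integralNormalization_eval₂_leadingCoeff_mul hd1 (RingHom.id ℤ) n
    simp only [RingHom.id_apply, eval₂_id] at h1
    rw [h1]
    exact Dvd.intro_left _ rfl

theorem exists_root_floor (d N : ℕ) (hd : 1 ≤ d) (hN : 1 ≤ N) :
    ∃ T : ℕ, 1 ≤ T ∧ T ^ d ≤ N ∧ N < (T + 1) ^ d := by
  classical
  have hex : ∃ m : ℕ, N < m ^ d := ⟨N + 1, by
    calc N < N + 1 := Nat.lt_succ_self N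
      _ = (N + 1) ^ 1 := (pow_one _).symm
      _ ≤ (N + 1) ^ d := Nat.pow_le_pow_right (Nat.succ_pos N) hd⟩
  have h1 := Nat.find_spec hex
  have h2 : Nat.find hex ≠ 0 := by
    intro h
    rw [h, zero_pow (by omega)] at h1
    omega
  have h3 : Nat.find hex ≠ 1 := by
    intro h
    rw [h, one_pow] at h1
    omega
  refine ⟨Nat.find hex - 1, by omega, ?_, ?_⟩
  · exact not_lt.mp (Nat.find_min hex (m := Nat.find hex - 1) (by omega))
  · have : Nat.find hex - 1 + 1 = Nat.find hex := by omega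
    rw [this]
    exact h1

/-- The exponents. -/
theorem lines_params (d h θ0 : ℝ) (hd : 3 ≤ d) (hh : 1 ≤ h) (hhd : 2 * h + 4 ≤ 2 * d)
    (hθ0 : 0 ≤ θ0) (hθ : (1 + θ0) * (d - 1 + (2 * h + 1) / (2 * d - 1)) < d) :
    ∃ ε η : ℝ, 0 < ε ∧ 0 < η ∧ 0 < (2 * h + 1 + ε) / (2 * d - 1) ∧
      (2 * h + 1 + ε) / (2 * d - 1) < 1 ∧
      (1 + θ0) * ((d - 1 + (2 * h + 1 + ε) / (2 * d - 1) + ε) / d) ≤ 1 - η := by
  have hden : 0 < 2 * d - 1 := by linarith
  obtain ⟨gap, hgap⟩ : ∃ gap : ℝ, gap = d - (1 + θ0) * (d - 1 + (2 * h + 1) / (2 * d - 1)) :=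
    ⟨_, rfl⟩
  have hgap0 : 0 < gap := by
    rw [hgap]
    linarith
  have h1θ : 0 < 1 + θ0 := by linarith
  refine ⟨min 1 (gap / (4 * (1 + θ0))), gap / (2 * d), by positivity, by positivity, by positivity,
    ?_, ?_⟩
  · rw [div_lt_one hden]
    have : min 1 (gap / (4 * (1 + θ0))) ≤ 1 := min_le_left _ _
    linarith
  · obtain ⟨ε, hε⟩ : ∃ ε : ℝ, ε = min 1 (gap / (4 * (1 + θ0))) := ⟨_, rfl⟩
    have hε0 : 0 < ε := by
      rw [hε]
      positivity
    rw [← hε]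
    have hε1 : (1 + θ0) * ε ≤ gap / 4 := by
      have h1 : ε ≤ gap / (4 * (1 + θ0)) := by
        rw [hε]
        exact min_le_right _ _
      calc (1 + θ0) * ε ≤ (1 + θ0) * (gap / (4 * (1 + θ0))) := by gcongr
        _ = gap / 4 := by field_simp
    have h2 : (2 * h + 1 + ε) / (2 * d - 1) ≤ (2 * h + 1) / (2 * d - 1) + ε := by
      rw [add_div]
      have : ε / (2 * d - 1) ≤ ε := div_le_self hε0.le (by linarith)
      linarith
    have h3 : (1 + θ0) * (d - 1 + (2 * h + 1 + ε) / (2 * d - 1) + ε) ≤ d - gap / 2 := by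
      calc (1 + θ0) * (d - 1 + (2 * h + 1 + ε) / (2 * d - 1) + ε)
          ≤ (1 + θ0) * (d - 1 + ((2 * h + 1) / (2 * d - 1) + ε) + ε) := by gcongr
        _ = (1 + θ0) * (d - 1 + (2 * h + 1) / (2 * d - 1)) + 2 * ((1 + θ0) * ε) := by ring
        _ ≤ (d - gap) + 2 * (gap / 4) := by
            have : (1 + θ0) * (d - 1 + (2 * h + 1) / (2 * d - 1)) = d - gap := by
              rw [hgap]
              ring
            rw [this]
            gcongr
        _ = d - gap / 2 := by ring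
    rw [← mul_div_assoc, div_le_iff₀ (by linarith)]
    have h4 : (1 - gap / (2 * d)) * d = d - gap / 2 := by
      field_simp
    rw [h4]
    exact h3

theorem lines_count (d T w : ℕ) (y ε K : ℝ) (hd : 1 ≤ d) (hT : 1 ≤ T) (hw : 1 ≤ w)
    (hw2 : (T : ℝ) ^ (1 - y) ≤ 2 * w) (hy : 0 < y) (hK : 0 ≤ K) (c : ℝ)
    (hc : c ≤ ((2 * T + 1) ^ (d - 1) * (2 * (T / w) + 1) : ℕ) * (K * (T : ℝ) ^ ε)) :
    c ≤ 3 ^ (d - 1) * 5 * K * (T : ℝ) ^ ((d : ℝ) - 1 + y + ε) := by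
  have hTR : (1 : ℝ) ≤ T := by exact_mod_cast hT
  have hTR0 : (0 : ℝ) < T := by linarith
  have hwR : (0 : ℝ) < w := by exact_mod_cast hw
  have h1 : ((T / w : ℕ) : ℝ) ≤ 2 * (T : ℝ) ^ y := by
    refine Nat.cast_div_le.trans ?_
    rw [div_le_iff₀ hwR]
    have h2 : (T : ℝ) = (T : ℝ) ^ y * (T : ℝ) ^ (1 - y) := by
      rw [← Real.rpow_add hTR0, add_sub_cancel, Real.rpow_one]
    calc (T : ℝ) = (T : ℝ) ^ y * (T : ℝ) ^ (1 - y) := h2
      _ ≤ (T : ℝ) ^ y * (2 * w) := by gcongr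
      _ = 2 * (T : ℝ) ^ y * w := by ring
  have h2 : (1 : ℝ) ≤ (T : ℝ) ^ y := Real.one_le_rpow hTR hy.le
  have h3 : (((2 * T + 1) ^ (d - 1) * (2 * (T / w) + 1) : ℕ) : ℝ) ≤
      (3 * (T : ℝ)) ^ (d - 1) * (5 * (T : ℝ) ^ y) := by
    rw [Nat.cast_mul, Nat.cast_pow]
    have h4 : ((2 * T + 1 : ℕ) : ℝ) ≤ 3 * T := by
      push_cast
      linarith
    have h5 : ((2 * (T / w) + 1 : ℕ) : ℝ) ≤ 5 * (T : ℝ) ^ y := by
      rw [Nat.cast_add, Nat.cast_mul]
      push_cast at h1 ⊢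
      linarith
    gcongr
  refine hc.trans ?_
  calc (((2 * T + 1) ^ (d - 1) * (2 * (T / w) + 1) : ℕ) : ℝ) * (K * (T : ℝ) ^ ε)
      ≤ ((3 * (T : ℝ)) ^ (d - 1) * (5 * (T : ℝ) ^ y)) * (K * (T : ℝ) ^ ε) := by gcongr
    _ = 3 ^ (d - 1) * 5 * K * ((T : ℝ) ^ (d - 1) * (T : ℝ) ^ y * (T : ℝ) ^ ε) := by
        rw [mul_pow]
        ring
    _ = _ := by
        rw [← Real.rpow_natCast (T : ℝ) (d - 1), ← Real.rpow_add hTR0, ← Real.rpow_add hTR0,
          Nat.cast_sub hd, Nat.cast_one]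

/-- truncated division: the representative point of an interval. -/
theorem tdiv_facts (t : ℤ) (T w : ℕ) (ht : |t| ≤ T) (hw : 1 ≤ w) :
    |(w : ℤ) * t.tdiv w| ≤ T ∧ |t - w * t.tdiv w| ≤ (w : ℤ) ∧ |t.tdiv w| ≤ ((T / w : ℕ) : ℤ) := by
  have hw0 : (0 : ℤ) < w := by exact_mod_cast hw
  have h1 : (t.tdiv w).natAbs = t.natAbs / w := by
    rw [Int.natAbs_tdiv]
    rfl
  have ht' : t.natAbs ≤ T := by
    rw [Int.abs_eq_natAbs] at ht
    exact_mod_cast ht
  refine ⟨?_, ?_, ?_⟩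
  · have h2 : (w * (t.natAbs / w) : ℕ) ≤ T := (Nat.mul_div_le _ _).trans ht'
    rw [abs_mul, ← Int.natCast_natAbs (t.tdiv w), h1, Nat.abs_cast]
    exact_mod_cast h2
  · have h2 : t - w * t.tdiv w = t.tmod w := by
      have := Int.tmod_add_mul_tdiv t w
      linarith
    rw [h2]
    have h3 : |t.tmod w| < |(w : ℤ)| := by
      rw [Int.abs_eq_natAbs, Int.abs_eq_natAbs, Int.natAbs_tmod]
      have : t.natAbs % (w : ℤ).natAbs < (w : ℤ).natAbs := Nat.mod_lt _ (by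
        rw [Int.natAbs_natCast]
        omega)
      exact_mod_cast this
    rw [Nat.abs_cast] at h3
    exact h3.le
  · rw [← Int.natCast_natAbs (t.tdiv w), h1]
    exact_mod_cast Nat.div_le_div_right ht'

/-- M8. The bound for the number of pairs in the range `X ≤ P ≤ X^(1+θ)`. -/
theorem lines_bound (f : ℤ[X]) (hirr : Irreducible (f.map (Int.castRingHom ℚ)))
    (k h : ℕ) (hkh : k + h = f.natDegree) (hk : h + 1 ≤ k) (hh : 1 ≤ h) (hk3 : 3 ≤ k)
    (θ0 : ℝ) (hθ0 : 0 ≤ θ0)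
    (hθ : (1 + θ0) * ((f.natDegree : ℝ) - 1 + (2 * h + 1) / (2 * (f.natDegree : ℝ) - 1)) <
      f.natDegree) :
    ∃ η K : ℝ, 0 < η ∧ 0 < K ∧ ∃ X0 : ℕ, ∀ X P : ℕ, X0 ≤ X → X ≤ P →
      (P : ℝ) ≤ (X : ℝ) ^ (1 + θ0) →
      ((pairs f k X P).card : ℝ) ≤ K * (X : ℝ) ^ (1 - η) := by
  classical
  obtain ⟨g, hgm, hgirr, hgd, hdvd⟩ := exists_monic_model f hirr
  obtain ⟨d, hd⟩ : ∃ d : ℕ, d = f.natDegree := ⟨_, rfl⟩
  rw [← hd] at hgd hkh hθ
  obtain ⟨L, hL⟩ : ∃ L : ℤ, L = f.leadingCoeff := ⟨_, rfl⟩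
  have hf0 : f ≠ 0 := by
    intro h
    rw [h, Polynomial.map_zero] at hirr
    exact not_irreducible_zero hirr
  have hL0 : L ≠ 0 := by
    rw [hL]
    exact leadingCoeff_ne_zero.mpr hf0
  rw [← hL] at hdvd
  have hd4 : 4 ≤ d := by omega
  have hdR : (4 : ℝ) ≤ d := by exact_mod_cast hd4
  have hhR : (1 : ℝ) ≤ h := by exact_mod_cast hh
  have hhd : 2 * (h : ℝ) + 4 ≤ 2 * d := by
    have : h + 2 ≤ d := by omega
    have : (h : ℝ) + 2 ≤ d := by exact_mod_cast this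
    linarith
  obtain ⟨ε, η, hε, hη, hy0, hy1, hmain⟩ := lines_params (d : ℝ) h θ0 (by linarith) hhR hhd hθ0 hθ
  obtain ⟨y, hy⟩ : ∃ y : ℝ, y = (2 * h + 1 + ε) / (2 * (d : ℝ) - 1) := ⟨_, rfl⟩
  rw [← hy] at hy0 hy1 hmain
  obtain ⟨CC, P0, hM1⟩ := line_factor g hgm hgirr (by omega) k (by omega)
  obtain ⟨C0, hC0⟩ : ∃ C0 : ℕ, C0 = CC + L.natAbs * 2 ^ d + 2 := ⟨_, rfl⟩
  obtain ⟨K, T0, hK, hM7⟩ := line_interval g hgm hgirr k h (by omega) hk hh hk3 C0 ε ε hε hε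
  rw [hgd] at hM1 hM7
  rw [← hy] at hM7
  refine ⟨η, 3 ^ (d - 1) * 5 * K * 2 ^ ((d - 1 + y + ε) / d : ℝ), hη, by positivity,
    max P0 (T0 ^ d) + 1, fun X P hX hXP hPX => ?_⟩
  have hX1 : 1 ≤ X := by omega
  have hP1 : 1 ≤ P := by omega
  have hP0 : P0 ≤ P := by
    have := le_max_left P0 (T0 ^ d)
    omega
  obtain ⟨T, hT1, hTd, hTd'⟩ := exists_root_floor d (2 * P) (by omega) (by omega)
  have hT0 : T0 ≤ T := by
    by_contra hcon
    have h1 : (T + 1) ^ d ≤ T0 ^ d := Nat.pow_le_pow_left (by omega) d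
    have := le_max_right P0 (T0 ^ d)
    omega
  have hTR : (1 : ℝ) ≤ T := by exact_mod_cast hT1
  have hTR0 : (0 : ℝ) < T := by linarith
  -- the width of the intervals
  obtain ⟨w, hw⟩ : ∃ w : ℕ, w = ⌊(T : ℝ) ^ (1 - y)⌋₊ := ⟨_, rfl⟩
  have hTy1 : (1 : ℝ) ≤ (T : ℝ) ^ (1 - y) := Real.one_le_rpow hTR (by linarith)
  have hw1 : 1 ≤ w := by
    rw [hw]
    exact Nat.le_floor (by exact_mod_cast hTy1)
  have hwle : (w : ℝ) ≤ (T : ℝ) ^ (1 - y) := by
    rw [hw]
    exact Nat.floor_le (by positivity)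
  have hw2 : (T : ℝ) ^ (1 - y) ≤ 2 * w := by
    have h1 : (T : ℝ) ^ (1 - y) < w + 1 := by
      rw [hw]
      exact Nat.lt_floor_add_one _
    have h2 : (1 : ℝ) ≤ w := by exact_mod_cast hw1
    linarith
  -- the choice of the factor
  have hex : ∀ z : ℕ × ℕ, z ∈ pairs f k X P → ∃ b : ℤ[X], b.natDegree < d ∧
      (∀ i, |b.coeff i| ≤ T) ∧ ∃ (a : ℤ[X]) (c : ℤ), a.natDegree < d ∧ c ≠ 0 ∧ |c| ≤ CC ∧
        Algebra.norm ℚ (evT g b) = (c : ℚ) * z.2 ∧
        (c : EE g) ^ k * (((L * z.1 : ℤ) : EE g) - th g) = evT g b ^ k * evT g a ∧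
        (minpoly ℚ (evT g b)).natDegree = d := by
    intro z hz
    simp only [pairs, Finset.mem_filter, Finset.mem_product, Finset.mem_Icc, Finset.mem_Ioc] at hz
    obtain ⟨⟨⟨hz1, hz2⟩, hz3, hz4⟩, hz5, hz6⟩ := hz
    obtain ⟨b, a, c, h1, h2, h3, h4, h5, h6, h7, h8⟩ := hM1 z.2 T hz5 (by omega) (by omega)
      (by omega) (L * z.1) (hz6.trans (hdvd z.1))
    exact ⟨b, h1, h2, a, c, h3, h4, h5, h6, h7, h8⟩
  choose! b hb1 hb2 hb3 using hex
  -- the fibration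
  obtain ⟨G, hG⟩ : ∃ G : ℕ × ℕ → (Fin (d - 1) → ℤ) × ℤ, G = fun z =>
    (fun i : Fin (d - 1) => (b z).coeff ((i : ℕ) + 1), ((b z).coeff 0).tdiv w) := ⟨_, rfl⟩
  obtain ⟨I, hI⟩ : ∃ I : Finset ((Fin (d - 1) → ℤ) × ℤ), I =
    (Fintype.piFinset fun _ : Fin (d - 1) => Finset.Icc (-(T : ℤ)) T) ×ˢ
      Finset.Icc (-((T / w : ℕ) : ℤ)) ((T / w : ℕ) : ℤ) := ⟨_, rfl⟩
  have hIcard : I.card = (2 * T + 1) ^ (d - 1) * (2 * (T / w) + 1) := by
    rw [hI, Finset.card_product, Fintype.card_piFinset]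
    simp only [Int.card_Icc, Finset.prod_const, Finset.card_univ, Fintype.card_fin]
    congr 1
    · congr 1
      omega
    · omega
  have hGI : ∀ z ∈ pairs f k X P, G z ∈ I := by
    intro z hz
    rw [hG, hI, Finset.mem_product, Fintype.mem_piFinset]
    refine ⟨fun i => ?_, ?_⟩
    · rw [Finset.mem_Icc]
      exact abs_le.mp (hb2 z hz _)
    · rw [Finset.mem_Icc]
      exact abs_le.mp (tdiv_facts _ T w (hb2 z hz 0) hw1).2.2
  have hfib : ∀ u ∈ I, (((pairs f k X P).filter fun z => G z = u).card : ℝ) ≤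
      K * (T : ℝ) ^ ε := by
    intro u _
    rcases Finset.eq_empty_or_nonempty ((pairs f k X P).filter fun z => G z = u) with he | hne
    · rw [he]
      simp
      positivity
    obtain ⟨z0, hz0⟩ := hne
    rw [Finset.mem_filter] at hz0
    obtain ⟨hz0, hz0u⟩ := hz0
    obtain ⟨b', hb'⟩ : ∃ b' : ℤ[X], b' = b z0 - C ((b z0).coeff 0) := ⟨_, rfl⟩
    have hb'0 : b'.coeff 0 = 0 := by
      rw [hb']
      simp
    have hb's : ∀ i, b'.coeff (i + 1) = (b z0).coeff (i + 1) := by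
      intro i
      rw [hb', coeff_sub, coeff_C_succ, sub_zero]
    have hb'd : b'.natDegree < d := by
      rw [hb']
      refine lt_of_le_of_lt (natDegree_sub_le _ _) ?_
      rw [natDegree_C]
      exact max_lt (hb1 z0 hz0) (by omega)
    have hb'T : ∀ i, |b'.coeff i| ≤ T := by
      intro i
      rcases i with _ | i
      · rw [hb'0, abs_zero]
        positivity
      · rw [hb's]
        exact hb2 z0 hz0 _
    have hline : ∀ z ∈ (pairs f k X P).filter fun z => G z = u,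
        b z = b' + C ((b z).coeff 0) ∧ ((b z).coeff 0).tdiv w = u.2 := by
      intro z hz
      rw [Finset.mem_filter] at hz
      obtain ⟨hz, hzu⟩ := hz
      have h1 : G z = G z0 := hzu.trans hz0u.symm
      rw [hG] at h1 hzu
      have h2 : ((b z).coeff 0).tdiv w = u.2 := congrArg Prod.snd hzu
      refine ⟨?_, h2⟩
      ext i
      rcases i with _ | i
      · rw [coeff_add, hb'0, coeff_C_zero, zero_add]
      · rw [coeff_add, coeff_C_succ, add_zero, hb's]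
        by_cases hi : i < d - 1
        · have h3 := congrFun (congrArg Prod.fst h1) ⟨i, hi⟩
          exact h3
        · rw [coeff_eq_zero_of_natDegree_lt (lt_of_lt_of_le (hb1 z hz) (by omega)),
            coeff_eq_zero_of_natDegree_lt (lt_of_lt_of_le (hb1 z0 hz0) (by omega))]
    have hz0' : z0 ∈ (pairs f k X P).filter fun z => G z = u := by
      rw [Finset.mem_filter]
      exact ⟨hz0, hz0u⟩
    have hinj : Set.InjOn (fun z : ℕ × ℕ => (((b z).coeff 0, L * (z.1 : ℤ), z.2) : ℤ × ℤ × ℕ))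
        (((pairs f k X P).filter fun z => G z = u : Finset (ℕ × ℕ)) : Set (ℕ × ℕ)) := by
      intro z _ z' _ hzz
      simp only [Prod.mk.injEq] at hzz
      obtain ⟨_, h2, h3⟩ := hzz
      have h4 : (z.1 : ℤ) = z'.1 := mul_left_cancel₀ hL0 h2
      exact Prod.ext (by exact_mod_cast h4) h3
    rw [← Finset.card_image_of_injOn hinj]
    refine hM7 T hT0 b' hb'd hb'T (w * u.2) ?_ _ ?_
    · rw [← (hline z0 hz0').2]
      exact (tdiv_facts _ T w (hb2 z0 hz0 0) hw1).1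
    · intro s hs
      rw [Finset.mem_image] at hs
      obtain ⟨z, hzf, rfl⟩ := hs
      obtain ⟨hzl, hzq⟩ := hline z hzf
      rw [Finset.mem_filter] at hzf
      obtain ⟨hz, _⟩ := hzf
      have hzp := hz
      simp only [pairs, Finset.mem_filter, Finset.mem_product, Finset.mem_Icc,
        Finset.mem_Ioc] at hzp
      obtain ⟨⟨⟨hz1, hz2⟩, hz3, hz4⟩, hz5, hz6⟩ := hzp
      obtain ⟨a, c, ha, hc, hcC, hnorm, hrel, hmin⟩ := hb3 z hz
      have hCC0 : (CC : ℤ) ≤ C0 := by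
        rw [hC0]
        push_cast
        have : (0 : ℤ) ≤ |L| * 2 ^ d := by positivity
        linarith
      refine ⟨hb2 z hz 0, ?_, ?_, hz5, ?_, hz6.trans (hdvd z.1), a, c, ha, hc, hcC.trans hCC0,
        ?_, ?_, ?_⟩
      · -- width
        dsimp only
        rw [← hzq]
        have h1 := (tdiv_facts _ T w (hb2 z hz 0) hw1).2.1
        have h2 : |(((b z).coeff 0 - w * ((b z).coeff 0).tdiv w : ℤ) : ℝ)| ≤ w := by
          rw [← Int.cast_abs]
          exact_mod_cast h1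
        exact h2.trans hwle
      · -- size of n
        dsimp only
        rw [abs_mul, Nat.abs_cast]
        have h1 : (z.1 : ℤ) ≤ 2 ^ d * (T : ℤ) ^ d := by
          have h2 : z.1 ≤ (2 * T) ^ d := by
            have : (T + 1) ^ d ≤ (2 * T) ^ d := Nat.pow_le_pow_left (by omega) d
            omega
          rw [mul_pow] at h2
          exact_mod_cast h2
        have h3 : (|L| : ℤ) * 2 ^ d ≤ C0 := by
          rw [hC0, Int.abs_eq_natAbs]
          push_cast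
          linarith
        calc |L| * (z.1 : ℤ) ≤ |L| * (2 ^ d * (T : ℤ) ^ d) := by gcongr
          _ = (|L| * 2 ^ d) * (T : ℤ) ^ d := by ring
          _ ≤ C0 * (T : ℤ) ^ d := by gcongr
      · -- T^d ≤ C0 p
        dsimp only
        have h1 : 2 ≤ C0 := by omega
        calc T ^ d ≤ 2 * P := hTd
          _ ≤ C0 * z.2 := Nat.mul_le_mul h1 (by omega)
      · dsimp only
        rw [← hzl]
        exact hnorm
      · dsimp only
        rw [← hzl]
        exact hrel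
      · dsimp only
        rw [← hzl]
        exact hmin
  have hcount := card_le_mul_of_fiber (pairs f k X P) I G hGI _ hfib
  rw [hIcard] at hcount
  have hfin := lines_count d T w y ε K (by omega) hT1 hw1 hw2 hy0 hK.le _ hcount
  refine hfin.trans ?_
  have hE0 : (0 : ℝ) ≤ (d - 1 + y + ε) / d := by
    have : (0 : ℝ) ≤ d - 1 + y + ε := by linarith
    positivity
  have hXR : (1 : ℝ) ≤ X := by exact_mod_cast hX1
  have h1 : (T : ℝ) ^ ((d : ℝ) - 1 + y + ε) ≤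
      2 ^ ((d - 1 + y + ε) / d : ℝ) * (X : ℝ) ^ (1 - η) := by
    have h2 : (T : ℝ) ^ ((d : ℝ) - 1 + y + ε) = ((T : ℝ) ^ d) ^ (((d : ℝ) - 1 + y + ε) / d) := by
      rw [← Real.rpow_natCast (T : ℝ) d, ← Real.rpow_mul hTR0.le, mul_div_cancel₀]
      linarith
    have h3 : (T : ℝ) ^ d ≤ 2 * (X : ℝ) ^ (1 + θ0) := by
      have : ((T ^ d : ℕ) : ℝ) ≤ ((2 * P : ℕ) : ℝ) := by exact_mod_cast hTd
      push_cast at this
      linarith
    rw [h2]
    calc ((T : ℝ) ^ d) ^ (((d : ℝ) - 1 + y + ε) / d)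
        ≤ (2 * (X : ℝ) ^ (1 + θ0)) ^ (((d : ℝ) - 1 + y + ε) / d) :=
          Real.rpow_le_rpow (by positivity) h3 hE0
      _ = 2 ^ ((d - 1 + y + ε) / d : ℝ) * (X : ℝ) ^ ((1 + θ0) * (((d : ℝ) - 1 + y + ε) / d)) := by
          rw [Real.mul_rpow (by norm_num) (by positivity), ← Real.rpow_mul (by positivity)]
      _ ≤ 2 ^ ((d - 1 + y + ε) / d : ℝ) * (X : ℝ) ^ (1 - η) := by
          have h4 : (X : ℝ) ^ ((1 + θ0) * (((d : ℝ) - 1 + y + ε) / d)) ≤ (X : ℝ) ^ (1 - η) :=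
            Real.rpow_le_rpow_of_exponent_le hXR hmain
          gcongr
  calc 3 ^ (d - 1) * 5 * K * (T : ℝ) ^ ((d : ℝ) - 1 + y + ε)
      ≤ 3 ^ (d - 1) * 5 * K * (2 ^ ((d - 1 + y + ε) / d : ℝ) * (X : ℝ) ^ (1 - η)) := by gcongr
    _ = _ := by ring

end Vale.Agent.P018
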