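import Vale.Agent.P018.Sieve

/-! The product defining the density converges. -/

namespace Vale.Agent.P018

open Polynomial

theorem multipliable_density (f : ℤ[X]) (k : ℕ) (hk : 2 ≤ k)
    (hirr : Irreducible (f.map (Int.castRingHom ℚ))) :
    Multipliable (fun p : Nat.Primes => 1 - (rho f ((p : ℕ) ^ k) : ℝ) / ((p : ℕ) : ℝ) ^ k) := by
  obtain ⟨D, hD⟩ := sv_rho_bound f k (by omega) hirr
  have h1 : Summable (fun n : ℕ => (D : ℝ) * (1 / (n : ℝ) ^ 2)) :=
    (Real.summable_one_div_nat_pow.mpr (by norm_num)).mul_left _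
  have h2 : Summable (fun p : Nat.Primes => (D : ℝ) * (1 / ((p : ℕ) : ℝ) ^ 2)) :=
    h1.comp_injective Nat.Primes.coe_nat_injective
  have h3 : Summable (fun p : Nat.Primes => ‖-((rho f ((p : ℕ) ^ k) : ℝ) / ((p : ℕ) : ℝ) ^ k)‖) := by
    refine Summable.of_nonneg_of_le (fun p => norm_nonneg _) (fun p => ?_) h2
    have h4 : (1 : ℝ) ≤ ((p : ℕ) : ℝ) := by exact_mod_cast p.2.one_lt.le
    have h5 : ((p : ℕ) : ℝ) ^ 2 ≤ ((p : ℕ) : ℝ) ^ k := pow_le_pow_right₀ h4 hk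
    have h6 : (rho f ((p : ℕ) ^ k) : ℝ) ≤ D := by exact_mod_cast hD p p.2
    have h7 : (0 : ℝ) ≤ (rho f ((p : ℕ) ^ k) : ℝ) / ((p : ℕ) : ℝ) ^ k := by positivity
    rw [norm_neg, Real.norm_eq_abs, abs_of_nonneg h7, mul_one_div]
    gcongr
  have h4 := multipliable_one_add_of_summable h3
  simpa [sub_eq_add_neg] using h4

end Vale.Agent.P018
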