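import Mathlib

/-! # P018: definitions for the argument with lines in `ℤ[θ]`. -/

namespace Vale.Agent.P018

open Polynomial

/-- the field `ℚ[x]/(f)`. -/
abbrev EE (f : ℤ[X]) : Type := AdjoinRoot (f.map (Int.castRingHom ℚ))

/-- the root `θ`. -/
noncomputable abbrev th (f : ℤ[X]) : EE f := AdjoinRoot.root (f.map (Int.castRingHom ℚ))

/-- `b ↦ b(θ)` for integer polynomials. -/
noncomputable def evT (f : ℤ[X]) : ℤ[X] →+* EE f :=
  Polynomial.eval₂RingHom (Int.castRingHom (EE f)) (th f)

/-- coefficientwise extension of a linear form to polynomials. -/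
noncomputable def extL {E : Type*} [Field E] [Algebra ℚ E] (lam : E →ₗ[ℚ] ℚ) (q : E[X]) : ℚ[X] :=
  ∑ i ∈ q.support, monomial i (lam (q.coeff i))

theorem extL_coeff {E : Type*} [Field E] [Algebra ℚ E] (lam : E →ₗ[ℚ] ℚ) (q : E[X]) (i : ℕ) :
    (extL lam q).coeff i = lam (q.coeff i) := by
  unfold extL
  rw [finsetSum_coeff]
  by_cases hi : i ∈ q.support
  · rw [Finset.sum_eq_single i]
    · rw [coeff_monomial, if_pos rfl]
    · intro j _ hji
      rw [coeff_monomial, if_neg hji]
    · intro h
      exact absurd hi h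
  · rw [Finset.sum_eq_zero]
    · rw [notMem_support_iff.mp hi, map_zero]
    · intro j hj
      have : j ≠ i := fun h => hi (h ▸ hj)
      rw [coeff_monomial, if_neg this]

end Vale.Agent.P018
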