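import Mathlib
import Vale.Agent.P018.LDefs

/-! # P018, module M4: algebra of the relation on a line. -/

namespace Vale.Agent.P018

open Polynomial

section ext

variable {E : Type*} [Field E] [Algebra ℚ E]

theorem extL_add (lam : E →ₗ[ℚ] ℚ) (p q : E[X]) : extL lam (p + q) = extL lam p + extL lam q := by
  ext i
  simp [extL_coeff]

theorem extL_map_mul (lam : E →ₗ[ℚ] ℚ) (p : ℚ[X]) (q : E[X]) :
    extL lam (p.map (algebraMap ℚ E) * q) = p * extL lam q := by
  ext i
  rw [extL_coeff, coeff_mul, coeff_mul, map_sum]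
  refine Finset.sum_congr rfl fun x _ => ?_
  rw [coeff_map, extL_coeff, ← Algebra.smul_def, map_smul, smul_eq_mul]

theorem extL_derivative (lam : E →ₗ[ℚ] ℚ) (q : E[X]) :
    extL lam (derivative q) = derivative (extL lam q) := by
  ext i
  rw [extL_coeff, coeff_derivative, coeff_derivative, extL_coeff]
  have : q.coeff (i + 1) * ((i : E) + 1) = ((i : ℚ) + 1) • q.coeff (i + 1) := by
    rw [Algebra.smul_def, mul_comm, map_add, map_natCast, map_one]
  rw [this, map_smul, smul_eq_mul, mul_comm]

theorem extL_natDegree_le (lam : E →ₗ[ℚ] ℚ) (q : E[X]) : (extL lam q).natDegree ≤ q.natDegree := by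
  rw [natDegree_le_iff_coeff_eq_zero]
  intro i hi
  rw [extL_coeff, coeff_eq_zero_of_natDegree_lt hi, map_zero]

end ext

section main

variable {E : Type*} [Field E] [Algebra ℚ E]

/-- the powers identity. -/
theorem la_identity (β0 : E) (N : ℚ[X]) (B : E[X])
    (hB : (X + C β0) * B = N.map (algebraMap ℚ E)) (mu : E →ₗ[ℚ] ℚ) (r : ℕ) :
    N * derivative (extL mu (B ^ r)) =
      C (r : ℚ) * (derivative N * extL mu (B ^ r) - extL mu (B ^ (r + 1))) := by
  have h1 : B + (X + C β0) * derivative B = (derivative N).map (algebraMap ℚ E) := by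
    have h2 := congrArg derivative hB
    rw [derivative_mul, derivative_add, derivative_X, derivative_C, add_zero, one_mul,
      derivative_map] at h2
    exact h2
  have h3 : N.map (algebraMap ℚ E) * derivative (B ^ r) =
      (C (r : ℚ)).map (algebraMap ℚ E) * ((derivative N).map (algebraMap ℚ E) * B ^ r -
        B ^ (r + 1)) := by
    rw [← hB, ← h1, derivative_pow]
    rcases r with _ | r
    · simp
    · simp only [Nat.add_sub_cancel, map_natCast, Polynomial.map_natCast]
      ring
  have h4 := congrArg (extL mu) h3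
  rw [extL_map_mul, extL_derivative, extL_map_mul] at h4
  rw [h4]
  congr 1
  have h5 : (derivative N).map (algebraMap ℚ E) * B ^ r =
      ((derivative N).map (algebraMap ℚ E) * B ^ r - B ^ (r + 1)) + B ^ (r + 1) := by ring
  have h6 := congrArg (extL mu) h5
  rw [extL_add, extL_map_mul] at h6
  rw [h6]
  ring

variable [FiniteDimensional ℚ E]

theorem la_span (β0 : E) (N : ℚ[X]) (hN : N.Monic) (hNirr : Irreducible N)
    (hdeg : N.natDegree = Module.finrank ℚ E) (B : E[X])
    (hB : (X + C β0) * B = N.map (algebraMap ℚ E)) (mu : E →ₗ[ℚ] ℚ) (hmu : extL mu B = 0) :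
    mu = 0 := by
  -- the span of the coefficients
  set S : Submodule ℚ E := Submodule.span ℚ (Set.range fun i => B.coeff i) with hS
  have hBmonic : B.Monic := by
    have h1 : (N.map (algebraMap ℚ E)).Monic := hN.map _
    rw [← hB] at h1
    exact (monic_X_add_C β0).of_mul_monic_left h1
  have h1S : (1 : E) ∈ S := by
    have h2 : B.coeff B.natDegree = 1 := hBmonic.coeff_natDegree
    rw [← h2]
    exact Submodule.subset_span ⟨_, rfl⟩
  have hclosed : ∀ x ∈ S, β0 * x ∈ S := by
    intro x hx
    induction hx using Submodule.span_induction with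
    | mem x hx =>
      obtain ⟨i, rfl⟩ := hx
      simp only
      rcases i with _ | i
      · have h2 := congrArg (fun q : E[X] => q.coeff 0) hB
        simp only [add_mul, coeff_add, mul_coeff_zero, coeff_X_zero, zero_mul,
          zero_add, coeff_map, coeff_C_zero] at h2
        rw [h2, Algebra.algebraMap_eq_smul_one]
        exact S.smul_mem _ h1S
      · have h2 := congrArg (fun q : E[X] => q.coeff (i + 1)) hB
        simp only [add_mul, coeff_add, coeff_C_mul, coeff_X_mul, coeff_map] at h2
        have h3 : β0 * B.coeff (i + 1) = algebraMap ℚ E (N.coeff (i + 1)) - B.coeff i := by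
          rw [← h2]
          ring
        rw [h3, Algebra.algebraMap_eq_smul_one]
        exact S.sub_mem (S.smul_mem _ h1S) (Submodule.subset_span ⟨_, rfl⟩)
    | zero => simp
    | add x y _ _ hx hy => rw [mul_add]; exact S.add_mem hx hy
    | smul a x _ hx => rw [mul_smul_comm]; exact S.smul_mem _ hx
  have hpow : ∀ j : ℕ, β0 ^ j ∈ S := by
    intro j
    induction j with
    | zero => simpa using h1S
    | succ j ih => rw [pow_succ']; exact hclosed _ ih
  -- the field is generated by `β0`
  have hroot : aeval (-β0) N = 0 := by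
    have h2 := congrArg (Polynomial.eval (-β0)) hB
    rw [eval_mul, eval_add, eval_X, eval_C, neg_add_cancel, zero_mul, eval_map_algebraMap] at h2
    exact h2.symm
  have hmin : minpoly ℚ (-β0) = N := (minpoly.eq_of_irreducible_of_monic hNirr hroot hN).symm
  have hint : IsIntegral ℚ (-β0) := Algebra.IsIntegral.isIntegral _
  have htop : IntermediateField.adjoin ℚ {-β0} = (⊤ : IntermediateField ℚ E) := by
    apply IntermediateField.eq_of_le_of_finrank_eq le_top
    rw [IntermediateField.adjoin.finrank hint, hmin, hdeg, IntermediateField.finrank_top']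
  have hStop : ∀ x : E, x ∈ S := by
    intro x
    have h2 : x ∈ (IntermediateField.adjoin ℚ {-β0} : IntermediateField ℚ E) := by
      rw [htop]; trivial
    rw [← IntermediateField.mem_toSubalgebra,
      IntermediateField.adjoin_simple_toSubalgebra_of_isAlgebraic hint.isAlgebraic,
      Algebra.adjoin_singleton_eq_range_aeval] at h2
    obtain ⟨p, rfl⟩ := h2
    change (aeval (-β0)) p ∈ S
    rw [aeval_eq_sum_range]
    refine S.sum_mem fun j _ => S.smul_mem _ ?_
    rw [neg_pow]
    rcases Nat.even_or_odd j with hj | hj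
    · rw [hj.neg_one_pow, one_mul]; exact hpow j
    · rw [hj.neg_one_pow, neg_one_mul]; exact S.neg_mem (hpow j)
  ext x
  have hx := hStop x
  rw [LinearMap.zero_apply]
  induction hx using Submodule.span_induction with
  | mem x hx =>
    obtain ⟨i, rfl⟩ := hx
    rw [← extL_coeff, hmu, coeff_zero]
  | zero => simp
  | add x y _ _ hx hy => rw [map_add, hx, hy, add_zero]
  | smul a x _ hx => rw [map_smul, hx, smul_zero]

theorem la_key (β0 : E) (N : ℚ[X]) (B : E[X])
    (hB : (X + C β0) * B = N.map (algebraMap ℚ E)) (lam mu : E →ₗ[ℚ] ℚ) (r : ℕ) :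
    N * extL lam (B ^ (r + 2)) + extL mu (B ^ (r + 3)) =
      C ((r : ℚ) + 2) * derivative N *
        (C (1 / ((r : ℚ) + 1)) * N * extL lam (B ^ (r + 1)) +
          C (1 / ((r : ℚ) + 2)) * extL mu (B ^ (r + 2))) -
      N * derivative (C (1 / ((r : ℚ) + 1)) * N * extL lam (B ^ (r + 1)) +
          C (1 / ((r : ℚ) + 2)) * extL mu (B ^ (r + 2))) := by
  have h1 := la_identity β0 N B hB lam (r + 1)
  have h2 := la_identity β0 N B hB mu (r + 2)
  push_cast at h1 h2
  set u := extL lam (B ^ (r + 1))
  set v := extL mu (B ^ (r + 2))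
  set u2 := extL lam (B ^ (r + 2))
  set v2 := extL mu (B ^ (r + 3))
  have hr1 : ((r : ℚ) + 1) ≠ 0 := by positivity
  have hr2 : ((r : ℚ) + 2) ≠ 0 := by positivity
  have e1 : C (1 / ((r : ℚ) + 1)) * C ((r : ℚ) + 1) = 1 := by
    rw [← C_mul, one_div_mul_cancel hr1, C_1]
  have e2 : C (1 / ((r : ℚ) + 2)) * C ((r : ℚ) + 2) = 1 := by
    rw [← C_mul, one_div_mul_cancel hr2, C_1]
  have e3 : C ((r : ℚ) + 2) = C ((r : ℚ) + 1) + 1 := by
    rw [← C_1, ← C_add]
    congr 1
    ring
  have h3 : u2 = derivative N * u - C (1 / ((r : ℚ) + 1)) * (N * derivative u) := by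
    rw [h1]
    linear_combination (derivative N * u - u2) * e1
  have h4 : v2 = derivative N * v - C (1 / ((r : ℚ) + 2)) * (N * derivative v) := by
    rw [h2]
    linear_combination (derivative N * v - v2) * e2
  rw [h3, h4]
  simp only [derivative_add, derivative_mul, derivative_C, zero_mul, zero_add]
  linear_combination (-(derivative N * v)) * e2 - (derivative N * N * u) * e1 -
    (C (1 / ((r : ℚ) + 1)) * derivative N * N * u) * e3

theorem la_degree (N : ℚ[X]) (hN : N.Monic) (W : ℚ[X]) (hW : W ≠ 0) (m : ℚ)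
    (hm : (W.natDegree : ℚ) < m * N.natDegree) :
    C m * derivative N * W - N * derivative W ≠ 0 ∧
      N.natDegree - 1 ≤ (C m * derivative N * W - N * derivative W).natDegree := by
  rcases Nat.eq_zero_or_pos N.natDegree with h0 | hpos
  · exfalso
    rw [h0] at hm
    simp only [Nat.cast_zero, mul_zero] at hm
    have : (0 : ℚ) ≤ W.natDegree := by positivity
    linarith
  have hcoeff : (C m * derivative N * W - N * derivative W).coeff (N.natDegree - 1 + W.natDegree) =
      (m * N.natDegree - W.natDegree) * W.leadingCoeff := by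
    rw [coeff_sub, mul_assoc, coeff_C_mul]
    have h1 : (derivative N * W).coeff (N.natDegree - 1 + W.natDegree) =
        N.natDegree * W.leadingCoeff := by
      rw [coeff_mul_add_eq_of_natDegree_le (natDegree_derivative_le N) le_rfl, coeff_derivative,
        Nat.sub_add_cancel hpos, hN.coeff_natDegree, one_mul]
      have : ((N.natDegree - 1 : ℕ) : ℚ) + 1 = N.natDegree := by
        rw [Nat.cast_sub hpos]
        simp
      rw [this]
      rfl
    have h2 : (N * derivative W).coeff (N.natDegree - 1 + W.natDegree) =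
        W.natDegree * W.leadingCoeff := by
      rcases Nat.eq_zero_or_pos W.natDegree with hw0 | hwpos
      · rw [hw0, natDegree_eq_zero.mp hw0 |>.choose_spec.symm]
        simp
      · have h3 : N.natDegree - 1 + W.natDegree = N.natDegree + (W.natDegree - 1) := by omega
        rw [h3, coeff_mul_add_eq_of_natDegree_le le_rfl (natDegree_derivative_le W),
          coeff_derivative, hN.coeff_natDegree, one_mul, Nat.sub_add_cancel hwpos]
        have : ((W.natDegree - 1 : ℕ) : ℚ) + 1 = W.natDegree := by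
          rw [Nat.cast_sub hwpos]
          simp
        rw [this, mul_comm]
        rfl
    rw [h1, h2]
    ring
  have hne : (C m * derivative N * W - N * derivative W).coeff (N.natDegree - 1 + W.natDegree) ≠ 0 := by
    rw [hcoeff]
    exact mul_ne_zero (by linarith) (leadingCoeff_ne_zero.mpr hW)
  refine ⟨fun h => hne (by rw [h, coeff_zero]), ?_⟩
  have := le_natDegree_of_ne_zero hne
  omega

omit [FiniteDimensional ℚ E] in
theorem la_natDegree_B (β0 : E) (N : ℚ[X]) (hN : N.Monic) (B : E[X])
    (hB : (X + C β0) * B = N.map (algebraMap ℚ E)) : B.natDegree + 1 = N.natDegree := by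
  have h1 : (N.map (algebraMap ℚ E)).Monic := hN.map _
  rw [← hB] at h1
  have hBm : B.Monic := (monic_X_add_C β0).of_mul_monic_left h1
  have h2 := congrArg natDegree hB
  rw [(monic_X_add_C β0).natDegree_mul hBm, natDegree_X_add_C,
    natDegree_map] at h2
  omega

theorem la_W_degree (β0 : E) (N : ℚ[X]) (hN : N.Monic) (B : E[X])
    (hB : (X + C β0) * B = N.map (algebraMap ℚ E)) (lam mu : E →ₗ[ℚ] ℚ) (r : ℕ) :
    (N * extL lam (B ^ (r + 1)) + extL mu (B ^ (r + 2))).natDegree <
      (r + 2) * N.natDegree := by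
  have hd := la_natDegree_B β0 N hN B hB
  have h1 : (N * extL lam (B ^ (r + 1))).natDegree ≤ N.natDegree + (r + 1) * B.natDegree := by
    refine natDegree_mul_le.trans ?_
    gcongr
    exact (extL_natDegree_le _ _).trans natDegree_pow_le
  have h2 : (extL mu (B ^ (r + 2))).natDegree ≤ (r + 2) * B.natDegree :=
    (extL_natDegree_le _ _).trans natDegree_pow_le
  refine lt_of_le_of_lt (natDegree_add_le _ _) (max_lt ?_ ?_)
  · refine lt_of_le_of_lt h1 ?_
    rw [← hd]
    nlinarith
  · refine lt_of_le_of_lt h2 ?_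
    rw [← hd]
    nlinarith

theorem la_nonzero (β0 : E) (N : ℚ[X]) (hN : N.Monic) (hNirr : Irreducible N)
    (hdeg : N.natDegree = Module.finrank ℚ E) (B : E[X])
    (hB : (X + C β0) * B = N.map (algebraMap ℚ E)) (r : ℕ) :
    ∀ lam mu : E →ₗ[ℚ] ℚ, (lam ≠ 0 ∨ mu ≠ 0) →
      N * extL lam (B ^ (r + 1)) + extL mu (B ^ (r + 2)) ≠ 0 := by
  induction r with
  | zero =>
    intro lam mu hne hzero
    have h1 := la_identity β0 N B hB mu 1
    simp only [pow_one, Nat.cast_one, C_1, one_mul, Nat.reduceAdd] at h1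
    simp only [zero_add, pow_one] at hzero
    have h2 : N * (extL lam B - derivative (extL mu B)) + derivative N * extL mu B = 0 := by
      linear_combination hzero - h1
    have hcop : IsCoprime N (derivative N) := hNirr.separable
    have h3 : N ∣ derivative N * extL mu B :=
      ⟨-(extL lam B - derivative (extL mu B)), by linear_combination h2⟩
    have h4 : N ∣ extL mu B := hcop.dvd_of_dvd_mul_left h3
    have hd := la_natDegree_B β0 N hN B hB
    have h5 : extL mu B = 0 := by
      by_contra hne0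
      have h6 := natDegree_le_of_dvd h4 hne0
      have h7 := extL_natDegree_le mu B
      omega
    have hmu : mu = 0 := la_span β0 N hN hNirr hdeg B hB mu h5
    rw [h5] at h2
    simp only [derivative_zero, sub_zero, mul_zero, add_zero] at h2
    have h8 : extL lam B = 0 := (mul_eq_zero.mp h2).resolve_left hNirr.ne_zero
    have hlam : lam = 0 := la_span β0 N hN hNirr hdeg B hB lam h8
    rcases hne with h | h
    · exact h hlam
    · exact h hmu
  | succ r ih =>
    intro lam mu hne
    have hW : C (1 / ((r : ℚ) + 1)) * N * extL lam (B ^ (r + 1)) +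
        C (1 / ((r : ℚ) + 2)) * extL mu (B ^ (r + 2)) ≠ 0 := by
      have hr1 : (1 / ((r : ℚ) + 1)) ≠ 0 := by positivity
      have hr2 : (1 / ((r : ℚ) + 2)) ≠ 0 := by positivity
      have h1 := ih ((1 / ((r : ℚ) + 1)) • lam) ((1 / ((r : ℚ) + 2)) • mu) (by
        rcases hne with h | h
        · left; exact smul_ne_zero hr1 h
        · right; exact smul_ne_zero hr2 h)
      have h2 : ∀ (c : ℚ) (l : E →ₗ[ℚ] ℚ) (q : E[X]), extL (c • l) q = C c * extL l q := by
        intro c l q
        ext i
        rw [extL_coeff, coeff_C_mul, extL_coeff, LinearMap.smul_apply, smul_eq_mul]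
      rw [h2, h2] at h1
      intro h3
      apply h1
      rw [← h3]
      ring
    have hWdeg : ((C (1 / ((r : ℚ) + 1)) * N * extL lam (B ^ (r + 1)) +
        C (1 / ((r : ℚ) + 2)) * extL mu (B ^ (r + 2))).natDegree : ℚ) <
          ((r : ℚ) + 2) * N.natDegree := by
      have h2 : ∀ (c : ℚ) (l : E →ₗ[ℚ] ℚ) (q : E[X]), extL (c • l) q = C c * extL l q := by
        intro c l q
        ext i
        rw [extL_coeff, coeff_C_mul, extL_coeff, LinearMap.smul_apply, smul_eq_mul]
      have h1 := la_W_degree β0 N hN B hB ((1 / ((r : ℚ) + 1)) • lam) ((1 / ((r : ℚ) + 2)) • mu) r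
      rw [h2, h2] at h1
      have h3 : N * (C (1 / ((r : ℚ) + 1)) * extL lam (B ^ (r + 1))) +
          C (1 / ((r : ℚ) + 2)) * extL mu (B ^ (r + 2)) =
          C (1 / ((r : ℚ) + 1)) * N * extL lam (B ^ (r + 1)) +
        C (1 / ((r : ℚ) + 2)) * extL mu (B ^ (r + 2)) := by ring
      rw [h3] at h1
      exact_mod_cast h1
    rw [la_key β0 N B hB lam mu r]
    exact (la_degree N hN _ hW _ hWdeg).1

/-- M4. Algebra: the relation coming from the vanishing of the determinants. -/
theorem line_algebra (β0 : E)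
    (N : ℚ[X]) (hN : N.Monic) (hNirr : Irreducible N) (hdeg : N.natDegree = Module.finrank ℚ E)
    (B : E[X]) (hB : (X + C β0) * B = N.map (algebraMap ℚ E)) (k : ℕ) (hk : 3 ≤ k) (ϑ : E)
    (lam0 lam1 : E →ₗ[ℚ] ℚ) (hlam : lam0 ≠ 0 ∨ lam1 ≠ 0) (t0 : ℚ) :
    N.natDegree - 1 ≤ (extL lam0 (B ^ k) + (X - C t0) * extL lam1 (B ^ k)).natDegree ∧
    extL lam0 (B ^ k) + (X - C t0) * extL lam1 (B ^ k) ≠ 0 ∧
    (extL lam0 (C ϑ * B ^ k) + (X - C t0) * extL lam1 (C ϑ * B ^ k)).natDegree ≤
      k * (N.natDegree - 1) + 1 := by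
  obtain ⟨r, rfl⟩ : ∃ r, k = r + 3 := ⟨k - 3, by omega⟩
  have hd := la_natDegree_B β0 N hN B hB
  set c0 : E := β0 + algebraMap ℚ E t0 with hc0
  set lam2 : E →ₗ[ℚ] ℚ := lam0 - lam1 ∘ₗ (LinearMap.mulLeft ℚ c0) with hlam2
  have hcomp : ∀ q : E[X], extL (lam1 ∘ₗ (LinearMap.mulLeft ℚ c0)) q = extL lam1 (C c0 * q) := by
    intro q
    ext i
    rw [extL_coeff, extL_coeff, coeff_C_mul]
    rfl
  have hsub : ∀ q : E[X], extL lam2 q = extL lam0 q - extL lam1 (C c0 * q) := by
    intro q
    rw [← hcomp]
    ext i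
    rw [coeff_sub, extL_coeff, extL_coeff, extL_coeff]
    rfl
  have hA : extL lam0 (B ^ (r + 3)) + (X - C t0) * extL lam1 (B ^ (r + 3)) =
      N * extL lam1 (B ^ (r + 2)) + extL lam2 (B ^ (r + 3)) := by
    rw [hsub]
    have h2 : (X - C t0).map (algebraMap ℚ E) * B ^ (r + 3) + C c0 * B ^ (r + 3) =
        N.map (algebraMap ℚ E) * B ^ (r + 2) := by
      rw [← hB, hc0]
      simp only [Polynomial.map_sub, map_X, map_C, C_add]
      ring
    have h3 := congrArg (extL lam1) h2
    rw [extL_add, extL_map_mul, extL_map_mul] at h3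
    linear_combination h3
  have hne : lam1 ≠ 0 ∨ lam2 ≠ 0 := by
    by_contra hcon
    push Not at hcon
    obtain ⟨h1, h2⟩ := hcon
    rw [hlam2, h1, LinearMap.zero_comp, sub_zero] at h2
    rcases hlam with h | h
    · exact h h2
    · exact h h1
  -- the antiderivative
  have h2 : ∀ (c : ℚ) (l : E →ₗ[ℚ] ℚ) (q : E[X]), extL (c • l) q = C c * extL l q := by
    intro c l q
    ext i
    rw [extL_coeff, coeff_C_mul, extL_coeff, LinearMap.smul_apply, smul_eq_mul]
  have h3 : N * (C (1 / ((r : ℚ) + 1)) * extL lam1 (B ^ (r + 1))) +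
      C (1 / ((r : ℚ) + 2)) * extL lam2 (B ^ (r + 2)) =
      C (1 / ((r : ℚ) + 1)) * N * extL lam1 (B ^ (r + 1)) +
        C (1 / ((r : ℚ) + 2)) * extL lam2 (B ^ (r + 2)) := by ring
  have hW : C (1 / ((r : ℚ) + 1)) * N * extL lam1 (B ^ (r + 1)) +
      C (1 / ((r : ℚ) + 2)) * extL lam2 (B ^ (r + 2)) ≠ 0 := by
    have hr1 : (1 / ((r : ℚ) + 1)) ≠ 0 := by positivity
    have hr2 : (1 / ((r : ℚ) + 2)) ≠ 0 := by positivity
    have h1 := la_nonzero β0 N hN hNirr hdeg B hB r ((1 / ((r : ℚ) + 1)) • lam1)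
      ((1 / ((r : ℚ) + 2)) • lam2) (by
      rcases hne with h | h
      · left; exact smul_ne_zero hr1 h
      · right; exact smul_ne_zero hr2 h)
    rw [h2, h2, h3] at h1
    exact h1
  have hWdeg : ((C (1 / ((r : ℚ) + 1)) * N * extL lam1 (B ^ (r + 1)) +
      C (1 / ((r : ℚ) + 2)) * extL lam2 (B ^ (r + 2))).natDegree : ℚ) <
        ((r : ℚ) + 2) * N.natDegree := by
    have h1 := la_W_degree β0 N hN B hB ((1 / ((r : ℚ) + 1)) • lam1)
      ((1 / ((r : ℚ) + 2)) • lam2) r
    rw [h2, h2, h3] at h1
    exact_mod_cast h1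
  have hfin := la_degree N hN _ hW _ hWdeg
  rw [hA, la_key β0 N B hB lam1 lam2 r]
  refine ⟨hfin.2, hfin.1, ?_⟩
  have h4 : ∀ l : E →ₗ[ℚ] ℚ, (extL l (C ϑ * B ^ (r + 3))).natDegree ≤
      (r + 3) * (N.natDegree - 1) := by
    intro l
    refine (extL_natDegree_le _ _).trans ((natDegree_C_mul_le _ _).trans ?_)
    refine natDegree_pow_le.trans ?_
    rw [← hd]
    simp
  refine (natDegree_add_le _ _).trans (max_le ((h4 lam0).trans (Nat.le_succ _)) ?_)
  refine natDegree_mul_le.trans ?_
  rw [natDegree_X_sub_C, add_comm]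
  exact Nat.succ_le_succ (h4 lam1)

end main

end Vale.Agent.P018
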