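import Mathlib
import Vale.Agent.P018.LDefs

/-! # P018: elements of `ℤ[θ]` with bounded coordinates. -/

namespace Vale.Agent.P018

open Polynomial Finset

/-- `x = g(θ)` with `deg g < deg f` and coefficients of `g` at most `M`. -/
def Bd (f : ℤ[X]) (M : ℕ) (x : EE f) : Prop :=
  ∃ g : ℤ[X], g.natDegree < f.natDegree ∧ evT f g = x ∧ ∀ j, |g.coeff j| ≤ (M : ℤ)

theorem evT_C (f : ℤ[X]) (n : ℤ) : evT f (C n) = (n : EE f) := by
  unfold evT
  rw [coe_eval₂RingHom, eval₂_C]
  rfl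

theorem evT_X (f : ℤ[X]) : evT f X = th f := by
  unfold evT
  rw [coe_eval₂RingHom, eval₂_X]

theorem evT_eq_mk (f : ℤ[X]) (g : ℤ[X]) :
    evT f g = AdjoinRoot.mk (f.map (Int.castRingHom ℚ)) (g.map (Int.castRingHom ℚ)) := by
  have h : evT f = (AdjoinRoot.mk (f.map (Int.castRingHom ℚ))).comp
      (mapRingHom (Int.castRingHom ℚ)) := by
    apply Polynomial.ringHom_ext
    · intro a
      rw [evT_C, RingHom.comp_apply, coe_mapRingHom, Polynomial.map_C]
      simp
    · rw [evT_X, RingHom.comp_apply, coe_mapRingHom, Polynomial.map_X, AdjoinRoot.mk_X]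
  rw [h]
  rfl

theorem evT_self (f : ℤ[X]) : evT f f = 0 := by
  rw [evT_eq_mk, AdjoinRoot.mk_self]

theorem evT_modByMonic (f : ℤ[X]) (g : ℤ[X]) (hm : f.Monic) : evT f (g %ₘ f) = evT f g := by
  conv_rhs => rw [← modByMonic_add_div g f]
  rw [map_add, map_mul, evT_self, zero_mul, add_zero]

theorem evT_eq_zero_iff (f : ℤ[X]) (hm : f.Monic) (g : ℤ[X]) (hg : g.natDegree < f.natDegree) :
    evT f g = 0 ↔ g = 0 := by
  constructor
  · intro h
    rw [evT_eq_mk, AdjoinRoot.mk_eq_zero] at h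
    have h1 : (f.map (Int.castRingHom ℚ)).natDegree = f.natDegree :=
      natDegree_map_eq_of_injective (Int.cast_injective (α := ℚ)) f
    have h2 : (g.map (Int.castRingHom ℚ)).natDegree = g.natDegree :=
      natDegree_map_eq_of_injective (Int.cast_injective (α := ℚ)) g
    have h3 : g.map (Int.castRingHom ℚ) = 0 := by
      by_contra hne
      have := natDegree_le_of_dvd h hne
      omega
    rwa [Polynomial.map_eq_zero_iff (Int.cast_injective (α := ℚ))] at h3
  · rintro rfl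
    exact map_zero _

theorem evT_injOn (f : ℤ[X]) (hm : f.Monic) {g g' : ℤ[X]} (hg : g.natDegree < f.natDegree)
    (hg' : g'.natDegree < f.natDegree) (h : evT f g = evT f g') : g = g' := by
  have h1 : evT f (g - g') = 0 := by rw [map_sub, h, sub_self]
  have h2 := (evT_eq_zero_iff f hm (g - g')
    (lt_of_le_of_lt (natDegree_sub_le _ _) (max_lt hg hg'))).mp h1
  exact sub_eq_zero.mp h2

theorem Bd.mono {f : ℤ[X]} {M M' : ℕ} {x : EE f} (h : Bd f M x) (hM : M ≤ M') : Bd f M' x := by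
  obtain ⟨g, h1, h2, h3⟩ := h
  exact ⟨g, h1, h2, fun j => (h3 j).trans (by exact_mod_cast hM)⟩

theorem Bd.add {f : ℤ[X]} {M M' : ℕ} {x y : EE f} (hx : Bd f M x) (hy : Bd f M' y) :
    Bd f (M + M') (x + y) := by
  obtain ⟨g, h1, h2, h3⟩ := hx
  obtain ⟨g', h1', h2', h3'⟩ := hy
  refine ⟨g + g', lt_of_le_of_lt (natDegree_add_le _ _) (max_lt h1 h1'), by rw [map_add, h2, h2'],
    fun j => ?_⟩
  rw [coeff_add]
  refine (abs_add_le _ _).trans ?_
  push_cast
  exact add_le_add (h3 j) (h3' j)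

theorem Bd.neg {f : ℤ[X]} {M : ℕ} {x : EE f} (hx : Bd f M x) : Bd f M (-x) := by
  obtain ⟨g, h1, h2, h3⟩ := hx
  refine ⟨-g, by rwa [natDegree_neg], by rw [map_neg, h2], fun j => ?_⟩
  rw [coeff_neg, abs_neg]
  exact h3 j

theorem Bd.zero {f : ℤ[X]} (hd : 1 ≤ f.natDegree) (M : ℕ) : Bd f M (0 : EE f) :=
  ⟨0, by rw [natDegree_zero]; omega, map_zero _, fun j => by simp⟩

theorem Bd.int {f : ℤ[X]} (hd : 1 ≤ f.natDegree) (n : ℤ) (M : ℕ) (hn : |n| ≤ M) :
    Bd f M (n : EE f) := by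
  refine ⟨C n, by rw [natDegree_C]; omega, evT_C f n, fun j => ?_⟩
  rw [coeff_C]
  split_ifs
  · exact hn
  · simp

theorem Bd.theta {f : ℤ[X]} (hd : 2 ≤ f.natDegree) : Bd f 1 (th f) := by
  refine ⟨X, by rw [natDegree_X]; omega, evT_X f, fun j => ?_⟩
  rw [coeff_X]
  split_ifs <;> simp

theorem Bd.sum {f : ℤ[X]} (hd : 1 ≤ f.natDegree) {ι : Type*} (s : Finset ι) (x : ι → EE f)
    (M : ι → ℕ) (h : ∀ i ∈ s, Bd f (M i) (x i)) : Bd f (∑ i ∈ s, M i) (∑ i ∈ s, x i) := by
  classical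
  induction s using Finset.induction_on with
  | empty => simpa using Bd.zero hd 0
  | insert a s ha ih =>
    rw [Finset.sum_insert ha, Finset.sum_insert ha]
    exact (h a (Finset.mem_insert_self _ _)).add
      (ih fun i hi => h i (Finset.mem_insert_of_mem hi))

/-- multiplication constant. -/
theorem exists_bd_mul (f : ℤ[X]) (hm : f.Monic) (hd : 1 ≤ f.natDegree) :
    ∃ C0 : ℕ, 1 ≤ C0 ∧ ∀ (M M' : ℕ) (x y : EE f), Bd f M x → Bd f M' y →
      Bd f (C0 * (M * M')) (x * y) := by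
  set d := f.natDegree with hdd
  set W : ℕ := ∑ m ∈ range (2 * d), ∑ j ∈ range d, ((X ^ m %ₘ f : ℤ[X]).coeff j).natAbs with hW
  refine ⟨2 * d * (2 * d) * W + 1, by omega, ?_⟩
  rintro M M' x y ⟨g, h1, h2, h3⟩ ⟨g', h1', h2', h3'⟩
  have hdeg : (g * g').natDegree < 2 * d := by
    have := natDegree_mul_le (p := g) (q := g')
    omega
  refine ⟨(g * g') %ₘ f, ?_, by rw [evT_modByMonic f _ hm, map_mul, h2, h2'], fun j => ?_⟩
  · exact natDegree_modByMonic_lt _ hm (by
      rintro rfl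
      rw [hdd, natDegree_one] at hd
      omega)
  · have hlin : (g * g') %ₘ f = ∑ m ∈ range (2 * d), C ((g * g').coeff m) * (X ^ m %ₘ f) := by
      have e1 : g * g' = ∑ m ∈ range (2 * d), (g * g').coeff m • (X : ℤ[X]) ^ m := by
        conv_lhs => rw [as_sum_range_C_mul_X_pow' (g * g') hdeg]
        refine Finset.sum_congr rfl fun m _ => ?_
        rw [smul_eq_C_mul]
      have e2 := congrArg (modByMonicHom f) e1
      rw [map_sum] at e2
      refine Eq.trans e2 ?_
      refine Finset.sum_congr rfl fun m _ => ?_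
      rw [map_smul, smul_eq_C_mul]
      rfl
    rw [hlin, finsetSum_coeff]
    refine (Finset.abs_sum_le_sum_abs _ _).trans ?_
    have hc : ∀ m ∈ range (2 * d), |(g * g').coeff m| ≤ ((2 * d * (M * M') : ℕ) : ℤ) := by
      intro m hm'
      rw [coeff_mul]
      refine (Finset.abs_sum_le_sum_abs _ _).trans ?_
      have : ∀ x ∈ antidiagonal m, |g.coeff x.1 * g'.coeff x.2| ≤ (M : ℤ) * M' := by
        intro x _
        rw [abs_mul]
        exact mul_le_mul (h3 _) (h3' _) (abs_nonneg _) (by positivity)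
      refine (Finset.sum_le_sum this).trans ?_
      rw [Finset.sum_const, Finset.Nat.card_antidiagonal, nsmul_eq_mul]
      push_cast
      rw [mem_range] at hm'
      have h5 : ((m : ℤ) + 1) ≤ 2 * d := by exact_mod_cast hm'
      have h6 : (0 : ℤ) ≤ (M : ℤ) * M' := by positivity
      nlinarith
    have hr : ∀ m ∈ range (2 * d), |(X ^ m %ₘ f : ℤ[X]).coeff j| ≤ (W : ℤ) := by
      intro m hm'
      by_cases hj : j < d
      · rw [hW, Int.abs_eq_natAbs]
        have h5 : ((X ^ m %ₘ f : ℤ[X]).coeff j).natAbs ≤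
            ∑ j ∈ range d, ((X ^ m %ₘ f : ℤ[X]).coeff j).natAbs :=
          Finset.single_le_sum (f := fun j => ((X ^ m %ₘ f : ℤ[X]).coeff j).natAbs)
            (fun _ _ => Nat.zero_le _) (mem_range.mpr hj)
        have h6 : ∑ j ∈ range d, ((X ^ m %ₘ f : ℤ[X]).coeff j).natAbs ≤
            ∑ m ∈ range (2 * d), ∑ j ∈ range d, ((X ^ m %ₘ f : ℤ[X]).coeff j).natAbs :=
          Finset.single_le_sum (f := fun m => ∑ j ∈ range d, ((X ^ m %ₘ f : ℤ[X]).coeff j).natAbs)
            (fun _ _ => Nat.zero_le _) hm'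
        exact_mod_cast h5.trans h6
      · have h5 : (X ^ m %ₘ f : ℤ[X]).natDegree < d := natDegree_modByMonic_lt _ hm (by
          rintro rfl
          rw [hdd, natDegree_one] at hd
          omega)
        rw [coeff_eq_zero_of_natDegree_lt (by omega)]
        simp
    calc ∑ m ∈ range (2 * d), |(C ((g * g').coeff m) * (X ^ m %ₘ f)).coeff j|
        ≤ ∑ m ∈ range (2 * d), ((2 * d * (M * M') : ℕ) : ℤ) * (W : ℤ) := by
          refine Finset.sum_le_sum fun m hm' => ?_
          rw [coeff_C_mul, abs_mul]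
          exact mul_le_mul (hc m hm') (hr m hm') (abs_nonneg _) (by positivity)
      _ = ((2 * d * (2 * d) * W * (M * M') : ℕ) : ℤ) := by
          rw [Finset.sum_const, card_range, nsmul_eq_mul]
          push_cast
          ring
      _ ≤ (((2 * d * (2 * d) * W + 1) * (M * M') : ℕ) : ℤ) := by
          exact_mod_cast Nat.mul_le_mul_right _ (Nat.le_succ _)

end Vale.Agent.P018
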