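import Vale.Agent.P018.DetBound

/-! # P018, module M3: the determinant bound on a short interval of a line. -/

namespace Vale.Agent.P018

open Finset

theorem two_mul_sum_ge {J : Type*} (S : Finset J) (g : J → ℕ) (hg : Set.InjOn g (S : Set J)) :
    S.card * (S.card - 1) ≤ 2 * ∑ j ∈ S, g j := by
  have h1 : ∑ j ∈ S, g j = ∑ m ∈ S.image g, m := by
    rw [Finset.sum_image (fun x hx y hy h => hg hx hy h)]
  have h2 : (S.image g).card = S.card := Finset.card_image_of_injOn hg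
  have h3 := sum_range_id_le_sum (S.image g)
  rw [h2, ← h1] at h3
  have h4 := Finset.sum_range_id_mul_two S.card
  omega

theorem line_inj_sum {J : Type*} [Fintype J] [DecidableEq J] (M : ℕ) (φ : J → Fin M × Fin 2)
    (hφ : Function.Injective φ) :
    ∃ a b : ℕ, a + b = Fintype.card J ∧ (Finset.univ.filter fun j => (φ j).2 = 0).card = a ∧
      a * (a - 1) + b * (b - 1) ≤ 2 * ∑ j, ((φ j).1 : ℕ) := by
  set S0 : Finset J := Finset.univ.filter fun j => (φ j).2 = 0 with hS0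
  set S1 : Finset J := Finset.univ.filter fun j => ¬ (φ j).2 = 0 with hS1
  refine ⟨S0.card, S1.card, ?_, rfl, ?_⟩
  · rw [hS0, hS1, Finset.card_filter_add_card_filter_not]
    exact Finset.card_univ
  · have h0 := two_mul_sum_ge S0 (fun j => ((φ j).1 : ℕ)) (by
      intro x hx y hy hxy
      have hx' : (φ x).2 = 0 := by simpa [hS0] using hx
      have hy' : (φ y).2 = 0 := by simpa [hS0] using hy
      exact hφ (Prod.ext (Fin.ext hxy) (hx'.trans hy'.symm)))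
    have h1 := two_mul_sum_ge S1 (fun j => ((φ j).1 : ℕ)) (by
      intro x hx y hy hxy
      have hx' : ¬ (φ x).2 = 0 := by simpa [hS1] using hx
      have hy' : ¬ (φ y).2 = 0 := by simpa [hS1] using hy
      have h2 : (φ x).2 = (φ y).2 := by
        rcases Fin.exists_fin_two.mp ⟨(φ x).2, rfl⟩ with h | h
        · exact absurd h hx'
        · rcases Fin.exists_fin_two.mp ⟨(φ y).2, rfl⟩ with h' | h'
          · exact absurd h' hy'
          · rw [h, h']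
      exact hφ (Prod.ext (Fin.ext hxy) h2))
    have h2 : ∑ j ∈ S0, ((φ j).1 : ℕ) + ∑ j ∈ S1, ((φ j).1 : ℕ) = ∑ j, ((φ j).1 : ℕ) := by
      rw [hS0, hS1]
      exact Finset.sum_filter_add_sum_filter_not _ _ _
    omega

/-- The exponent bound. -/
theorem line_expo (d k h : ℕ) (hkh : k + h = d) (hk : h + 1 ≤ k) (hh : 1 ≤ h) (δ y : ℝ)
    (hδ : 0 < δ) (hy : y = (2 * h + 1 + δ) / (2 * (d : ℝ) - 1)) (a b : ℕ) (hab : a + b = 2 * d)
    (s : ℕ) (hs : a * (a - 1) + b * (b - 1) ≤ 2 * s) :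
    (d : ℝ) - 2 * d * k + d * a - y * s ≤ - (δ * (d * (d - 1)) / (2 * d - 1)) := by
  have hd2 : 3 ≤ d := by omega
  have hdR : (3 : ℝ) ≤ d := by exact_mod_cast hd2
  have hden : (0 : ℝ) < 2 * d - 1 := by linarith
  have hhR : (1 : ℝ) ≤ h := by exact_mod_cast hh
  have hy0 : 0 < y := by
    rw [hy]
    positivity
  have hs' : (a : ℝ) * (a - 1) + b * (b - 1) ≤ 2 * s := by
    have h1 : (a : ℝ) * (a - 1) = ((a * (a - 1) : ℕ) : ℝ) := by
      rcases Nat.eq_zero_or_pos a with h | h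
      · simp [h]
      · rw [Nat.cast_mul, Nat.cast_sub h, Nat.cast_one]
    have h2 : (b : ℝ) * (b - 1) = ((b * (b - 1) : ℕ) : ℝ) := by
      rcases Nat.eq_zero_or_pos b with h | h
      · simp [h]
      · rw [Nat.cast_mul, Nat.cast_sub h, Nat.cast_one]
    rw [h1, h2]
    exact_mod_cast hs
  have haR : (a : ℝ) = 2 * d - b := by
    have : (a : ℝ) + b = 2 * d := by exact_mod_cast hab
    linarith
  have hkR : (k : ℝ) = d - h := by
    have : (k : ℝ) + h = d := by exact_mod_cast hkh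
    linarith
  have hkh2 : (0 : ℝ) ≤ d - 2 * h - 1 := by
    have : (h : ℝ) + 1 ≤ k := by exact_mod_cast hk
    linarith
  have hyd : y * (2 * d - 1) = 2 * h + 1 + δ := by
    rw [hy]
    field_simp
  have hb0 : (0 : ℝ) ≤ b * (b - 1) := by
    rcases Nat.eq_zero_or_pos b with h | h
    · simp [h]
    · have : (1 : ℝ) ≤ b := by exact_mod_cast h
      nlinarith
  have hbR0 : (0 : ℝ) ≤ b := Nat.cast_nonneg b
  have hyδ : δ / (2 * d - 1) ≤ y := by
    rw [hy]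
    gcongr
    linarith
  -- first step
  have e1 : (d : ℝ) - 2 * d * k + d * a - y * s ≤
      d - 2 * d * k + d * a - y * ((a * (a - 1) + b * (b - 1)) / 2) := by
    have := mul_le_mul_of_nonneg_left hs' hy0.le
    linarith
  refine e1.trans ?_
  have e2 : (d : ℝ) - 2 * d * k + d * a - y * ((a * (a - 1) + b * (b - 1)) / 2) =
      - (d * δ) - b * (d - 2 * h - 1) + b * δ - y * (b * (b - 1)) := by
    rw [haR, hkR]
    linear_combination (-(d : ℝ) + b) * hyd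
  rw [e2]
  have e3 : 0 ≤ b * (d - 2 * h - 1 : ℝ) := mul_nonneg hbR0 hkh2
  have e4 : δ / (2 * d - 1) * (b * (b - 1)) ≤ y * (b * (b - 1)) :=
    mul_le_mul_of_nonneg_right hyδ hb0
  have e5 : - (d * δ) + b * δ - δ / (2 * d - 1) * (b * (b - 1)) ≤
      - (δ * (d * (d - 1)) / (2 * d - 1)) := by
    obtain ⟨w, hw⟩ : ∃ w : ℝ, w = δ / (2 * d - 1) := ⟨_, rfl⟩
    have hw0 : 0 < w := by
      rw [hw]
      positivity
    have hw1 : w * (2 * d - 1) = δ := by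
      rw [hw]
      exact div_mul_cancel₀ _ hden.ne'
    have hw2 : δ * (d * (d - 1)) / (2 * d - 1) = w * (d * (d - 1)) := by
      rw [hw]
      ring
    rw [hw2, ← hw, ← sub_nonneg]
    have : - (w * (d * (d - 1))) - (- (d * δ) + b * δ - w * (b * (b - 1))) =
        w * ((d - b) ^ 2) := by
      linear_combination (-(d : ℝ) + b) * hw1
    rw [this]
    positivity
  linarith

/-- The matrix expansion of the rows. -/
theorem line_row (D : ℕ) (v n pk T : ℝ) (hT : T ≠ 0) (l : Fin 2) (G G' : ℕ → ℝ) :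
    ∑ t : Fin (D + 2) × Fin 2,
      (pk * (if t.2 = 0 then n else 1) * v ^ (t.1 : ℕ) * (T ^ D / T ^ (t.1 : ℕ))) *
      (if (l : ℕ) ≤ t.1 ∧ (t.1 : ℕ) - l ≤ D then
        (if t.2 = 0 then G (t.1 - l) else - G' (t.1 - l)) / (T ^ D / T ^ (t.1 : ℕ)) / T ^ (l : ℕ)
        else 0) =
    (v ^ (l : ℕ) * (pk * ∑ i ∈ Finset.range (D + 1), v ^ i * (n * G i - G' i))) / T ^ (l : ℕ) := by
  rw [Fintype.sum_prod_type]
  have h1 : ∀ m : Fin (D + 2), ∑ s : Fin 2,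
      (pk * (if s = 0 then n else 1) * v ^ (m : ℕ) * (T ^ D / T ^ (m : ℕ))) *
      (if (l : ℕ) ≤ m ∧ (m : ℕ) - l ≤ D then
        (if s = 0 then G (m - l) else - G' (m - l)) / (T ^ D / T ^ (m : ℕ)) / T ^ (l : ℕ)
        else 0) =
      (fun m : ℕ => if (l : ℕ) ≤ m ∧ (m : ℕ) - l ≤ D then
        pk * v ^ m * (n * G (m - l) - G' (m - l)) / T ^ (l : ℕ) else 0) m := by
    intro m
    rw [Fin.sum_univ_two]
    by_cases h : (l : ℕ) ≤ m ∧ (m : ℕ) - l ≤ D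
    · simp only [if_pos h, if_true]
      have : (1 : Fin 2) ≠ 0 := by decide
      simp only [if_neg this]
      field_simp
      ring
    · simp only [if_neg h, mul_zero, add_zero]
  rw [Finset.sum_congr rfl (fun m _ => h1 m)]
  rw [Fin.sum_univ_eq_sum_range (fun m : ℕ => if (l : ℕ) ≤ m ∧ (m : ℕ) - l ≤ D then
        pk * v ^ m * (n * G (m - l) - G' (m - l)) / T ^ (l : ℕ) else 0) (D + 2)]
  rcases Fin.exists_fin_two.mp ⟨l, rfl⟩ with h | h
  · subst h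
    rw [Finset.sum_range_succ]
    have h2 : ¬ (((0 : Fin 2) : ℕ) ≤ D + 1 ∧ D + 1 - ((0 : Fin 2) : ℕ) ≤ D) := by
      simp
    rw [if_neg h2, add_zero, Finset.mul_sum, Finset.mul_sum, Finset.sum_div]
    refine Finset.sum_congr rfl fun i hi => ?_
    have hi' : i < D + 1 := Finset.mem_range.mp hi
    have h3 : (((0 : Fin 2) : ℕ) ≤ i ∧ i - ((0 : Fin 2) : ℕ) ≤ D) := by
      simp
      omega
    rw [if_pos h3]
    simp
    ring
  · subst h
    rw [Finset.sum_range_succ']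
    have h2 : ¬ (((1 : Fin 2) : ℕ) ≤ 0 ∧ 0 - ((1 : Fin 2) : ℕ) ≤ D) := by
      simp
    rw [if_neg h2, add_zero, Finset.mul_sum, Finset.mul_sum, Finset.sum_div]
    refine Finset.sum_congr rfl fun i hi => ?_
    have hi' : i < D + 1 := Finset.mem_range.mp hi
    have h3 : (((1 : Fin 2) : ℕ) ≤ i + 1 ∧ i + 1 - ((1 : Fin 2) : ℕ) ≤ D) := by
      simp
      omega
    rw [if_pos h3]
    simp
    ring

theorem exists_small_rpow (K e : ℝ) (he : 0 < e) :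
    ∃ T0 : ℕ, ∀ T : ℕ, T0 ≤ T → K * (T : ℝ) ^ (-e) < 1 := by
  have h1 : Filter.Tendsto (fun T : ℕ => K * (T : ℝ) ^ (-e)) Filter.atTop (nhds (K * 0)) :=
    ((tendsto_rpow_neg_atTop he).comp tendsto_natCast_atTop_atTop).const_mul K
  rw [mul_zero] at h1
  have h2 := h1.eventually (gt_mem_nhds (zero_lt_one (α := ℝ)))
  exact Filter.eventually_atTop.mp h2

/-- The size of the elementary functions. -/
theorem line_size (d k : ℕ) (hd : 1 ≤ d) (C y : ℝ) (hC : 1 ≤ C) (T : ℕ) (hT : 1 ≤ T) (X : ℝ)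
    (hX1 : 1 ≤ X) (v n : ℝ) (p : ℕ) (hv : |v| ≤ (T : ℝ) ^ (1 - y)) (hn : |n| ≤ X)
    (hp : (T : ℝ) ^ d ≤ C * p) (m : ℕ) (s : Fin 2) :
    |((p : ℝ) ^ k)⁻¹ * (if s = 0 then n else 1) * v ^ m * ((T : ℝ) ^ (k * (d - 1)) / (T : ℝ) ^ m)| ≤
      C ^ k * (if s = 0 then X else 1) * (T : ℝ) ^ (- (k : ℝ) - y * m) := by
  have hTR : (0 : ℝ) < T := by exact_mod_cast hT
  have hC0 : 0 < C := by linarith
  have hTd : (0 : ℝ) < (T : ℝ) ^ d := pow_pos hTR d
  have hp0 : (0 : ℝ) < p := by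
    by_contra hcon
    have : (p : ℝ) = 0 := le_antisymm (not_lt.mp hcon) (Nat.cast_nonneg p)
    rw [this, mul_zero] at hp
    linarith
  have h1 : |((p : ℝ) ^ k)⁻¹| ≤ C ^ k * ((T : ℝ) ^ (d * k))⁻¹ := by
    rw [abs_of_nonneg (by positivity), pow_mul]
    rw [← div_eq_mul_inv, ← div_pow, ← inv_pow]
    refine pow_le_pow_left₀ (by positivity) ?_ k
    rw [inv_le_comm₀ hp0 (by positivity), inv_div]
    rw [div_le_iff₀ hC0]
    linarith
  have h2 : |(if s = 0 then n else 1 : ℝ)| ≤ (if s = 0 then X else 1) := by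
    split_ifs
    · exact hn
    · simp
  have h3 : |v ^ m| ≤ (T : ℝ) ^ ((1 - y) * m) := by
    rw [abs_pow, Real.rpow_mul hTR.le, Real.rpow_natCast]
    exact pow_le_pow_left₀ (abs_nonneg _) hv m
  have h20 : (0 : ℝ) ≤ (if s = 0 then X else 1) := by
    split_ifs <;> linarith
  rw [abs_mul, abs_mul, abs_mul, abs_of_nonneg (a := (T : ℝ) ^ (k * (d - 1)) / (T : ℝ) ^ m)
    (by positivity)]
  have h4 : ((T : ℝ) ^ (d * k))⁻¹ * (T : ℝ) ^ ((1 - y) * m) *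
      ((T : ℝ) ^ (k * (d - 1)) / (T : ℝ) ^ m) = (T : ℝ) ^ (- (k : ℝ) - y * m) := by
    rw [← Real.rpow_natCast _ (d * k), ← Real.rpow_neg hTR.le, ← Real.rpow_natCast _ (k * (d - 1)),
      ← Real.rpow_natCast _ m, ← Real.rpow_sub hTR, ← Real.rpow_add hTR, ← Real.rpow_add hTR]
    congr 1
    rw [Nat.cast_mul, Nat.cast_mul, Nat.cast_sub hd]
    push_cast
    ring
  calc |((p : ℝ) ^ k)⁻¹| * |(if s = 0 then n else 1 : ℝ)| * |v ^ m| *
        ((T : ℝ) ^ (k * (d - 1)) / (T : ℝ) ^ m)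
      ≤ (C ^ k * ((T : ℝ) ^ (d * k))⁻¹) * (if s = 0 then X else 1) * (T : ℝ) ^ ((1 - y) * m) *
        ((T : ℝ) ^ (k * (d - 1)) / (T : ℝ) ^ m) := by
        gcongr
    _ = C ^ k * (if s = 0 then X else 1) * (((T : ℝ) ^ (d * k))⁻¹ * (T : ℝ) ^ ((1 - y) * m) *
        ((T : ℝ) ^ (k * (d - 1)) / (T : ℝ) ^ m)) := by ring
    _ = _ := by rw [h4]

theorem line_coeff (D : ℕ) (C : ℝ) (hC : 1 ≤ C) (T : ℕ) (hT : 1 ≤ T) (l : Fin 2)
    (G G' : ℕ → ℝ) (hG : ∀ i, i ≤ D → |G i| ≤ C * (T : ℝ) ^ (D - i) ∧ |G' i| ≤ C * (T : ℝ) ^ (D - i))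
    (t : Fin (D + 2) × Fin 2) :
    |(if (l : ℕ) ≤ t.1 ∧ (t.1 : ℕ) - l ≤ D then
        (if t.2 = 0 then G (t.1 - l) else - G' (t.1 - l)) / ((T : ℝ) ^ D / (T : ℝ) ^ (t.1 : ℕ)) /
          (T : ℝ) ^ (l : ℕ)
        else 0)| ≤ C := by
  have hTR : (0 : ℝ) < T := by exact_mod_cast hT
  split_ifs with h1 h2
  · obtain ⟨h1a, h1b⟩ := h1
    rw [abs_div, abs_div, abs_of_nonneg (a := (T : ℝ) ^ D / (T : ℝ) ^ (t.1 : ℕ)) (by positivity),
      abs_of_nonneg (a := (T : ℝ) ^ (l : ℕ)) (by positivity), div_div, div_le_iff₀ (by positivity)]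
    refine (hG _ h1b).1.trans (le_of_eq ?_)
    congr 1
    obtain ⟨e, he⟩ := Nat.exists_eq_add_of_le h1b
    have h3 : D - ((t.1 : ℕ) - l) = e := by omega
    have h4 : (T : ℝ) ^ D = (T : ℝ) ^ ((t.1 : ℕ) - l) * (T : ℝ) ^ e := by rw [← pow_add, ← he]
    have h5 : (T : ℝ) ^ (t.1 : ℕ) = (T : ℝ) ^ ((t.1 : ℕ) - l) * (T : ℝ) ^ (l : ℕ) := by
      rw [← pow_add]
      congr 1
      omega
    rw [h3, h4, h5]
    field_simp
  · obtain ⟨h1a, h1b⟩ := h1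
    rw [abs_div, abs_div, abs_of_nonneg (a := (T : ℝ) ^ D / (T : ℝ) ^ (t.1 : ℕ)) (by positivity),
      abs_of_nonneg (a := (T : ℝ) ^ (l : ℕ)) (by positivity), div_div, div_le_iff₀ (by positivity),
      abs_neg]
    refine (hG _ h1b).2.trans (le_of_eq ?_)
    congr 1
    obtain ⟨e, he⟩ := Nat.exists_eq_add_of_le h1b
    have h3 : D - ((t.1 : ℕ) - l) = e := by omega
    have h4 : (T : ℝ) ^ D = (T : ℝ) ^ ((t.1 : ℕ) - l) * (T : ℝ) ^ e := by rw [← pow_add, ← he]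
    have h5 : (T : ℝ) ^ (t.1 : ℕ) = (T : ℝ) ^ ((t.1 : ℕ) - l) * (T : ℝ) ^ (l : ℕ) := by
      rw [← pow_add]
      congr 1
      omega
    rw [h3, h4, h5]
    field_simp
  · rw [abs_zero]
    linarith

/-- M3. The determinant bound on a short interval of a line. Here `y = (2h+1+δ)/(2d-1)`. -/
theorem line_det (d k h : ℕ) (hkh : k + h = d) (hk : h + 1 ≤ k) (hh : 1 ≤ h) (C δ : ℝ) (hC : 1 ≤ C)
    (hδ : 0 < δ) :
    ∃ T0 : ℕ, ∀ T : ℕ, T0 ≤ T → ∀ X : ℝ, 1 ≤ X → X ≤ C * (T : ℝ) ^ d →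
      ∀ Γ Γ' : ℕ → Fin d → ℤ,
      (∀ i j, i ≤ k * (d - 1) → |(Γ i j : ℝ)| ≤ C * (T : ℝ) ^ (k * (d - 1) - i) ∧
        |(Γ' i j : ℝ)| ≤ C * (T : ℝ) ^ (k * (d - 1) - i)) →
      ∀ (v n : Fin 2 × Fin d → ℤ) (p : Fin 2 × Fin d → ℕ) (a : Fin 2 × Fin d → Fin d → ℤ),
      (∀ r, |(v r : ℝ)| ≤ (T : ℝ) ^ (1 - (2 * h + 1 + δ) / (2 * (d : ℝ) - 1)) ∧
        |(n r : ℝ)| ≤ X ∧ (T : ℝ) ^ d ≤ C * p r ∧
        ∀ j, (p r : ℤ) ^ k * a r j =
          ∑ i ∈ Finset.range (k * (d - 1) + 1), v r ^ i * (n r * Γ i j - Γ' i j)) →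
      (Matrix.of fun r (c : Fin 2 × Fin d) => v r ^ (c.1 : ℕ) * a r c.2).det = 0 := by
  have hd1 : 1 ≤ d := by omega
  have hd2 : 2 ≤ d := by omega
  have hdR : (2 : ℝ) ≤ d := by exact_mod_cast hd2
  obtain ⟨y, hy⟩ : ∃ y : ℝ, y = (2 * h + 1 + δ) / (2 * (d : ℝ) - 1) := ⟨_, rfl⟩
  obtain ⟨e, he⟩ : ∃ e : ℝ, e = δ * (d * (d - 1)) / (2 * d - 1) := ⟨_, rfl⟩
  have he0 : 0 < e := by
    rw [he]
    have : (0 : ℝ) < 2 * d - 1 := by linarith
    have h2 : (0 : ℝ) < d - 1 := by linarith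
    have h3 : (0 : ℝ) < d := by linarith
    positivity
  set D : ℕ := k * (d - 1) with hD
  set K : ℝ := (((D + 2) * 2 : ℕ) : ℝ) ^ (2 * d) * (C ^ (2 * d) * ((2 * d).factorial *
    (C ^ (2 * d * k) * C ^ (2 * d)))) with hK
  obtain ⟨T1, hT1⟩ := exists_small_rpow K e he0
  refine ⟨max T1 1, fun T hT X hX1 hX Γ Γ' hΓ v n p a hs => ?_⟩
  have hTpos : 1 ≤ T := (le_max_right _ _).trans hT
  have hTR : (0 : ℝ) < T := by exact_mod_cast hTpos
  have hTR1 : (1 : ℝ) ≤ T := by exact_mod_cast hTpos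
  have hC0 : 0 < C := by linarith
  rw [← hy] at hs
  -- the real matrix
  have hJ : Fintype.card (Fin 2 × Fin d) = 2 * d := by simp
  have hp0 : ∀ r, (0 : ℝ) < p r := by
    intro r
    have h1 := (hs r).2.2.1
    have hTd : (0 : ℝ) < (T : ℝ) ^ d := pow_pos hTR d
    by_contra hcon
    have : (p r : ℝ) = 0 := le_antisymm (not_lt.mp hcon) (Nat.cast_nonneg _)
    rw [this, mul_zero] at h1
    linarith
  have hcast : (((Matrix.of fun r (c : Fin 2 × Fin d) => v r ^ (c.1 : ℕ) * a r c.2).det : ℤ) : ℝ) =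
      (Matrix.of fun r (c : Fin 2 × Fin d) => (v r : ℝ) ^ (c.1 : ℕ) * (a r c.2 : ℝ)).det := by
    have h1 := (Int.castRingHom ℝ).map_det
      (Matrix.of fun r (c : Fin 2 × Fin d) => v r ^ (c.1 : ℕ) * a r c.2)
    rw [eq_intCast] at h1
    rw [h1]
    congr 1
    ext r c
    simp
  have hrow : (Matrix.of fun r (c : Fin 2 × Fin d) => (v r : ℝ) ^ (c.1 : ℕ) * (a r c.2 : ℝ)) =
      Matrix.of fun r (c : Fin 2 × Fin d) => (fun c : Fin 2 × Fin d => (T : ℝ) ^ (c.1 : ℕ)) c *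
        (Matrix.of fun r (c : Fin 2 × Fin d) => ∑ t : Fin (D + 2) × Fin 2,
      (((p r : ℝ) ^ k)⁻¹ * (if t.2 = 0 then (n r : ℝ) else 1) * (v r : ℝ) ^ (t.1 : ℕ) *
        ((T : ℝ) ^ D / (T : ℝ) ^ (t.1 : ℕ))) *
      (if (c.1 : ℕ) ≤ t.1 ∧ (t.1 : ℕ) - c.1 ≤ D then
        (if t.2 = 0 then (Γ (t.1 - c.1) c.2 : ℝ) else - (Γ' (t.1 - c.1) c.2 : ℝ)) /
          ((T : ℝ) ^ D / (T : ℝ) ^ (t.1 : ℕ)) / (T : ℝ) ^ (c.1 : ℕ)
        else 0)) r c := by
    ext r c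
    simp only [Matrix.of_apply]
    rw [line_row D (v r : ℝ) (n r : ℝ) (((p r : ℝ) ^ k)⁻¹) (T : ℝ) hTR.ne' c.1
      (fun i => (Γ i c.2 : ℝ)) (fun i => (Γ' i c.2 : ℝ))]
    have h1 : ∑ i ∈ Finset.range (D + 1), (v r : ℝ) ^ i * ((n r : ℝ) * (Γ i c.2 : ℝ) -
        (Γ' i c.2 : ℝ)) = (p r : ℝ) ^ k * a r c.2 := by
      have := (hs r).2.2.2 c.2
      have h2 : (((p r : ℤ) ^ k * a r c.2 : ℤ) : ℝ) =
        ((∑ i ∈ Finset.range (D + 1), v r ^ i * (n r * Γ i c.2 - Γ' i c.2) : ℤ) : ℝ) := by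
        rw [this]
      push_cast at h2
      rw [h2]
    rw [h1]
    have hpk : (p r : ℝ) ^ k ≠ 0 := pow_ne_zero _ (hp0 r).ne'
    field_simp
  have hprodT : ∏ c : Fin 2 × Fin d, (T : ℝ) ^ (c.1 : ℕ) = (T : ℝ) ^ d := by
    rw [Fintype.prod_prod_type, Fin.prod_univ_two]
    simp
  have hbound := det_bound (J := Fin 2 × Fin d) (T := Fin (D + 2) × Fin 2)
    (fun r t => (((p r : ℝ) ^ k)⁻¹ * (if t.2 = 0 then (n r : ℝ) else 1) * (v r : ℝ) ^ (t.1 : ℕ) *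
        ((T : ℝ) ^ D / (T : ℝ) ^ (t.1 : ℕ))))
    (fun t c => (if (c.1 : ℕ) ≤ t.1 ∧ (t.1 : ℕ) - c.1 ≤ D then
        (if t.2 = 0 then (Γ (t.1 - c.1) c.2 : ℝ) else - (Γ' (t.1 - c.1) c.2 : ℝ)) /
          ((T : ℝ) ^ D / (T : ℝ) ^ (t.1 : ℕ)) / (T : ℝ) ^ (c.1 : ℕ)
        else 0))
    (fun t => C ^ k * (if t.2 = 0 then X else 1) * (T : ℝ) ^ (- (k : ℝ) - y * (t.1 : ℕ)))
    C (C ^ (2 * d * k) * C ^ (2 * d) * (T : ℝ) ^ (- e - d))
    (fun r t => line_size d k hd1 C y hC T hTpos X hX1 _ _ _ (hs r).1 (hs r).2.1 (hs r).2.2.1 _ _)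
    (fun t c => line_coeff D C hC T hTpos c.1 (fun i => (Γ i c.2 : ℝ)) (fun i => (Γ' i c.2 : ℝ))
      (fun i hi => hΓ i c.2 hi) t)
    (by positivity)
    (by
      intro φ hφ
      obtain ⟨a', b', hab, ha', hsum⟩ := line_inj_sum (D + 2) φ hφ
      rw [hJ] at hab
      obtain ⟨s, hs'⟩ : ∃ s : ℕ, s = ∑ j, ((φ j).1 : ℕ) := ⟨_, rfl⟩
      rw [← hs'] at hsum
      have hexp := line_expo d k h hkh hk hh δ y hδ hy a' b' hab s hsum
      rw [← he] at hexp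
      rw [Finset.prod_mul_distrib, Finset.prod_mul_distrib, Finset.prod_const, Finset.card_univ, hJ]
      rw [Finset.prod_ite, Finset.prod_const, Finset.prod_const_one, mul_one, ha']
      rw [← Real.rpow_sum_of_pos hTR]
      have hXa : X ^ a' ≤ C ^ (2 * d) * (T : ℝ) ^ ((d : ℝ) * a') := by
        calc X ^ a' ≤ (C * (T : ℝ) ^ d) ^ a' := pow_le_pow_left₀ (by linarith) hX _
          _ = C ^ a' * (T : ℝ) ^ ((d : ℝ) * a') := by
              rw [mul_pow, Real.rpow_mul hTR.le, Real.rpow_natCast, Real.rpow_natCast]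
          _ ≤ _ := by
              have h1 : C ^ a' ≤ C ^ (2 * d) := pow_le_pow_right₀ hC (by omega)
              gcongr
      have hE : ∑ j, (- (k : ℝ) - y * (((φ j).1 : ℕ) : ℝ)) = - (2 * d * k) - y * s := by
        rw [Finset.sum_sub_distrib, Finset.sum_const, Finset.card_univ, hJ, ← Finset.mul_sum, hs']
        push_cast
        ring
      rw [hE]
      calc (C ^ k) ^ (2 * d) * X ^ a' * (T : ℝ) ^ (- (2 * d * k) - y * s : ℝ)
          ≤ (C ^ k) ^ (2 * d) * (C ^ (2 * d) * (T : ℝ) ^ ((d : ℝ) * a')) *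
            (T : ℝ) ^ (- (2 * d * k) - y * s : ℝ) := by gcongr
        _ = C ^ (2 * d * k) * C ^ (2 * d) * (T : ℝ) ^ ((d : ℝ) * a' + (- (2 * d * k) - y * s)) := by
            rw [Real.rpow_add hTR, ← pow_mul]
            ring
        _ ≤ C ^ (2 * d * k) * C ^ (2 * d) * (T : ℝ) ^ (- e - d) := by
            have h1 : (T : ℝ) ^ ((d : ℝ) * a' + (- (2 * d * k) - y * s)) ≤ (T : ℝ) ^ (- e - d) :=
              Real.rpow_le_rpow_of_exponent_le hTR1 (by linarith)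
            gcongr)
  have habs : |(Matrix.of fun r (c : Fin 2 × Fin d) => (v r : ℝ) ^ (c.1 : ℕ) * (a r c.2 : ℝ)).det| <
      1 := by
    rw [hrow, Matrix.det_mul_row, hprodT, abs_mul, abs_of_nonneg (a := (T : ℝ) ^ d) (by positivity)]
    calc (T : ℝ) ^ d * _ ≤ (T : ℝ) ^ d * ((Fintype.card (Fin (D + 2) × Fin 2) : ℝ) ^
          (Fintype.card (Fin 2 × Fin d)) * (C ^ (Fintype.card (Fin 2 × Fin d)) *
          ((Fintype.card (Fin 2 × Fin d)).factorial *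
          (C ^ (2 * d * k) * C ^ (2 * d) * (T : ℝ) ^ (- e - d))))) := by
          exact mul_le_mul_of_nonneg_left hbound (by positivity)
      _ = K * (T : ℝ) ^ (-e) := by
          have h1 : (T : ℝ) ^ (-e) = (T : ℝ) ^ d * (T : ℝ) ^ (- e - d) := by
            rw [← Real.rpow_natCast, ← Real.rpow_add hTR]
            congr 1
            ring
          rw [h1, hK, hJ]
          have h2 : Fintype.card (Fin (D + 2) × Fin 2) = (D + 2) * 2 := by simp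
          rw [h2]
          ring
      _ < 1 := hT1 T ((le_max_left _ _).trans hT)
  rw [← hcast] at habs
  have hz : |(Matrix.of fun r (c : Fin 2 × Fin d) => v r ^ (c.1 : ℕ) * a r c.2).det| < 1 := by
    exact_mod_cast habs
  exact Int.abs_lt_one_iff.mp hz

end Vale.Agent.P018
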