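import Vale.Agent.P018.LineBd

/-! # P018, Module M7, part 1: coordinates in `ℚ[x]/(f)` and linear functionals. -/

namespace Vale.Agent.P018

open Polynomial Finset

theorem natDegree_mapQ (f : ℤ[X]) : (f.map (Int.castRingHom ℚ)).natDegree = f.natDegree :=
  natDegree_map_eq_of_injective Int.cast_injective _

theorem evT_inj (f : ℤ[X]) (a : ℤ[X]) (ha : a.natDegree < f.natDegree)
    (h : evT f a = 0) : a = 0 := by
  rw [evT_eq_mk, AdjoinRoot.mk_eq_zero] at h
  by_contra ha0
  have h1 : a.map (Int.castRingHom ℚ) ≠ 0 :=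
    (Polynomial.map_ne_zero_iff Int.cast_injective).2 ha0
  have h2 := natDegree_le_of_dvd h h1
  rw [natDegree_mapQ, natDegree_mapQ] at h2
  omega

/-- the linear functional on `ℚ[x]/(f)` with given values on `1, θ, …, θ^(d-1)`. -/
noncomputable def lamOf (f : ℤ[X]) (hm : f.Monic) (L : Fin f.natDegree → ℚ) : EE f →ₗ[ℚ] ℚ :=
  (∑ j : Fin f.natDegree, L j • Polynomial.lcoeff ℚ (j : ℕ)) ∘ₗ
    AdjoinRoot.modByMonicHom (hm.map (Int.castRingHom ℚ))

theorem lamOf_evT (f : ℤ[X]) (hm : f.Monic) (L : Fin f.natDegree → ℚ) (a : ℤ[X])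
    (ha : a.natDegree < f.natDegree) :
    lamOf f hm L (evT f a) = ∑ j : Fin f.natDegree, L j * ((a.coeff j : ℤ) : ℚ) := by
  unfold lamOf
  rw [LinearMap.comp_apply, evT_eq_mk, AdjoinRoot.modByMonicHom_mk]
  have h1 : (a.map (Int.castRingHom ℚ)) %ₘ (f.map (Int.castRingHom ℚ)) =
      a.map (Int.castRingHom ℚ) := by
    rw [modByMonic_eq_self_iff (hm.map _)]
    by_cases ha0 : a.map (Int.castRingHom ℚ) = 0
    · rw [ha0, degree_zero, bot_lt_iff_ne_bot]
      intro h
      exact (hm.map (Int.castRingHom ℚ)).ne_zero (degree_eq_bot.1 h)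
    · rw [degree_eq_natDegree ha0, degree_eq_natDegree (hm.map (Int.castRingHom ℚ)).ne_zero,
        natDegree_mapQ, natDegree_mapQ]
      exact_mod_cast ha
  rw [h1]
  simp [LinearMap.sum_apply]

theorem lamOf_ne_zero (f : ℤ[X]) (hm : f.Monic) (L : Fin f.natDegree → ℚ) (hL : L ≠ 0) :
    lamOf f hm L ≠ 0 := by
  intro h
  apply hL
  funext j
  have h1 := lamOf_evT f hm L (X ^ (j : ℕ)) (by rw [natDegree_X_pow]; exact j.2)
  rw [h] at h1
  simp only [LinearMap.zero_apply, coeff_X_pow] at h1
  rw [Finset.sum_eq_single j] at h1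
  · simpa using h1.symm
  · intro b _ hb
    have : (b : ℕ) ≠ (j : ℕ) := fun h => hb (Fin.ext h)
    simp [this]
  · simp

theorem extL_eval {E : Type*} [Field E] [Algebra ℚ E] (lam : E →ₗ[ℚ] ℚ) (q : E[X]) (t : ℚ) :
    (extL lam q).eval t = lam (q.eval (algebraMap ℚ E t)) := by
  unfold extL
  rw [eval_finsetSum, eval_eq_sum, Polynomial.sum, map_sum]
  refine sum_congr rfl fun i _ => ?_
  rw [eval_monomial, ← map_pow, mul_comm (q.coeff i), ← Algebra.smul_def, map_smul, smul_eq_mul,
    mul_comm]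

/-- If all `m × m` determinants vanish, the vectors satisfy a linear relation. -/
theorem li_exists_relation {I : Type*} [Fintype I] [DecidableEq I] {Z : Type*} (S : Set Z)
    (w : Z → I → ℚ) (hw : ∀ r : I → Z, (∀ i, r i ∈ S) → (Matrix.of fun i j => w (r i) j).det = 0) :
    ∃ L : I → ℚ, L ≠ 0 ∧ ∀ z ∈ S, ∑ j, L j * w z j = 0 := by
  classical
  by_cases htop : Submodule.span ℚ (w '' S) = ⊤
  · exfalso
    obtain ⟨g, hg, -, hli⟩ := Submodule.exists_fun_fin_finrank_span_eq ℚ (w '' S)
    have hcard : Fintype.card I = Fintype.card (Fin (Module.finrank ℚ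
        (Submodule.span ℚ (w '' S)))) := by
      rw [Fintype.card_fin, htop, finrank_top, Module.finrank_fintype_fun_eq_card]
    let e : I ≃ Fin (Module.finrank ℚ (Submodule.span ℚ (w '' S))) :=
      Fintype.equivOfCardEq hcard
    choose r hrS hr using fun i : I => hg (e i)
    have h1 := hw r hrS
    have h2 : (Matrix.of fun i j => w (r i) j) = Matrix.of (fun i => g (e i)) := by
      ext i j
      show w (r i) j = g (e i) j
      rw [hr i]
    rw [h2] at h1
    have h3 : LinearIndependent ℚ (Matrix.of (fun i => g (e i))).row :=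
      hli.comp e e.injective
    rw [Matrix.linearIndependent_rows_iff_isUnit, Matrix.isUnit_iff_isUnit_det, h1] at h3
    exact not_isUnit_zero h3
  · obtain ⟨φ, hφ0, hφ⟩ := Submodule.exists_le_ker_of_lt_top _ (lt_top_iff_ne_top.2 htop)
    refine ⟨fun j => φ (Pi.single j 1), ?_, ?_⟩
    · intro h
      apply hφ0
      apply LinearMap.pi_ext'
      intro i
      ext
      simpa using congrFun h i
    · intro z hz
      have h1 : φ (w z) = 0 := hφ (Submodule.subset_span ⟨z, hz, rfl⟩)
      rw [← h1, LinearMap.pi_apply_eq_sum_univ φ (w z)]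
      refine sum_congr rfl fun j _ => ?_
      rw [smul_eq_mul, mul_comm]
      congr 1
      refine congrArg φ ?_
      funext i
      rw [Pi.single_apply]
      simp only [eq_comm]

end Vale.Agent.P018
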