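import Vale.Agent.P018.LineInt1
import Vale.Agent.P018.SmallCurve

/-! # P018, Module M7, part 2: the points of a line. -/

namespace Vale.Agent.P018

open Polynomial Finset

theorem charZero_EE (f : ℤ[X]) (hirr : Irreducible (f.map (Int.castRingHom ℚ))) :
    CharZero (EE f) := by
  have : Fact (Irreducible (f.map (Int.castRingHom ℚ))) := ⟨hirr⟩
  exact algebraRat.charZero _

theorem line_point (f : ℤ[X]) (hirr : Irreducible (f.map (Int.castRingHom ℚ))) (k : ℕ)
    (b a : ℤ[X]) (c t n : ℤ) (p : ℕ) (N : ℤ[X]) (B : (EE f)[X])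
    (hB : (X + C (evT f b)) * B = N.map (Int.castRingHom (EE f))) (hN : N.eval t = c * p)
    (hc : c ≠ 0)
    (h : (c : EE f) ^ k * ((n : EE f) - th f) = evT f (b + C t) ^ k * evT f a) :
    ((n : EE f) - th f) * (B ^ k).eval (t : EE f) = (p : EE f) ^ k * evT f a := by
  have : Fact (Irreducible (f.map (Int.castRingHom ℚ))) := ⟨hirr⟩
  have : CharZero (EE f) := charZero_EE f hirr
  have hc' : (c : EE f) ^ k ≠ 0 := pow_ne_zero _ (Int.cast_ne_zero.2 hc)
  have h1 : evT f (b + C t) * B.eval (t : EE f) = (c : EE f) * (p : EE f) := by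
    have h2 := congrArg (fun g => g.eval (t : EE f)) hB
    simp only [eval_mul, eval_add, eval_X, eval_C] at h2
    rw [eval_intCast_map, Int.cast_id, hN] at h2
    rw [map_add, evT_C, add_comm, h2]
    simp
  apply mul_left_cancel₀ hc'
  rw [eval_pow]
  calc (c : EE f) ^ k * (((n : EE f) - th f) * (B.eval (t : EE f)) ^ k)
      = ((c : EE f) ^ k * ((n : EE f) - th f)) * (B.eval (t : EE f)) ^ k := by ring
    _ = (evT f (b + C t) * B.eval (t : EE f)) ^ k * evT f a := by rw [h]; ring
    _ = (c : EE f) ^ k * ((p : EE f) ^ k * evT f a) := by rw [h1]; ring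

theorem coeff_identity (f : ℤ[X]) (hd : 0 < f.natDegree) (m : ℕ) (a : ℤ[X]) (v n P : ℤ)
    (Γ Γ' : ℕ → ℤ[X]) (ha : a.natDegree < f.natDegree)
    (hΓ : ∀ i, (Γ i).natDegree < f.natDegree ∧ (Γ' i).natDegree < f.natDegree)
    (hth : ∀ i, th f * evT f (Γ i) = evT f (Γ' i))
    (h : ((n : EE f) - th f) * ∑ i ∈ range m, evT f (Γ i) * (v : EE f) ^ i =
      (P : EE f) * evT f a) (j : ℕ) :
    P * a.coeff j = ∑ i ∈ range m, v ^ i * (n * (Γ i).coeff j - (Γ' i).coeff j) := by
  have h1 : evT f (C P * a - ∑ i ∈ range m, C (v ^ i) * (C n * Γ i - Γ' i)) = 0 := by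
    rw [map_sub, map_mul, evT_C, map_sum, ← h, mul_sum, ← sum_sub_distrib]
    apply sum_eq_zero
    intro i _
    rw [map_mul, map_sub, map_mul, evT_C, evT_C, ← hth i]
    push_cast
    ring
  have h2 : (C P * a - ∑ i ∈ range m, C (v ^ i) * (C n * Γ i - Γ' i)).natDegree <
      f.natDegree := by
    refine lt_of_le_of_lt (natDegree_sub_le _ _) (max_lt ?_ ?_)
    · exact lt_of_le_of_lt (natDegree_C_mul_le _ _) ha
    · refine lt_of_le_of_lt (natDegree_sum_le_of_forall_le (n := f.natDegree - 1) _ _ ?_)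
        (by omega)
      intro i _
      refine (natDegree_C_mul_le _ _).trans ((natDegree_sub_le _ _).trans (max_le ?_ ?_))
      · exact (natDegree_C_mul_le _ _).trans (by have := (hΓ i).1; omega)
      · have := (hΓ i).2; omega
  have h3 := evT_inj f _ h2 h1
  have h4 := congrArg (fun g => g.coeff j) h3
  simp only [coeff_sub, coeff_C_mul, finsetSum_coeff, coeff_zero] at h4
  linarith

/-- the number of `n` in a box with `p ∣ f(n)`. -/
theorem card_roots_box (f : ℤ[X]) (hm : f.Monic) {p : ℕ} (hp : p.Prime) (M : ℕ) (S : Finset ℤ)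
    (hS : ∀ n ∈ S, |n| ≤ M * p ∧ (p : ℤ) ∣ f.eval n) : S.card ≤ f.natDegree * (2 * M + 1) := by
  classical
  have hp0 : (0 : ℤ) < p := by exact_mod_cast hp.pos
  have hfib : ∀ b ∈ S.image (fun n => n / (p : ℤ)),
      (S.filter fun n => n / (p : ℤ) = b).card ≤ f.natDegree := by
    intro b _
    have hinj : Set.InjOn (fun n : ℤ => n % (p : ℤ))
        ((S.filter fun n => n / (p : ℤ) = b : Finset ℤ) : Set ℤ) := by
      intro x hx y hy hxy
      simp only [coe_filter, Set.mem_ofPred_eq] at hx hy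
      have h1 := Int.mul_ediv_add_emod x p
      have h2 := Int.mul_ediv_add_emod y p
      simp only at hxy
      rw [hx.2] at h1
      rw [hy.2] at h2
      rw [← h1, ← h2, hxy]
    rw [← card_image_of_injOn hinj]
    refine card_roots_mod_le f hm.ne_zero hp ?_ _ ?_
    · rw [hm.leadingCoeff]
      simpa using hp.one_lt
    · intro x hx
      obtain ⟨n, hn, rfl⟩ := mem_image.1 hx
      refine ⟨Int.emod_nonneg _ hp0.ne', Int.emod_lt_of_pos _ hp0, ?_⟩
      have h1 := (hS n (mem_filter.1 hn).1).2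
      have h2 := sub_dvd_eval_sub (n % (p : ℤ)) n f
      have h3 : (p : ℤ) ∣ n % (p : ℤ) - n := by
        rw [Int.emod_def]
        exact ⟨-(n / (p : ℤ)), by ring⟩
      have h4 := dvd_add (h3.trans h2) h1
      simpa using h4
  have himg : S.image (fun n => n / (p : ℤ)) ⊆ Finset.Icc (-(M : ℤ)) M := by
    intro x hx
    obtain ⟨n, hn, rfl⟩ := mem_image.1 hx
    have h1 := abs_le.1 (hS n hn).1
    rw [Finset.mem_Icc]
    constructor
    · rw [Int.le_ediv_iff_mul_le hp0]
      linarith [h1.1]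
    · have h2 : n / (p : ℤ) ≤ (M * p : ℤ) / p := Int.ediv_le_ediv hp0 h1.2
      rwa [Int.mul_ediv_cancel _ hp0.ne'] at h2
  calc S.card ≤ f.natDegree * (S.image (fun n => n / (p : ℤ))).card :=
        card_le_mul_card_image S _ hfib
    _ ≤ f.natDegree * (Finset.Icc (-(M : ℤ)) M).card :=
        Nat.mul_le_mul_left _ (card_le_card himg)
    _ = f.natDegree * (2 * M + 1) := by
        rw [Int.card_Icc]
        congr 1
        omega

end Vale.Agent.P018
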