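import Mathlib
import Vale.Agent.P018.LDefs
import Vale.Agent.P018.LineBd

/-! # P018, module M2: norm polynomial of a line and its cofactor. -/

namespace Vale.Agent.P018

open Polynomial Finset

theorem numberField_EE (f : ℤ[X]) (hm : f.Monic)
    [Fact (Irreducible (f.map (Int.castRingHom ℚ)))] : NumberField (EE f) where
  to_charZero := algebraRat.charZero _
  to_finiteDimensional := (AdjoinRoot.powerBasis (hm.map _).ne_zero).finite

theorem finrank_EE (f : ℤ[X]) (hm : f.Monic) : Module.finrank ℚ (EE f) = f.natDegree := by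
  rw [(AdjoinRoot.powerBasis (hm.map (Int.castRingHom ℚ)).ne_zero).finrank,
    AdjoinRoot.powerBasis_dim, natDegree_map_eq_of_injective (Int.cast_injective (α := ℚ))]

theorem isIntegral_th (f : ℤ[X]) (hm : f.Monic) : IsIntegral ℤ (th f) := by
  refine ⟨f, hm, ?_⟩
  have h := evT_self f
  unfold evT at h
  rw [coe_eval₂RingHom] at h
  rw [← h]
  congr 1

theorem isIntegral_evT (f : ℤ[X]) (hm : f.Monic) (b : ℤ[X]) : IsIntegral ℤ (evT f b) := by
  induction b using Polynomial.induction_on' with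
  | add p q hp hq => rw [map_add]; exact hp.add hq
  | monomial n a =>
    rw [← C_mul_X_pow_eq_monomial, map_mul, map_pow, evT_C, evT_X]
    refine IsIntegral.mul ?_ ((isIntegral_th f hm).pow n)
    have := isIntegral_algebraMap (R := ℤ) (A := EE f) (x := a)
    simpa using this

/-- norm of `t + x` as a value of the minimal polynomial of `-x`. -/
theorem norm_eq_eval {E : Type*} [CommRing E] [Nontrivial E] [Algebra ℚ E] [Module.Finite ℚ E] (x : E)
    (hx : (minpoly ℚ (-x)).natDegree = Module.finrank ℚ E) (t : ℚ) :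
    Algebra.norm ℚ (algebraMap ℚ E t + x) = (minpoly ℚ (-x)).eval t := by
  set L : E →ₗ[ℚ] E := Algebra.lmul ℚ E (-x) with hL
  have h1 : aeval (-x) L.charpoly = 0 := by
    have h2 := LinearMap.aeval_self_charpoly L
    have h3 : aeval ((Algebra.lmul ℚ E) (-x)) L.charpoly =
        (Algebra.lmul ℚ E) (aeval (-x) L.charpoly) := Polynomial.aeval_algHom_apply _ _ _
    have h4 : (Algebra.lmul ℚ E) (aeval (-x) L.charpoly) = 0 := by
      rw [← h3]
      exact h2
    have h5 := congrArg (fun g : Module.End ℚ E => g 1) h4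
    simp only [LinearMap.zero_apply] at h5
    have h6 : (Algebra.lmul ℚ E) (aeval (-x) L.charpoly) 1 = aeval (-x) L.charpoly := by
      change aeval (-x) L.charpoly * 1 = _
      rw [mul_one]
    rw [← h6]
    exact h5
  have h2 : minpoly ℚ (-x) ∣ L.charpoly := minpoly.dvd _ _ h1
  have h3 : L.charpoly = minpoly ℚ (-x) := by
    refine (Polynomial.eq_of_monic_of_dvd_of_natDegree_le
      (minpoly.monic (Algebra.IsIntegral.isIntegral _)) L.charpoly_monic h2 ?_)
    rw [LinearMap.charpoly_natDegree, hx]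
  rw [← h3, LinearMap.eval_charpoly, Algebra.norm_apply]
  congr 1
  ext y
  simp [hL, Algebra.smul_def]

theorem exists_embedding_bound (f : ℤ[X]) (hm : f.Monic)
    [Fact (Irreducible (f.map (Int.castRingHom ℚ)))] :
    ∃ Cθ : ℝ, 1 ≤ Cθ ∧ ∀ σ : EE f →+* ℂ, ‖σ (th f)‖ ≤ Cθ := by
  have := numberField_EE f hm
  refine ⟨1 + ∑ σ : EE f →+* ℂ, ‖σ (th f)‖, ?_, fun σ => ?_⟩
  · have : 0 ≤ ∑ σ : EE f →+* ℂ, ‖σ (th f)‖ := Finset.sum_nonneg fun _ _ => norm_nonneg _
    linarith
  · have := Finset.single_le_sum (f := fun σ : EE f →+* ℂ => ‖σ (th f)‖)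
      (fun _ _ => norm_nonneg _) (mem_univ σ)
    linarith

theorem norm_embedding_le (f : ℤ[X]) (Cθ : ℝ) (h1 : 1 ≤ Cθ) (σ : EE f →+* ℂ)
    (hσ : ‖σ (th f)‖ ≤ Cθ) (b : ℤ[X]) (hb : b.natDegree < f.natDegree) (T : ℕ)
    (hT : ∀ i, |b.coeff i| ≤ (T : ℤ)) :
    ‖σ (evT f b)‖ ≤ f.natDegree * Cθ ^ f.natDegree * T := by
  conv_lhs => rw [as_sum_range_C_mul_X_pow' b hb]
  rw [map_sum, map_sum]
  refine (norm_sum_le _ _).trans ?_
  have h2 : ∀ i ∈ range f.natDegree, ‖σ (evT f (C (b.coeff i) * X ^ i))‖ ≤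
      Cθ ^ f.natDegree * T := by
    intro i hi
    rw [map_mul, map_mul, map_pow, map_pow, evT_C, evT_X, norm_mul, norm_pow, map_intCast]
    rw [mem_range] at hi
    have h3 : ‖((b.coeff i : ℤ) : ℂ)‖ ≤ T := by
      rw [Complex.norm_intCast]
      exact_mod_cast hT i
    have h4 : ‖σ (th f)‖ ^ i ≤ Cθ ^ f.natDegree :=
      (pow_le_pow_left₀ (norm_nonneg _) hσ i).trans (pow_le_pow_right₀ h1 hi.le)
    rw [mul_comm]
    exact mul_le_mul h4 h3 (norm_nonneg _) (by positivity)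
  refine (Finset.sum_le_sum h2).trans ?_
  rw [Finset.sum_const, card_range, nsmul_eq_mul]
  linarith

theorem minpoly_coeff_le (f : ℤ[X]) (hm : f.Monic)
    [Fact (Irreducible (f.map (Int.castRingHom ℚ)))] (Cθ : ℝ) (h1 : 1 ≤ Cθ)
    (hσ : ∀ σ : EE f →+* ℂ, ‖σ (th f)‖ ≤ Cθ) (b : ℤ[X]) (hb : b.natDegree < f.natDegree) (T : ℕ)
    (hT : ∀ i, |b.coeff i| ≤ (T : ℤ)) (N : ℤ[X])
    (hN : minpoly ℚ (-evT f b) = N.map (Int.castRingHom ℚ)) (hNd : N.natDegree = f.natDegree)
    (i : ℕ) :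
    |(N.coeff i : ℝ)| ≤ (f.natDegree * Cθ ^ f.natDegree * T) ^ (f.natDegree - i) *
      2 ^ f.natDegree := by
  have := numberField_EE f hm
  have hmon : (minpoly ℚ (-evT f b)).Monic := minpoly.monic (Algebra.IsIntegral.isIntegral _)
  have h2 := coeff_le_of_roots_le (p := minpoly ℚ (-evT f b)) (f := algebraMap ℚ ℂ)
    (B := f.natDegree * Cθ ^ f.natDegree * T) i hmon (IsAlgClosed.splits _) (by
      intro z hz
      have hz' : z ∈ (minpoly ℚ (-evT f b)).rootSet ℂ := by
        rw [mem_rootSet']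
        rw [mem_roots'] at hz
        exact ⟨hz.1, by rw [← eval_map_algebraMap]; exact hz.2⟩
      rw [← NumberField.Embeddings.range_eval_eq_rootSet_minpoly] at hz'
      obtain ⟨σ, rfl⟩ := hz'
      simp only [map_neg, norm_neg]
      exact norm_embedding_le f Cθ h1 σ (hσ σ) b hb T hT)
  have h3 : (minpoly ℚ (-evT f b)).natDegree = f.natDegree := by
    rw [hN, natDegree_map_eq_of_injective (Int.cast_injective (α := ℚ)), hNd]
  rw [h3, hN, coeff_map, coeff_map] at h2
  have h4 : ‖(algebraMap ℚ ℂ) ((Int.castRingHom ℚ) (N.coeff i))‖ = |(N.coeff i : ℝ)| := by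
    simp
  rw [h4] at h2
  refine h2.trans ?_
  have h5 : (0 : ℝ) ≤ f.natDegree * Cθ ^ f.natDegree * T := by positivity
  refine mul_le_mul_of_nonneg_left ?_ (by positivity)
  exact_mod_cast Nat.choose_le_two_pow _ _

end Vale.Agent.P018
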