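import Mathlib
import Vale.Agent.P018.LDefs
import Vale.Agent.P018.LineBd
import Vale.Agent.P018.LinePoly

/-! # P018, module M2: norm polynomial of a line and its cofactor. -/

namespace Vale.Agent.P018

open Polynomial Finset

/-- polynomials over the field with weighted bounded coefficients. -/
def PB (f : ℤ[X]) (T m A : ℕ) (Q : (EE f)[X]) : Prop :=
  Q.natDegree ≤ m ∧ ∀ i, i ≤ m → Bd f (A * T ^ (m - i)) (Q.coeff i)

theorem PB.mul {f : ℤ[X]} (hd : 1 ≤ f.natDegree) {C0 : ℕ}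
    (hC0 : ∀ (M M' : ℕ) (x y : EE f), Bd f M x → Bd f M' y → Bd f (C0 * (M * M')) (x * y))
    {T m m' A A' : ℕ} {Q Q' : (EE f)[X]} (hQ : PB f T m A Q) (hQ' : PB f T m' A' Q') :
    PB f T (m + m') (C0 * (m + m' + 1) * (A * A')) (Q * Q') := by
  obtain ⟨h1, h2⟩ := hQ
  obtain ⟨h1', h2'⟩ := hQ'
  refine ⟨natDegree_mul_le.trans (add_le_add h1 h1'), fun i hi => ?_⟩
  rw [coeff_mul]
  have h3 : ∀ x ∈ antidiagonal i, Bd f (C0 * (A * A') * T ^ (m + m' - i))
      (Q.coeff x.1 * Q'.coeff x.2) := by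
    intro x hx
    rw [HasAntidiagonal.mem_antidiagonal] at hx
    by_cases hx1 : x.1 ≤ m
    · by_cases hx2 : x.2 ≤ m'
      · have h4 := hC0 _ _ _ _ (h2 x.1 hx1) (h2' x.2 hx2)
        refine h4.mono (le_of_eq ?_)
        have h5 : m + m' - i = (m - x.1) + (m' - x.2) := by omega
        rw [h5, pow_add]
        ring
      · rw [coeff_eq_zero_of_natDegree_lt (p := Q') (by omega), mul_zero]
        exact Bd.zero hd _
    · rw [coeff_eq_zero_of_natDegree_lt (p := Q) (by omega), zero_mul]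
      exact Bd.zero hd _
  refine (Bd.sum hd _ _ _ h3).mono ?_
  rw [Finset.sum_const, Finset.Nat.card_antidiagonal, smul_eq_mul]
  calc (i + 1) * (C0 * (A * A') * T ^ (m + m' - i))
      ≤ (m + m' + 1) * (C0 * (A * A') * T ^ (m + m' - i)) := Nat.mul_le_mul_right _ (by omega)
    _ = C0 * (m + m' + 1) * (A * A') * T ^ (m + m' - i) := by ring

theorem PB.one {f : ℤ[X]} (hd : 1 ≤ f.natDegree) (T : ℕ) : PB f T 0 1 (1 : (EE f)[X]) := by
  refine ⟨by simp, fun i hi => ?_⟩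
  obtain rfl : i = 0 := by omega
  have := Bd.int (f := f) hd 1 1 (by norm_num)
  simpa using this

theorem PB_pow {f : ℤ[X]} (hd : 1 ≤ f.natDegree) {C0 : ℕ}
    (hC0 : ∀ (M M' : ℕ) (x y : EE f), Bd f M x → Bd f M' y → Bd f (C0 * (M * M')) (x * y))
    (m A k : ℕ) : ∃ A' : ℕ, ∀ (T : ℕ) (Q : (EE f)[X]), PB f T m A Q → PB f T (k * m) A' (Q ^ k) := by
  induction k with
  | zero => exact ⟨1, fun T Q _ => by simpa using PB.one hd T⟩
  | succ k ih =>
    obtain ⟨A', hA'⟩ := ih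
    refine ⟨C0 * (k * m + m + 1) * (A' * A), fun T Q hQ => ?_⟩
    have h := PB.mul hd hC0 (hA' T Q hQ) hQ
    rw [← pow_succ] at h
    have h2 : (k + 1) * m = k * m + m := by ring
    rw [h2]
    exact h

theorem cofactor_facts {E : Type*} [CommRing E] [Nontrivial E] (N : ℤ[X]) (hN : N.Monic) (β : E) (B : E[X])
    (hB : (X + C β) * B = N.map (Int.castRingHom E)) :
    B.Monic ∧ B.natDegree + 1 = N.natDegree ∧
      ∀ i, B.coeff i = (N.coeff (i + 1) : E) - β * B.coeff (i + 1) := by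
  have h1 : (N.map (Int.castRingHom E)).Monic := hN.map _
  have h1' := h1
  rw [← hB] at h1
  have hBm : B.Monic := (monic_X_add_C β).of_mul_monic_left h1
  refine ⟨hBm, ?_, fun i => ?_⟩
  · have h2 := congrArg natDegree hB
    rw [(monic_X_add_C β).natDegree_mul hBm, natDegree_X_add_C, hN.natDegree_map] at h2
    omega
  · have h2 := congrArg (fun q : E[X] => q.coeff (i + 1)) hB
    simp only [add_mul, coeff_add, coeff_C_mul, coeff_X_mul, coeff_map] at h2
    have h3 : (Int.castRingHom E) (N.coeff (i + 1)) = (N.coeff (i + 1) : E) := rfl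
    rw [h3] at h2
    rw [← h2]
    ring

theorem PB_cofactor {f : ℤ[X]} [Nontrivial (EE f)]
    (hd : 1 ≤ f.natDegree) {C0 : ℕ}
    (hC0 : ∀ (M M' : ℕ) (x y : EE f), Bd f M x → Bd f M' y → Bd f (C0 * (M * M')) (x * y))
    (CN T : ℕ) (N : ℤ[X]) (hN : N.Monic) (hNd : N.natDegree = f.natDegree)
    (hNc : ∀ i, i ≤ f.natDegree → |N.coeff i| ≤ (CN : ℤ) * (T : ℤ) ^ (f.natDegree - i)) (β : EE f)
    (hβ : Bd f T β) (B : (EE f)[X]) (hB : (X + C β) * B = N.map (Int.castRingHom (EE f))) :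
    PB f T (f.natDegree - 1) ((CN + C0 + 1) ^ f.natDegree) B := by
  obtain ⟨hBm, hBd, hBc⟩ := cofactor_facts N hN β B hB
  set a := CN + C0 + 1 with ha
  have key : ∀ j, j ≤ f.natDegree - 1 →
      Bd f (a ^ (j + 1) * T ^ j) (B.coeff (f.natDegree - 1 - j)) := by
    intro j
    induction j with
    | zero =>
      intro _
      have h1 : B.coeff (f.natDegree - 1 - 0) = 1 := by
        have : f.natDegree - 1 - 0 = B.natDegree := by omega
        rw [this]
        exact hBm.coeff_natDegree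
      rw [h1]
      have := Bd.int (f := f) hd 1 (a ^ (0 + 1) * T ^ 0) (by
        simp only [zero_add, pow_one, pow_zero, mul_one, abs_one]
        have : 1 ≤ a := by omega
        exact_mod_cast this)
      simpa using this
    | succ j ih =>
      intro hj
      have h1 := ih (by omega)
      have h2 := hBc (f.natDegree - 1 - (j + 1))
      have h3 : f.natDegree - 1 - (j + 1) + 1 = f.natDegree - 1 - j := by omega
      rw [h3] at h2
      rw [h2, sub_eq_add_neg]
      have h4 : Bd f (CN * T ^ (j + 1)) ((N.coeff (f.natDegree - 1 - j) : ℤ) : EE f) := by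
        refine Bd.int hd _ _ ?_
        have h5 := hNc (f.natDegree - 1 - j) (by omega)
        have h6 : f.natDegree - (f.natDegree - 1 - j) = j + 1 := by omega
        rw [h6] at h5
        push_cast
        exact h5
      have h5 := (hC0 _ _ _ _ hβ h1).neg
      refine (h4.add h5).mono ?_
      have h6 : 1 ≤ a ^ (j + 1) := Nat.one_le_pow _ _ (by omega)
      calc CN * T ^ (j + 1) + C0 * (T * (a ^ (j + 1) * T ^ j))
          = (CN + C0 * a ^ (j + 1)) * T ^ (j + 1) := by ring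
        _ ≤ a ^ (j + 1 + 1) * T ^ (j + 1) := by
            apply Nat.mul_le_mul_right
            rw [pow_succ a (j + 1)]
            nlinarith
  refine ⟨by omega, fun i hi => ?_⟩
  have h1 := key (f.natDegree - 1 - i) (by omega)
  have h2 : f.natDegree - 1 - (f.natDegree - 1 - i) = i := by omega
  rw [h2] at h1
  refine h1.mono ?_
  apply Nat.mul_le_mul_right
  exact Nat.pow_le_pow_right (by omega) (by omega)

theorem natDegree_minpoly_neg {E : Type*} [CommRing E] [Algebra ℚ E] (x : E) :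
    (minpoly ℚ (-x)).natDegree = (minpoly ℚ x).natDegree := by
  have h : ∀ y : E, (minpoly ℚ (-y)).natDegree ≤ (minpoly ℚ y).natDegree := by
    intro y
    rw [minpoly.neg]
    refine natDegree_mul_le.trans ?_
    have h1 : ((-1 : ℚ[X]) ^ (minpoly ℚ y).natDegree).natDegree = 0 := by
      have : (-1 : ℚ[X]) = C (-1) := by simp
      rw [this, ← C_pow, natDegree_C]
    rw [h1, zero_add, natDegree_comp, natDegree_neg, natDegree_X, mul_one]
  refine le_antisymm (h x) ?_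
  have := h (-x)
  rwa [neg_neg] at this

theorem coeff_bound_main (f : ℤ[X]) (hm : f.Monic)
    (hirr : Irreducible (f.map (Int.castRingHom ℚ))) :
    ∃ Cθ : ℝ, 1 ≤ Cθ ∧ ∀ b : ℤ[X], b.natDegree < f.natDegree → ∀ T : ℕ,
      (∀ i, |b.coeff i| ≤ (T : ℤ)) → ∀ N : ℤ[X],
      minpoly ℚ (-evT f b) = N.map (Int.castRingHom ℚ) → N.natDegree = f.natDegree → ∀ i,
      |(N.coeff i : ℝ)| ≤ (f.natDegree * Cθ ^ f.natDegree * T) ^ (f.natDegree - i) *
        2 ^ f.natDegree := by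
  have hF : Fact (Irreducible (f.map (Int.castRingHom ℚ))) := ⟨hirr⟩
  obtain ⟨Cθ, hCθ1, hCθ⟩ := exists_embedding_bound f hm
  exact ⟨Cθ, hCθ1, fun b hb T hT N hN hNd i =>
    minpoly_coeff_le f hm Cθ hCθ1 hCθ b hb T hT N hN hNd i⟩

theorem exists_NB (f : ℤ[X]) (hm : f.Monic) (hirr : Irreducible (f.map (Int.castRingHom ℚ)))
    (b : ℤ[X]) (hdeg : (minpoly ℚ (evT f b)).natDegree = f.natDegree) :
    ∃ (N : ℤ[X]) (B : (EE f)[X]), N.Monic ∧ N.natDegree = f.natDegree ∧
      Irreducible (N.map (Int.castRingHom ℚ)) ∧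
      minpoly ℚ (-evT f b) = N.map (Int.castRingHom ℚ) ∧
      (X + C (evT f b)) * B = N.map (Int.castRingHom (EE f)) ∧
      (∀ t : ℤ, Algebra.norm ℚ (evT f (b + C t)) = ((N.eval t : ℤ) : ℚ)) := by
  have hdom : IsDomain (EE f) := AdjoinRoot.isDomain_of_prime hirr.prime
  have hfin : Module.Finite ℚ (EE f) := (AdjoinRoot.powerBasis (hm.map _).ne_zero).finite
  have hintβ : IsIntegral ℤ (-evT f b) := (isIntegral_evT f hm b).neg
  have hmindeg : (minpoly ℚ (-evT f b)).natDegree = f.natDegree := by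
    rw [natDegree_minpoly_neg, hdeg]
  have hminmap : minpoly ℚ (-evT f b) = (minpoly ℤ (-evT f b)).map (Int.castRingHom ℚ) := by
    rw [minpoly.isIntegrallyClosed_eq_field_fractions' ℚ hintβ]
    rfl
  have hNm : (minpoly ℤ (-evT f b)).Monic := minpoly.monic hintβ
  have hroot : ((minpoly ℤ (-evT f b)).map (Int.castRingHom (EE f))).IsRoot (-evT f b) := by
    have h1 : aeval (-evT f b) (minpoly ℚ (-evT f b)) = 0 := minpoly.aeval _ _
    rw [hminmap] at h1
    rw [IsRoot.def, ← h1, aeval_def, eval₂_eq_eval_map, Polynomial.map_map]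
    congr 2
  obtain ⟨B, hB⟩ := dvd_iff_isRoot.mpr hroot
  refine ⟨minpoly ℤ (-evT f b), B, hNm, ?_, ?_, hminmap, ?_, ?_⟩
  · rw [← hmindeg, hminmap, hNm.natDegree_map]
  · rw [← hminmap]
    exact minpoly.irreducible (Algebra.IsIntegral.isIntegral _)
  · rw [hB, C_neg, sub_neg_eq_add]
  · intro t
    have h1 : evT f (b + C t) = algebraMap ℚ (EE f) (t : ℚ) + evT f b := by
      rw [map_add, evT_C, map_intCast, add_comm]
    rw [h1, norm_eq_eval (evT f b) (by rw [hmindeg, finrank_EE f hm]) (t : ℚ), hminmap]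
    exact Polynomial.eval_intCast_map (Int.castRingHom ℚ) _ t

theorem shift_NB (f : ℤ[X]) (b : ℤ[X]) (N : ℤ[X]) (B : (EE f)[X]) (hNm : N.Monic)
    (hmin : minpoly ℚ (-evT f b) = N.map (Int.castRingHom ℚ))
    (hB : (X + C (evT f b)) * B = N.map (Int.castRingHom (EE f))) (t0 : ℤ) :
    (N.comp (X + C t0)).Monic ∧ (N.comp (X + C t0)).natDegree = N.natDegree ∧
      minpoly ℚ (-evT f (b + C t0)) = (N.comp (X + C t0)).map (Int.castRingHom ℚ) ∧
      (X + C (evT f (b + C t0))) * (B.comp (X + C ((t0 : ℤ) : EE f))) =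
        (N.comp (X + C t0)).map (Int.castRingHom (EE f)) := by
  refine ⟨hNm.comp_X_add_C t0, ?_, ?_, ?_⟩
  · rw [natDegree_comp, natDegree_X_add_C, mul_one]
  · have h1 : -evT f (b + C t0) = -evT f b - algebraMap ℚ (EE f) (t0 : ℚ) := by
      rw [map_add, evT_C, map_intCast]
      ring
    rw [h1, minpoly.sub_algebraMap, hmin, Polynomial.map_comp, Polynomial.map_add,
      Polynomial.map_X, Polynomial.map_C]
    rfl
  · have h1 := congrArg (fun q : (EE f)[X] => q.comp (X + C ((t0 : ℤ) : EE f))) hB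
    simp only [mul_comp, add_comp, X_comp, C_comp] at h1
    rw [Polynomial.map_comp, Polynomial.map_add, Polynomial.map_X, Polynomial.map_C,
      map_add, evT_C, C_add, eq_intCast]
    rw [← h1]
    ring

theorem gamma_of_PB (f : ℤ[X]) (hd : 2 ≤ f.natDegree) (C0 Ak M T : ℕ)
    (hC0 : ∀ (M M' : ℕ) (x y : EE f), Bd f M x → Bd f M' y → Bd f (C0 * (M * M')) (x * y))
    (Q : (EE f)[X]) (hQ : PB f (2 * T) M Ak Q) :
    ∃ Γ Γ' : ℕ → ℤ[X],
      (∀ i, (Γ i).natDegree < f.natDegree ∧ (Γ' i).natDegree < f.natDegree) ∧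
      (∀ i j, i ≤ M →
        |(Γ i).coeff j| ≤ ((Ak * 2 ^ M : ℕ) : ℤ) * (T : ℤ) ^ (M - i) ∧
        |(Γ' i).coeff j| ≤ ((C0 * (1 * (Ak * 2 ^ M)) : ℕ) : ℤ) * (T : ℤ) ^ (M - i)) ∧
      (∀ i, th f * evT f (Γ i) = evT f (Γ' i)) ∧
      (∀ v : EE f, Q.eval v = ∑ i ∈ Finset.range (M + 1), evT f (Γ i) * v ^ i) := by
  have hex : ∀ i, ∃ g g' : ℤ[X], g.natDegree < f.natDegree ∧ g'.natDegree < f.natDegree ∧
      (i ≤ M → ∀ j, |g.coeff j| ≤ ((Ak * 2 ^ M : ℕ) : ℤ) * (T : ℤ) ^ (M - i) ∧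
        |g'.coeff j| ≤ ((C0 * (1 * (Ak * 2 ^ M)) : ℕ) : ℤ) * (T : ℤ) ^ (M - i)) ∧
      evT f g = Q.coeff i ∧ th f * evT f g = evT f g' := by
    intro i
    by_cases hi : i ≤ M
    · have h1 := hQ.2 i hi
      have h2 := hC0 _ _ _ _ (Bd.theta (f := f) hd) h1
      obtain ⟨g, hg1, hg2, hg3⟩ := h1
      obtain ⟨g', hg1', hg2', hg3'⟩ := h2
      refine ⟨g, g', hg1, hg1', fun _ j => ⟨(hg3 j).trans ?_, (hg3' j).trans ?_⟩, hg2,
        by rw [hg2, hg2']⟩
      · have h3 : Ak * (2 * T) ^ (M - i) ≤ Ak * 2 ^ M * T ^ (M - i) := by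
          rw [mul_pow, mul_assoc]
          apply Nat.mul_le_mul_left
          apply Nat.mul_le_mul_right
          exact Nat.pow_le_pow_right (by norm_num) (Nat.sub_le _ _)
        exact_mod_cast h3
      · have h3 : C0 * (1 * (Ak * (2 * T) ^ (M - i))) ≤
            C0 * (1 * (Ak * 2 ^ M)) * T ^ (M - i) := by
          rw [mul_pow, mul_assoc C0]
          apply Nat.mul_le_mul_left
          rw [mul_assoc 1, mul_assoc Ak]
          apply Nat.mul_le_mul_left
          apply Nat.mul_le_mul_left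
          apply Nat.mul_le_mul_right
          exact Nat.pow_le_pow_right (by norm_num) (Nat.sub_le _ _)
        exact_mod_cast h3
    · refine ⟨0, 0, by rw [natDegree_zero]; omega, by rw [natDegree_zero]; omega,
        fun h => absurd h hi, ?_, by simp⟩
      rw [map_zero, coeff_eq_zero_of_natDegree_lt (lt_of_le_of_lt hQ.1 (by omega))]
  choose Γ Γ' hΓ1 hΓ2 hΓ3 hΓ4 hΓ5 using hex
  refine ⟨Γ, Γ', fun i => ⟨hΓ1 i, hΓ2 i⟩, fun i j hi => hΓ3 i hi j, hΓ5, fun v => ?_⟩
  rw [eval_eq_sum_range' (lt_of_le_of_lt hQ.1 (Nat.lt_succ_self _))]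
  exact Finset.sum_congr rfl fun i _ => by rw [hΓ4 i]

/-- M2. -/
theorem line_poly (f : ℤ[X]) (hm : f.Monic) (hirr : Irreducible (f.map (Int.castRingHom ℚ)))
    (hd : 2 ≤ f.natDegree) (k : ℕ) :
    ∃ C : ℕ, ∀ T : ℕ, 1 ≤ T → ∀ b : ℤ[X], b.natDegree < f.natDegree → (∀ i, |b.coeff i| ≤ T) →
      (minpoly ℚ (evT f b)).natDegree = f.natDegree →
      ∃ (N : ℤ[X]) (B : (EE f)[X]), N.Monic ∧ N.natDegree = f.natDegree ∧
        Irreducible (N.map (Int.castRingHom ℚ)) ∧
        (∀ i, i ≤ f.natDegree → |N.coeff i| ≤ C * T ^ (f.natDegree - i)) ∧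
        (X + Polynomial.C (evT f b)) * B = N.map (Int.castRingHom (EE f)) ∧
        (∀ t : ℤ, Algebra.norm ℚ (evT f (b + Polynomial.C t)) = ((N.eval t : ℤ) : ℚ)) ∧
        ∀ t0 : ℤ, |t0| ≤ T → ∃ Γ Γ' : ℕ → ℤ[X],
          (∀ i, (Γ i).natDegree < f.natDegree ∧ (Γ' i).natDegree < f.natDegree) ∧
          (∀ i j, i ≤ k * (f.natDegree - 1) →
            |(Γ i).coeff j| ≤ C * T ^ (k * (f.natDegree - 1) - i) ∧
            |(Γ' i).coeff j| ≤ C * T ^ (k * (f.natDegree - 1) - i)) ∧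
          (∀ i, th f * evT f (Γ i) = evT f (Γ' i)) ∧
          (∀ v : EE f, (B ^ k).eval ((t0 : EE f) + v) =
            ∑ i ∈ Finset.range (k * (f.natDegree - 1) + 1), evT f (Γ i) * v ^ i) := by
  obtain ⟨Cθ, hCθ1, hcoef0⟩ := coeff_bound_main f hm hirr
  have hdom : IsDomain (EE f) := AdjoinRoot.isDomain_of_prime hirr.prime
  obtain ⟨C0, hC01, hC0⟩ := exists_bd_mul f hm (by omega)
  have hdr : (1 : ℝ) ≤ f.natDegree := by
    have : 1 ≤ f.natDegree := by omega
    exact_mod_cast this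
  -- bound for the coefficients of the norm polynomial
  have hc11 : 1 ≤ f.natDegree * Cθ ^ f.natDegree := by
    have h1 : 1 ≤ Cθ ^ f.natDegree := one_le_pow₀ hCθ1
    nlinarith
  obtain ⟨CN, hCN⟩ : ∃ CN : ℕ, (f.natDegree * Cθ ^ f.natDegree) ^ f.natDegree *
    2 ^ f.natDegree ≤ CN := ⟨_, Nat.le_ceil _⟩
  have hcoef : ∀ (T : ℕ) (b : ℤ[X]), b.natDegree < f.natDegree → (∀ i, |b.coeff i| ≤ (T : ℤ)) →
      ∀ N : ℤ[X], minpoly ℚ (-evT f b) = N.map (Int.castRingHom ℚ) → N.natDegree = f.natDegree →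
      ∀ i, i ≤ f.natDegree → |N.coeff i| ≤ (CN : ℤ) * (T : ℤ) ^ (f.natDegree - i) := by
    intro T b hb hT N hN hNd i hi
    have h1 := hcoef0 b hb T hT N hN hNd i
    have h2 : (f.natDegree * Cθ ^ f.natDegree * T) ^ (f.natDegree - i) * 2 ^ f.natDegree ≤
        CN * (T : ℝ) ^ (f.natDegree - i) := by
      rw [mul_pow]
      have h3 : (f.natDegree * Cθ ^ f.natDegree) ^ (f.natDegree - i) * 2 ^ f.natDegree ≤ CN := by
        refine le_trans ?_ hCN
        apply mul_le_mul_of_nonneg_right _ (by positivity)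
        exact pow_le_pow_right₀ hc11 (by omega)
      calc (f.natDegree * Cθ ^ f.natDegree) ^ (f.natDegree - i) * (T : ℝ) ^ (f.natDegree - i) *
            2 ^ f.natDegree
          = ((f.natDegree * Cθ ^ f.natDegree) ^ (f.natDegree - i) * 2 ^ f.natDegree) *
            (T : ℝ) ^ (f.natDegree - i) := by ring
        _ ≤ CN * (T : ℝ) ^ (f.natDegree - i) := mul_le_mul_of_nonneg_right h3 (by positivity)
    have h4 := h1.trans h2
    exact_mod_cast h4
  obtain ⟨Ak, hAk⟩ := PB_pow (f := f) (by omega) hC0 (f.natDegree - 1)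
    ((CN + C0 + 1) ^ f.natDegree) k
  refine ⟨CN + (Ak * 2 ^ (k * (f.natDegree - 1)) +
    C0 * (1 * (Ak * 2 ^ (k * (f.natDegree - 1))))), ?_⟩
  intro T hT b hb hbT hdeg
  obtain ⟨N, B, hNm, hNd, hNirr, hmin, hB, hnorm⟩ := exists_NB f hm hirr b hdeg
  refine ⟨N, B, hNm, hNd, hNirr, ?_, hB, hnorm, ?_⟩
  · intro i hi
    refine (hcoef T b hb hbT N hmin hNd i hi).trans ?_
    push_cast
    apply mul_le_mul_of_nonneg_right _ (by positivity)
    have : (0 : ℤ) ≤ (Ak : ℤ) * 2 ^ (k * (f.natDegree - 1)) +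
      C0 * (1 * (Ak * 2 ^ (k * (f.natDegree - 1)))) := by positivity
    linarith
  · intro t0 ht0
    obtain ⟨hN'm, hN'd, hN'min, hB'eq⟩ := shift_NB f b N B hNm hmin hB t0
    have hb'd : (b + C t0).natDegree < f.natDegree := by
      rw [natDegree_add_C]
      exact hb
    have hb'T : ∀ i, |(b + C t0).coeff i| ≤ ((2 * T : ℕ) : ℤ) := by
      intro i
      rw [coeff_add, coeff_C]
      have h1 := hbT i
      split_ifs with hi
      · refine (abs_add_le _ _).trans ?_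
        push_cast
        linarith
      · rw [add_zero]
        push_cast
        have : (0 : ℤ) ≤ T := by positivity
        linarith
    have hbd' : Bd f (2 * T) (evT f (b + C t0)) := ⟨_, hb'd, rfl, hb'T⟩
    have hPB := PB_cofactor (f := f) (by omega) hC0 CN (2 * T) _ hN'm (by rw [hN'd, hNd])
      (hcoef (2 * T) _ hb'd hb'T _ hN'min (by rw [hN'd, hNd])) _ hbd' _ hB'eq
    have hPBk := hAk (2 * T) _ hPB
    obtain ⟨Γ, Γ', h1, h2, h3, h4⟩ := gamma_of_PB f hd C0 Ak (k * (f.natDegree - 1)) T hC0 _ hPBk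
    refine ⟨Γ, Γ', h1, fun i j hi => ⟨(h2 i j hi).1.trans ?_, (h2 i j hi).2.trans ?_⟩, h3, ?_⟩
    · apply mul_le_mul_of_nonneg_right _ (by positivity)
      push_cast
      have h1 : (0 : ℤ) ≤ CN := by positivity
      have h2 : (0 : ℤ) ≤ (C0 : ℤ) * (1 * (Ak * 2 ^ (k * (f.natDegree - 1)))) := by positivity
      linarith
    · apply mul_le_mul_of_nonneg_right _ (by positivity)
      push_cast
      have h1 : (0 : ℤ) ≤ CN := by positivity
      have h2 : (0 : ℤ) ≤ (Ak : ℤ) * 2 ^ (k * (f.natDegree - 1)) := by positivity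
      linarith
    · intro v
      rw [← h4 v, ← pow_comp, eval_comp, eval_add, eval_X, eval_C, add_comm]

end Vale.Agent.P018
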