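import Vale.Agent.P018.LineInt2
import Vale.Agent.P018.LinePolyMain
import Vale.Agent.P018.LineDet
import Vale.Agent.P018.LineAlgebra

/-! # P018, Module M7, part 3: the curve carrying the points of a short interval of a line. -/

namespace Vale.Agent.P018

open Polynomial Finset

attribute [-instance] DivisionRing.toRatAlgebra

theorem finrank_EE_eq (f : ℤ[X]) (hm : f.Monic) : Module.finrank ℚ (EE f) = f.natDegree := by
  have h := (AdjoinRoot.powerBasis (hm.map (Int.castRingHom ℚ)).ne_zero).finrank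
  rw [AdjoinRoot.powerBasis_dim, natDegree_mapQ] at h
  exact h

theorem finite_EE_of (f : ℤ[X]) (hm : f.Monic) : FiniteDimensional ℚ (EE f) :=
  (AdjoinRoot.powerBasis (hm.map (Int.castRingHom ℚ)).ne_zero).finite

theorem minpoly_shiftZ (f b : ℤ[X]) (hm : f.Monic)
    (hirr : Irreducible (f.map (Int.castRingHom ℚ))) (t : ℤ) :
    (minpoly ℚ (evT f (b + C t))).natDegree = (minpoly ℚ (evT f b)).natDegree := by
  have : Fact (Irreducible (f.map (Int.castRingHom ℚ))) := ⟨hirr⟩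
  have := finite_EE_of f hm
  have h1 : evT f (b + C t) = evT f b + algebraMap ℚ (EE f) (t : ℚ) := by
    rw [map_add, evT_C, map_intCast]
  rw [h1, minpoly.add_algebraMap]
  rw [natDegree_comp, natDegree_X_sub_C, mul_one]

/-- from linear relation on `α` to the curve. -/
theorem curve_of_relation (f : ℤ[X]) (hirr : Irreducible (f.map (Int.castRingHom ℚ)))
    (k : ℕ) (B : (EE f)[X]) (lam0 lam1 : EE f →ₗ[ℚ] ℚ) (t0 t n : ℤ) (p : ℕ) (α : EE f)
    (h : ((n : EE f) - th f) * (B ^ k).eval (t : EE f) = (p : EE f) ^ k * α)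
    (hrel : lam0 α + ((t - t0 : ℤ) : ℚ) * lam1 α = 0) :
    haveI : Fact (Irreducible (f.map (Int.castRingHom ℚ))) := ⟨hirr⟩
    (n : ℚ) * (extL lam0 (B ^ k) + (X - C (t0 : ℚ)) * extL lam1 (B ^ k)).eval (t : ℚ) =
      (extL lam0 (C (th f) * B ^ k) + (X - C (t0 : ℚ)) * extL lam1 (C (th f) * B ^ k)).eval
        (t : ℚ) := by
  have : Fact (Irreducible (f.map (Int.castRingHom ℚ))) := ⟨hirr⟩
  have key : ∀ lam : EE f →ₗ[ℚ] ℚ, (n : ℚ) * lam ((B ^ k).eval (t : EE f)) -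
      lam (th f * (B ^ k).eval (t : EE f)) = (p : ℚ) ^ k * lam α := by
    intro lam
    have h1 : (n : EE f) * (B ^ k).eval (t : EE f) = (n : ℚ) • (B ^ k).eval (t : EE f) := by
      rw [Algebra.smul_def, map_intCast]
    have h2 : (p : EE f) ^ k * α = ((p : ℚ) ^ k) • α := by
      rw [Algebra.smul_def, map_pow, map_natCast]
    have h3 := congrArg lam h
    rw [h2, map_smul, sub_mul, map_sub, h1, map_smul] at h3
    simpa using h3
  have ht : (algebraMap ℚ (EE f) (t : ℚ)) = (t : EE f) := map_intCast _ _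
  simp only [eval_add, eval_mul, eval_sub, eval_X, eval_C]
  rw [extL_eval, extL_eval, extL_eval, extL_eval, ht]
  simp only [eval_mul, eval_C]
  have k0 := key lam0
  have k1 := key lam1
  push_cast at hrel
  have e : (n : ℚ) * (lam0 (eval (↑t) (B ^ k)) + (↑t - ↑t0) * lam1 (eval (↑t) (B ^ k))) -
      (lam0 (th f * eval (↑t) (B ^ k)) + (↑t - ↑t0) * lam1 (th f * eval (↑t) (B ^ k))) =
      (p : ℚ) ^ k * (lam0 α + ((t : ℚ) - t0) * lam1 α) := by
    have e1 : (p : ℚ) ^ k * (lam0 α + ((t : ℚ) - t0) * lam1 α) =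
        (p : ℚ) ^ k * lam0 α + ((t : ℚ) - t0) * ((p : ℚ) ^ k * lam1 α) := by ring
    rw [e1, ← k0, ← k1]
    ring
  rw [hrel, mul_zero] at e
  linarith

/-- the points of a short interval of a line lie on a curve `n A(t) = B(t)`. -/
theorem exists_curve (f : ℤ[X]) (hm : f.Monic) (hirr : Irreducible (f.map (Int.castRingHom ℚ)))
    (k h : ℕ) (hkh : k + h = f.natDegree) (hk : h + 1 ≤ k) (hh : 1 ≤ h) (hk3 : 3 ≤ k)
    (C0 : ℕ) (δ : ℝ) (hδ : 0 < δ) :
    ∃ T0 : ℕ, ∀ T : ℕ, T0 ≤ T → ∀ b : ℤ[X], b.natDegree < f.natDegree →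
      (∀ i, |b.coeff i| ≤ T) → ∀ t0 : ℤ, |t0| ≤ T → ∀ S : Finset (ℤ × ℤ × ℕ), S.Nonempty →
      (∀ z ∈ S, |z.1| ≤ T ∧
        |((z.1 - t0 : ℤ) : ℝ)| ≤ (T : ℝ) ^ (1 - (2 * h + 1 + δ) / (2 * (f.natDegree : ℝ) - 1)) ∧
        |z.2.1| ≤ C0 * (T : ℤ) ^ f.natDegree ∧ z.2.2.Prime ∧ T ^ f.natDegree ≤ C0 * z.2.2 ∧
        (z.2.2 : ℤ) ^ k ∣ f.eval z.2.1 ∧
        ∃ (a : ℤ[X]) (c : ℤ), a.natDegree < f.natDegree ∧ c ≠ 0 ∧ |c| ≤ C0 ∧
          Algebra.norm ℚ (evT f (b + C z.1)) = (c : ℚ) * z.2.2 ∧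
          (c : EE f) ^ k * ((z.2.1 : EE f) - th f) = evT f (b + C z.1) ^ k * evT f a ∧
          (minpoly ℚ (evT f (b + C z.1))).natDegree = f.natDegree) →
      ∃ (N : ℤ[X]) (A1 B1 : ℚ[X]), N.Monic ∧ N.natDegree = f.natDegree ∧
        Irreducible (N.map (Int.castRingHom ℚ)) ∧
        (∀ i, |N.coeff i| ≤ (T : ℤ) ^ (f.natDegree + 1)) ∧
        A1 ≠ 0 ∧ f.natDegree - 1 ≤ A1.natDegree ∧ A1.natDegree ≤ k * (f.natDegree - 1) + 1 ∧
        B1.natDegree ≤ k * (f.natDegree - 1) + 1 ∧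
        ∀ z ∈ S, (z.2.1 : ℚ) * A1.eval (z.1 : ℚ) = B1.eval (z.1 : ℚ) ∧
          ∃ c : ℤ, c ≠ 0 ∧ |c| ≤ C0 ∧ N.eval z.1 = c * z.2.2 := by
  classical
  have hd2 : 2 ≤ f.natDegree := by omega
  obtain ⟨C2, h2⟩ := line_poly f hm hirr hd2 k
  obtain ⟨Cn, hCn1, hCn2, hCn0⟩ : ∃ Cn : ℕ, 1 ≤ Cn ∧ C2 ≤ Cn ∧ C0 ≤ Cn :=
    ⟨max 1 (max C2 C0), le_max_left _ _, (le_max_left _ _).trans (le_max_right _ _),
      (le_max_right _ _).trans (le_max_right _ _)⟩
  obtain ⟨T3, h3⟩ := line_det f.natDegree k h hkh hk hh (Cn : ℝ) δ (by exact_mod_cast hCn1) hδ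
  refine ⟨max 1 (max T3 C2), ?_⟩
  intro T hT b hb hbT t0 ht0 S hne hS
  have hT1 : 1 ≤ T := (le_max_left _ _).trans hT
  have hT3 : T3 ≤ T := ((le_max_left _ _).trans (le_max_right _ _)).trans hT
  have hTC2 : C2 ≤ T := ((le_max_right _ _).trans (le_max_right _ _)).trans hT
  have hT1r : (1 : ℝ) ≤ T := by exact_mod_cast hT1
  have hT1z : (1 : ℤ) ≤ T := by exact_mod_cast hT1
  obtain ⟨z0, hz0⟩ := hne
  have hmin : (minpoly ℚ (evT f b)).natDegree = f.natDegree := by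
    rw [← minpoly_shiftZ f b hm hirr z0.1]
    obtain ⟨-, -, -, -, -, -, a, c, -, -, -, -, -, h6⟩ := hS z0 hz0
    exact h6
  obtain ⟨N, B, hNm, hNd, hNi, hNc, hB, hNn, hΓ⟩ := h2 T hT1 b hb hbT hmin
  obtain ⟨Γ, Γ', hΓd, hΓc, hΓt, hΓe⟩ := hΓ t0 ht0
  have hpt : ∀ z ∈ S, ∃ a : ℤ[X], a.natDegree < f.natDegree ∧
      (((z.2.1 : ℤ) : EE f) - th f) * (B ^ k).eval ((z.1 : ℤ) : EE f) =
        ((z.2.2 : ℕ) : EE f) ^ k * evT f a ∧
      (∃ c : ℤ, c ≠ 0 ∧ |c| ≤ C0 ∧ N.eval z.1 = c * z.2.2) ∧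
      ∀ j, (z.2.2 : ℤ) ^ k * a.coeff j = ∑ i ∈ range (k * (f.natDegree - 1) + 1),
        (z.1 - t0) ^ i * (z.2.1 * (Γ i).coeff j - (Γ' i).coeff j) := by
    intro z hz
    obtain ⟨-, -, -, -, -, -, a, c, ha, hc, hcC, hn, he, -⟩ := hS z hz
    have hN : N.eval z.1 = c * z.2.2 := by
      have h1 := hNn z.1
      rw [hn] at h1
      exact_mod_cast h1.symm
    have hp1 := line_point f hirr k b a c z.1 z.2.1 z.2.2 N B hB hN hc he
    refine ⟨a, ha, hp1, ⟨c, hc, hcC, hN⟩, fun j => ?_⟩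
    refine coeff_identity f (by omega) _ a (z.1 - t0) z.2.1 ((z.2.2 : ℤ) ^ k) Γ Γ' ha hΓd hΓt ?_ j
    have h1 := hΓe (((z.1 - t0 : ℤ)) : EE f)
    rw [← h1]
    have h4 : ((t0 : ℤ) : EE f) + ((z.1 - t0 : ℤ) : EE f) = ((z.1 : ℤ) : EE f) := by
      push_cast
      ring
    rw [h4, hp1]
    push_cast
    rfl
  choose! a ha1 ha2 ha3 ha4 using hpt
  have hdet : ∀ r : Fin 2 × Fin f.natDegree → ℤ × ℤ × ℕ, (∀ i, r i ∈ (S : Set (ℤ × ℤ × ℕ))) →
      (Matrix.of fun i (j : Fin 2 × Fin f.natDegree) =>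
        ((((r i).1 - t0) ^ (j.1 : ℕ) * (a (r i)).coeff j.2 : ℤ) : ℚ)).det = 0 := by
    intro r hr
    have h5 := h3 T hT3 ((Cn : ℝ) * (T : ℝ) ^ f.natDegree)
      (one_le_mul_of_one_le_of_one_le (by exact_mod_cast hCn1) (one_le_pow₀ hT1r)) le_rfl
      (fun i j => (Γ i).coeff j) (fun i j => (Γ' i).coeff j) (by
        intro i j hi
        have h6 := hΓc i j hi
        have h7 : ((C2 : ℤ) : ℝ) * (T : ℝ) ^ (k * (f.natDegree - 1) - i) ≤
            (Cn : ℝ) * (T : ℝ) ^ (k * (f.natDegree - 1) - i) := by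
          refine mul_le_mul_of_nonneg_right ?_ (by positivity)
          exact_mod_cast hCn2
        refine ⟨le_trans ?_ h7, le_trans ?_ h7⟩
        · exact_mod_cast h6.1
        · exact_mod_cast h6.2)
      (fun i => (r i).1 - t0) (fun i => (r i).2.1) (fun i => (r i).2.2)
      (fun i j => (a (r i)).coeff j) (by
        intro i
        obtain ⟨g1, g2, g3, g4, g5, -⟩ := hS (r i) (hr i)
        refine ⟨g2, ?_, ?_, fun j => ha4 (r i) (hr i) j⟩
        · have h8 : |((r i).2.1 : ℝ)| ≤ (C0 : ℝ) * (T : ℝ) ^ f.natDegree := by exact_mod_cast g3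
          refine h8.trans (mul_le_mul_of_nonneg_right (by exact_mod_cast hCn0) (by positivity))
        · have h8 : (T : ℝ) ^ f.natDegree ≤ (C0 : ℝ) * ((r i).2.2 : ℝ) := by exact_mod_cast g5
          refine h8.trans (mul_le_mul_of_nonneg_right (by exact_mod_cast hCn0) (by positivity)))
    have h6 := congrArg (Int.castRingHom ℚ) h5
    rw [RingHom.map_det, map_zero] at h6
    rw [← h6]
    congr 1
  obtain ⟨L, hL0, hL⟩ := li_exists_relation (S : Set (ℤ × ℤ × ℕ))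
    (fun z (j : Fin 2 × Fin f.natDegree) => (((z.1 - t0) ^ (j.1 : ℕ) * (a z).coeff j.2 : ℤ) : ℚ))
    hdet
  have hFact : Fact (Irreducible (f.map (Int.castRingHom ℚ))) := ⟨hirr⟩
  have hfin := finite_EE_of f hm
  have hlam : lamOf f hm (fun j => L (0, j)) ≠ 0 ∨ lamOf f hm (fun j => L (1, j)) ≠ 0 := by
    by_contra hcon
    push Not at hcon
    apply hL0
    have e0 : (fun j => L (0, j)) = 0 := by
      by_contra h
      exact lamOf_ne_zero f hm _ h hcon.1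
    have e1 : (fun j => L (1, j)) = 0 := by
      by_contra h
      exact lamOf_ne_zero f hm _ h hcon.2
    funext ij
    obtain ⟨i, j⟩ := ij
    fin_cases i
    · exact congrFun e0 j
    · exact congrFun e1 j
  have hB' : (X + C (evT f b)) * B =
      (N.map (Int.castRingHom ℚ)).map (algebraMap ℚ (EE f)) := by
    rw [hB, Polynomial.map_map]
    congr 1
  have hdeg : (N.map (Int.castRingHom ℚ)).natDegree = Module.finrank ℚ (EE f) := by
    rw [natDegree_mapQ, finrank_EE_eq f hm, hNd]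
  have hM4 := line_algebra (evT f b) (N.map (Int.castRingHom ℚ)) (hNm.map _) hNi hdeg B hB' k hk3
    (th f) (lamOf f hm (fun j => L (0, j))) (lamOf f hm (fun j => L (1, j))) hlam (t0 : ℚ)
  have hM4' := (line_algebra (evT f b) (N.map (Int.castRingHom ℚ)) (hNm.map _) hNi hdeg B hB' k hk3
    (1 : EE f) (lamOf f hm (fun j => L (0, j))) (lamOf f hm (fun j => L (1, j))) hlam
      (t0 : ℚ)).2.2
  rw [natDegree_mapQ, hNd] at hM4 hM4'
  rw [C_1, one_mul] at hM4'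
  refine ⟨N, _, _, hNm, hNd, hNi, ?_, hM4.2.1, hM4.1, hM4', hM4.2.2, ?_⟩
  · intro i
    by_cases hi : i ≤ f.natDegree
    · refine (hNc i hi).trans ?_
      rw [pow_succ, mul_comm]
      refine mul_le_mul (pow_le_pow_right₀ hT1z (by omega)) (by exact_mod_cast hTC2)
        (by positivity) (by positivity)
    · rw [coeff_eq_zero_of_natDegree_lt (by omega)]
      simp
  · intro z hz
    refine ⟨?_, ha3 z hz⟩
    refine curve_of_relation f hirr k B _ _ t0 z.1 z.2.1 z.2.2 (evT f (a z)) (ha2 z hz) ?_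
    have h1 := hL z hz
    rw [Fintype.sum_prod_type, Fin.sum_univ_two] at h1
    rw [lamOf_evT f hm _ _ (ha1 z hz), lamOf_evT f hm _ _ (ha1 z hz), ← h1, mul_sum]
    congr 1
    · refine sum_congr rfl fun j _ => ?_
      simp
    · refine sum_congr rfl fun j _ => ?_
      simp
      ring

end Vale.Agent.P018
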