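import Mathlib.Algebra.AffineMonoid.Basic
import Mathlib.Algebra.AffineMonoid.UniqueSums
import Mathlib.Algebra.MvPolynomial.Funext
import Mathlib.Algebra.Order.Antidiag.FinsuppEquiv
import Mathlib.Algebra.Order.Group.Int.Sum
import Mathlib.Algebra.Order.Sub.Prod
import Mathlib.Algebra.Ring.IsFormallyReal
import Mathlib.Analysis.PSeries
import Mathlib.Analysis.SpecialFunctions.Log.Summable
import Mathlib.Analysis.SumIntegralComparisons
import Mathlib.Computability.Reduce
import Mathlib.Data.Finset.MulAntidiagonal
import Mathlib.Data.Int.Star
import Mathlib.Data.Rat.Star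
import Mathlib.LinearAlgebra.Lagrange
import Mathlib.LinearAlgebra.Matrix.AbsoluteValue
import Mathlib.NumberTheory.Bertrand
import Mathlib.NumberTheory.Chebyshev
import Mathlib.NumberTheory.DiophantineApproximation.Basic
import Mathlib.NumberTheory.MahlerMeasure
import Mathlib.NumberTheory.NumberField.House
import Mathlib.RingTheory.Artinian.Instances
import Mathlib.RingTheory.Etale.Weakly
import Mathlib.RingTheory.Flat.TorsionFree
import Mathlib.RingTheory.Henselian
import Mathlib.RingTheory.MvPolynomial.IrreducibleQuadratic
import Mathlib.RingTheory.PicardGroup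
import Mathlib.RingTheory.Polynomial.Resultant.Basic
import Mathlib.RingTheory.RegularLocalRing.Defs
import Mathlib.RingTheory.TotallySplit
import Mathlib.Tactic

/-! The part of Mathlib that the development of this folder uses. -/
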