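import Vale.Agent.P018.SmallCurve

/-! # P018, M6: the sum of the absolute values of the coefficients of an integer polynomial. -/

namespace Vale.Agent.P018

open Polynomial Finset

/-- sum of the absolute values of the coefficients. -/
def nrm1 (P : ℤ[X]) : ℤ := ∑ i ∈ range (P.natDegree + 1), |P.coeff i|

theorem nrm1_eq (P : ℤ[X]) {n : ℕ} (h : P.natDegree < n) :
    nrm1 P = ∑ i ∈ range n, |P.coeff i| := by
  unfold nrm1
  refine sum_subset (range_subset_range.2 (by omega)) fun i _ hi => ?_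
  rw [mem_range, not_lt] at hi
  rw [coeff_eq_zero_of_natDegree_lt (by omega), abs_zero]

theorem nrm1_nonneg (P : ℤ[X]) : 0 ≤ nrm1 P := sum_nonneg fun _ _ => abs_nonneg _

theorem coeff_le_nrm1 (P : ℤ[X]) (i : ℕ) : |P.coeff i| ≤ nrm1 P := by
  rw [nrm1_eq P (n := max (P.natDegree + 1) (i + 1)) (by omega)]
  exact single_le_sum (f := fun i => |P.coeff i|) (fun _ _ => abs_nonneg _)
    (mem_range.2 (by omega))

theorem nrm1_add_le (P Q : ℤ[X]) : nrm1 (P + Q) ≤ nrm1 P + nrm1 Q := by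
  have h1 := natDegree_add_le P Q
  rw [nrm1_eq (P + Q) (n := max P.natDegree Q.natDegree + 1) (by omega),
    nrm1_eq P (n := max P.natDegree Q.natDegree + 1) (by omega),
    nrm1_eq Q (n := max P.natDegree Q.natDegree + 1) (by omega), ← sum_add_distrib]
  refine sum_le_sum fun i _ => ?_
  rw [coeff_add]
  exact abs_add_le _ _

theorem nrm1_zero : nrm1 0 = 0 := by simp [nrm1]

theorem nrm1_sum_le {ι : Type*} (s : Finset ι) (P : ι → ℤ[X]) :
    nrm1 (∑ i ∈ s, P i) ≤ ∑ i ∈ s, nrm1 (P i) := by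
  classical
  induction s using Finset.induction_on with
  | empty => simp [nrm1_zero]
  | insert a s ha ih =>
    rw [sum_insert ha, sum_insert ha]
    exact (nrm1_add_le _ _).trans (by linarith)

theorem nrm1_C_mul (a : ℤ) (P : ℤ[X]) : nrm1 (C a * P) = |a| * nrm1 P := by
  rw [nrm1_eq (C a * P) (n := P.natDegree + 1) (by
    have := natDegree_C_mul_le a P
    omega), nrm1, mul_sum]
  refine sum_congr rfl fun i _ => ?_
  rw [coeff_C_mul, abs_mul]

theorem nrm1_X_pow_mul (n : ℕ) (P : ℤ[X]) : nrm1 (X ^ n * P) = nrm1 P := by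
  rw [nrm1_eq (X ^ n * P) (n := P.natDegree + 1 + n) (by
    have h1 := natDegree_mul_le (p := (X : ℤ[X]) ^ n) (q := P)
    have h2 : ((X : ℤ[X]) ^ n).natDegree = n := natDegree_X_pow n
    omega), nrm1]
  rw [add_comm (P.natDegree + 1) n, sum_range_add]
  rw [sum_eq_zero, zero_add]
  · refine sum_congr rfl fun i _ => ?_
    rw [coeff_X_pow_mul', if_pos (by omega), Nat.add_sub_cancel_left]
  · intro i hi
    rw [mem_range] at hi
    rw [coeff_X_pow_mul', if_neg (by omega), abs_zero]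

theorem nrm1_mul_le (P Q : ℤ[X]) : nrm1 (P * Q) ≤ nrm1 P * nrm1 Q := by
  have h : P * Q = ∑ i ∈ range (P.natDegree + 1), C (P.coeff i) * (X ^ i * Q) := by
    conv_lhs => rw [P.as_sum_range_C_mul_X_pow]
    rw [sum_mul]
    exact sum_congr rfl fun i _ => by ring
  rw [h]
  refine (nrm1_sum_le _ _).trans ?_
  conv_rhs => rw [nrm1, sum_mul]
  refine sum_le_sum fun i _ => ?_
  rw [nrm1_C_mul, nrm1_X_pow_mul]

theorem nrm1_C (a : ℤ) : nrm1 (C a) = |a| := by simp [nrm1]

theorem nrm1_one : nrm1 1 = 1 := by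
  rw [← C_1, nrm1_C, abs_one]

theorem nrm1_pow_le (P : ℤ[X]) (n : ℕ) : nrm1 (P ^ n) ≤ nrm1 P ^ n := by
  induction n with
  | zero => simp [nrm1_one]
  | succ n ih =>
    rw [pow_succ, pow_succ]
    exact (nrm1_mul_le _ _).trans (mul_le_mul_of_nonneg_right ih (nrm1_nonneg P))

theorem nrm1_prod_le {ι : Type*} (s : Finset ι) (P : ι → ℤ[X]) :
    nrm1 (∏ i ∈ s, P i) ≤ ∏ i ∈ s, nrm1 (P i) := by
  classical
  induction s using Finset.induction_on with
  | empty => simp [nrm1_one]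
  | insert a s ha ih =>
    rw [prod_insert ha, prod_insert ha]
    exact (nrm1_mul_le _ _).trans (mul_le_mul_of_nonneg_left ih (nrm1_nonneg _))

theorem nrm1_X_sub_C_le (a : ℤ) : nrm1 (X - C a) ≤ 1 + |a| := by
  have h : (X - C a : ℤ[X]) = X ^ 1 * 1 + C (-a) := by simp [sub_eq_add_neg]
  rw [h]
  refine (nrm1_add_le _ _).trans ?_
  rw [nrm1_X_pow_mul, nrm1_one, nrm1_C, abs_neg]

theorem abs_eval_le_nrm1 (P : ℤ[X]) (n B : ℤ) (hB : 1 ≤ B) (hn : |n| ≤ B) {d : ℕ}
    (hd : P.natDegree ≤ d) : |P.eval n| ≤ nrm1 P * B ^ d := by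
  rw [eval_eq_sum_range, nrm1, sum_mul]
  refine (abs_sum_le_sum_abs _ _).trans (sum_le_sum fun i hi => ?_)
  rw [mem_range] at hi
  rw [abs_mul, abs_pow]
  refine mul_le_mul_of_nonneg_left ?_ (abs_nonneg _)
  exact (pow_le_pow_left₀ (abs_nonneg _) hn i).trans (pow_le_pow_right₀ hB (by omega))

/-- coefficients of a factor whose cofactor is nonzero (Mahler measure). -/
theorem coeff_factor_le (H G : ℤ[X]) (hG : G ≠ 0) (D : ℕ) (hD : H.natDegree ≤ D) (i : ℕ) :
    |H.coeff i| ≤ 2 ^ D * nrm1 (H * G) := by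
  have h1 := norm_coeff_le_choose_mul_mahlerMeasure_of_one_le_mahlerMeasure i
    (H.map (Int.castRingHom ℂ)) (G.map (Int.castRingHom ℂ)) (one_le_mahlerMeasure_of_ne_zero hG)
  rw [← Polynomial.map_mul] at h1
  have h2 := mahlerMeasure_le_sum_norm_coeff ((H * G).map (Int.castRingHom ℂ))
  have h3 : ((H * G).map (Int.castRingHom ℂ)).sum (fun _ a => ‖a‖) = ((nrm1 (H * G) : ℤ) : ℝ) := by
    rw [sum_over_range' _ (by simp) ((H * G).natDegree + 1) (by
      have := natDegree_map_le (p := H * G) (f := Int.castRingHom ℂ)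
      omega), nrm1]
    push_cast
    refine sum_congr rfl fun i _ => ?_
    rw [coeff_map]
    simp
  rw [h3] at h2
  have h4 : ‖(H.map (Int.castRingHom ℂ)).coeff i‖ = ((|H.coeff i| : ℤ) : ℝ) := by
    rw [coeff_map]
    simp
  rw [h4] at h1
  have h5 : (((H.map (Int.castRingHom ℂ)).natDegree.choose i : ℕ) : ℝ) ≤ 2 ^ D := by
    have h6 : (H.map (Int.castRingHom ℂ)).natDegree.choose i ≤ 2 ^ D :=
      (Nat.choose_le_two_pow _ _).trans
        (Nat.pow_le_pow_right (by norm_num) (natDegree_map_le.trans hD))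
    exact_mod_cast h6
  have h6 : ((|H.coeff i| : ℤ) : ℝ) ≤ ((2 ^ D * nrm1 (H * G) : ℤ) : ℝ) := by
    push_cast
    push_cast at h1
    refine h1.trans ?_
    exact mul_le_mul h5 h2 (mahlerMeasure_nonneg _) (by positivity)
  exact_mod_cast h6

end Vale.Agent.P018
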